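import Vale.Agent.P092.H574.H6
import Vale.Agent.P092.H337.HA5

/-!
P092, Track H (`SU(2, n)`, complex), count row (helper574), part 6: the weighted count of two point
walls for `hyp 2 ε J₀`, `J₀` anisotropic; the parameters are helper337's.
-/

set_option linter.all false

namespace Vale.Agent.P092.H574.H

open Matrix MeasureTheory
open Vale.Agent.P092.H303 (FormGroup Idx hyp)
open Vale.Agent.P092.H714.Cl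
open Vale.Agent.P092.H370.Po
open Vale.Agent.P092.CL (ta nmM NW1 NWr scal Lt Gau lt WC)
open Vale.Agent.P092.H632.T2 (BpX gau)
open Vale.Agent.P092.H337.HA (MemG params_of planes)

variable {ι : Type} [Fintype ι] [DecidableEq ι] {N : ℕ} {σ : ℂ →+* ℂ} {ε : ℂ} {J₀ : Matrix ι ι ℂ}

theorem parAt (hσ : ∀ x, ‖σ x‖ = ‖x‖) (hF : Frm σ ε (hyp 2 ε J₀))
    (han : ∀ w, hf σ J₀ w w = 0 → w = 0) (C δ : ℝ) (hC : 1 ≤ C) (hδ : 0 < δ) : ∃ C', ParAt σ (hyp 2 ε J₀) C δ C' := by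
  have hσc : Continuous σ := H899.G.cont_of_isom hσ
  obtain ⟨C', h1, h2⟩ := params_of hF hσc han hC hδ (planes hF hσc hδ)
  have key : ∀ x x' m, MemH σ (hyp 2 ε J₀) C x x' m → MemG σ (hyp 2 ε J₀) C x x' m :=
    fun x x' m h => ⟨h.iso, h.c1, h.c4, h.c2, h.c3⟩
  refine ⟨C', h1, fun x x' hx hx' hi hi' hab => ?_⟩
  obtain ⟨s, q, h3, h4⟩ := h2 x x' hx hx' hi hi' hab
  exact ⟨s, q, fun m hm => h3 m (key _ _ _ hm),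
    fun m m' m'' hm hm' => h4 m m' m'' (key _ _ _ hm) (key _ _ _ hm')⟩

/-- **[H-CNT]** -/
theorem wcH (hσ : ∀ x, ‖σ x‖ = ‖x‖) (hF : Frm σ ε (hyp (0 + 2) ε J₀))
    (han : ∀ w, hf σ J₀ w w = 0 → w = 0) {w : ℂ} (hw : w ≠ 0)
    (hσw : σ w = w) (μ₁ : Measure ℂ) (μ₂ : Measure (CL.V2 σ ε))
    (e : Idx (0 + 2) ι ≃ Fin (N + 1)) {c : ℝ} {F : Finset (SGr σ (hyp (0 + 2) ε J₀) 1)}
    {bp : FormGroup σ (hyp (0 + 2) ε J₀) → SGr σ (hyp (0 + 2) ε J₀) 1}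
    {bm : FormGroup σ (hyp (0 + 2) ε J₀) → SGr σ (hyp (0 + 2) ε J₀) (0 + 2)}
    (hc : 0 < c) (hbp : BpX c F bp) {Γ : Type} [Group Γ]
    {q : Γ → FormGroup σ (hyp (0 + 2) ε J₀)}
    (hq : (lt hF hw hσw μ₁ μ₂).PH q) (hud : (lt hF hw hσw μ₁ μ₂).UD q)
    {I : Type} [Fintype I] {u v : I → C(SGr σ (hyp (0 + 2) ε J₀) 1, ℂ)} {C₀ δ : ℝ}
    (hC₀ : 0 ≤ C₀) (hδ : 0 < δ) (hδ1 : δ ≤ 1)
    (H : ∀ (X Y : SGr σ (hyp (0 + 2) ε J₀) 1) (a b : Idx (0 + 2) ι → ℂ), a ∈ X.S → b ∈ Y.S →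
      ‖a‖ = 1 → ‖b‖ = 1 → ‖∑ i, u i X * v i Y‖ ≤ C₀ * ‖hf σ (hyp (0 + 2) ε J₀) a b‖ ∧
        (∑ i, u i X * v i Y ≠ 0 → ∃ i j, δ ≤ ‖a i * b j - a j * b i‖)) :
    WC (lt hF hw hσw μ₁ μ₂) (gau e (0 + 2) (MonoidHom.id _) bp bm) q u v :=
  wcH' hσ hF hw hσw μ₁ μ₂ (fun δ hδ => pertAt hσ hF δ hδ)
    (fun C δ hC hδ _ => parAt hσ hF han C δ hC hδ) e hc hbp hq hud hC₀ hδ hδ1 H

end Vale.Agent.P092.H574.H
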