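import Vale.Agent.P092.RC.Cc
import Vale.Agent.P092.H575.Uni

/-!
P092, TEAM C (helper574): the compact open sets form a basis of `Z = Y × PGL_m(k)`.
-/

set_option linter.all false

namespace Vale.Agent.P092.H574

open Matrix Filter Topology Projectivization
open Vale.Agent.P092.RC
open Vale.Agent.P092.SR (CO)
open scoped LinearAlgebra.Projectivization MatrixGroups Pointwise

theorem basis_Z {k : Type} [NontriviallyNormedField k] [ProperSpace k] [IsUltrametricDist k]
    [CharZero k] {m : ℕ} (hG : Geo (cc : GG k m → YY k m → PG k m) y0)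
    (z : YY k m × PG k m) (O : Set (YY k m × PG k m)) (hO : O ∈ 𝓝 z) :
    ∃ A : Set (YY k m × PG k m), CO A ∧ z ∈ A ∧ A ⊆ O := by
  haveI := hG.cpt
  haveI := hG.t2
  haveI := hG.td
  haveI := hG.tg₀
  obtain ⟨U, hU, V, hV, hUV⟩ := mem_nhds_prod_iff.1 hO
  obtain ⟨U', hU'U, hU'o, hzU'⟩ := mem_nhds_iff.1 hU
  obtain ⟨B, hB, hzB, hBU⟩ := compact_exists_isClopen_in_isOpen hU'o hzU'
  obtain ⟨p, K, hp, hp1, hK, hc, hop, hcp, hb⟩ :=
    H575.chain_quot k (Fin m) (Subgroup.center (Matrix (Fin m) (Fin m) k)ˣ)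
  have h1 : (fun x : PG k m => z.2 * x) ⁻¹' V ∈ 𝓝 (1 : PG k m) := by
    have hc : Continuous fun x : PG k m => z.2 * x := continuous_const.mul continuous_id
    refine hc.continuousAt.preimage_mem_nhds ?_
    rw [mul_one]
    exact hV
  obtain ⟨n, hn⟩ := hb _ h1
  let A' : Set (PG k m) := (fun x : PG k m => z.2 * x) '' (K n : Set (PG k m))
  have hA' : CO A' := by
    constructor
    · exact (hcp n).image (continuous_const.mul continuous_id)
    · exact (Homeomorph.mulLeft z.2).isOpenMap _ (hop n)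
  refine ⟨B ×ˢ A', ⟨hB.isClosed.isCompact.prod hA'.1, hB.isOpen.prod hA'.2⟩, ⟨hzB, ?_⟩, ?_⟩
  · exact ⟨1, (K n).one_mem, mul_one _⟩
  · refine (Set.prod_mono (hBU.trans hU'U) ?_).trans hUV
    rintro _ ⟨x, hx, rfl⟩
    exact hn hx

end Vale.Agent.P092.H574
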