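import Vale.Agent.P092.H574.Mov

/-!
P092, TEAM C, [C-LINE] step (2b) (helper574): the off diagonal pairs of points of
`Z = Y × PGL₂(k)` are covered by the `Γ`-translates of finitely many compact open rectangles.
-/

set_option linter.all false

namespace Vale.Agent.P092.H574

open Matrix Filter Topology Projectivization
open Vale.Agent.P092.RC
open Vale.Agent.P092.H820
open Vale.Agent.P092.SR (CO)
open scoped LinearAlgebra.Projectivization MatrixGroups Pointwise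

section Iwa

variable {k : Type} [NontriviallyNormedField k]

lemma gl_cont {X : Type*} [TopologicalSpace X] {f : X → GL (Fin 2) k}
    (h : Continuous fun x => (f x).1) : Continuous f := by
  rw [Units.continuous_iff]
  refine ⟨h, ?_⟩
  have e : (fun x => ((f x)⁻¹ : GL (Fin 2) k).1) =
      fun x => ((f x).1.det)⁻¹ • (f x).1.adjugate := by
    funext x
    rw [Matrix.coe_units_inv, Matrix.inv_def, Ring.inverse_eq_inv']
  rw [e]
  exact ((h.matrix_det).inv₀ (fun x => det_ne _)).smul h.matrix_adjugate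

lemma mkG_cont : Continuous (mkG (k := k)) := QuotientGroup.continuous_mk

/-- lower unipotents -/
def ka (c : k) : GL (Fin 2) k := GeneralLinearGroup.mkOfDetNeZero !![1, 0; c, 1] (by simp)

/-- the other chart -/
def kb (c : k) : GL (Fin 2) k := GeneralLinearGroup.mkOfDetNeZero !![0, 1; 1, c] (by simp)

lemma ka_cont : Continuous (ka (k := k)) := by
  refine gl_cont ?_
  show Continuous fun c : k => (!![1, 0; c, 1] : Matrix (Fin 2) (Fin 2) k)
  refine continuous_matrix fun i j => ?_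
  fin_cases i <;> fin_cases j <;> simp <;> first | exact continuous_const | exact continuous_id

lemma kb_cont : Continuous (kb (k := k)) := by
  refine gl_cont ?_
  show Continuous fun c : k => (!![0, 1; 1, c] : Matrix (Fin 2) (Fin 2) k)
  refine continuous_matrix fun i j => ?_
  fin_cases i <;> fin_cases j <;> simp <;> first | exact continuous_const | exact continuous_id

/-- a compact set of classes -/
def K1 (k : Type) [NontriviallyNormedField k] : Set (PG k 2) :=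
  (fun c => mkG (ka c)) '' {c : k | ‖c‖ ≤ 1} ∪ (fun c => mkG (kb c)) '' {c : k | ‖c‖ ≤ 1}

lemma ball_cpt [ProperSpace k] : IsCompact {c : k | ‖c‖ ≤ 1} := by
  have : {c : k | ‖c‖ ≤ 1} = Metric.closedBall 0 1 := by
    ext c
    simp
  rw [this]
  exact isCompact_closedBall 0 1

lemma K1_cpt [ProperSpace k] : IsCompact (K1 k) :=
  (ball_cpt.image (mkG_cont.comp ka_cont)).union (ball_cpt.image (mkG_cont.comp kb_cont))

/-- Iwasawa -/
lemma iwa (h : PG k 2) : ∃ (β v : k) (hβ : β ≠ 0), mkG (af β v hβ) * h ∈ K1 k := by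
  obtain ⟨H, rfl⟩ := mkG_surj h
  have hd := det_ne H
  rw [Matrix.det_fin_two] at hd
  set a := H.1 0 0 with ha
  set b := H.1 0 1 with hb
  set c := H.1 1 0 with hc
  set d := H.1 1 1 with hdd
  obtain ⟨e, he⟩ : ∃ e, e = a * d - b * c := ⟨_, rfl⟩
  rw [← he] at hd
  by_cases hcd : ‖c‖ ≤ ‖d‖
  · have hd0 : d ≠ 0 := by
      intro h0
      rw [h0, norm_zero] at hcd
      have hc0 : c = 0 := norm_le_zero_iff.1 hcd
      rw [h0, hc0] at he
      apply hd
      rw [he]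
      simp
    have hβ : d ^ 2 / e ≠ 0 := div_ne_zero (pow_ne_zero 2 hd0) hd
    refine ⟨d ^ 2 / e, -(d * b / e), hβ, Or.inl ⟨c / d, ?_, ?_⟩⟩
    · show ‖c / d‖ ≤ 1
      rw [norm_div]
      exact div_le_one_of_le₀ hcd (norm_nonneg _)
    · show mkG (ka (c / d)) = _
      rw [← map_mul, mkG_eq]
      refine ⟨d, hd0, ?_⟩
      rw [Units.val_mul]
      ext i j
      fin_cases i <;> fin_cases j <;>
        simp [ka, Matrix.mul_apply, Fin.sum_univ_two, ← ha, ← hb, ← hc, ← hdd,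
          GeneralLinearGroup.mkOfDetNeZero]
      · field_simp
        linear_combination -he
      · field_simp
        ring
      · field_simp
  · have hc0 : c ≠ 0 := by
      rintro h0
      rw [h0, norm_zero] at hcd
      exact hcd (norm_nonneg _)
    have hβ : -(c ^ 2 / e) ≠ 0 := neg_ne_zero.2 (div_ne_zero (pow_ne_zero 2 hc0) hd)
    refine ⟨-(c ^ 2 / e), c * a / e, hβ, Or.inr ⟨d / c, ?_, ?_⟩⟩
    · show ‖d / c‖ ≤ 1
      rw [norm_div]
      exact div_le_one_of_le₀ (le_of_lt (not_le.1 hcd)) (norm_nonneg _)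
    · show mkG (kb (d / c)) = _
      rw [← map_mul, mkG_eq]
      refine ⟨c, hc0, ?_⟩
      rw [Units.val_mul]
      ext i j
      fin_cases i <;> fin_cases j <;>
        simp [kb, Matrix.mul_apply, Fin.sum_univ_two, ← ha, ← hb, ← hc, ← hdd,
          GeneralLinearGroup.mkOfDetNeZero]
      · field_simp
        ring
      · field_simp
        linear_combination -he
      · field_simp

/-- the annulus -/
abbrev An (k : Type) [NontriviallyNormedField k] (r : ℝ) : Type := {c : k // r ≤ ‖c‖ ∧ ‖c‖ ≤ 1}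

lemma An_cpt [ProperSpace k] (r : ℝ) : CompactSpace (An k r) := by
  refine (isCompact_iff_compactSpace (s := {c : k | r ≤ ‖c‖ ∧ ‖c‖ ≤ 1})).1 ?_
  have : {c : k | r ≤ ‖c‖ ∧ ‖c‖ ≤ 1} = {c | r ≤ ‖c‖} ∩ {c | ‖c‖ ≤ 1} := rfl
  rw [this, Set.inter_comm]
  exact ball_cpt.inter_right (isClosed_le continuous_const continuous_norm)

lemma An_ne {r : ℝ} (hr : 0 < r) (c : An k r) : c.1 ≠ 0 := by
  intro h
  have := c.2.1
  rw [h, norm_zero] at this
  linarith

/-- the compact part of the torus -/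
def D1 (k : Type) [NontriviallyNormedField k] {r : ℝ} (hr : 0 < r) : Set (PG k 2) :=
  Set.range fun c : An k r => mkG (dg c.1 (An_ne hr c))

lemma D1_cpt [ProperSpace k] {r : ℝ} (hr : 0 < r) : IsCompact (D1 k hr) := by
  haveI := An_cpt (k := k) r
  refine isCompact_range (mkG_cont.comp (gl_cont ?_))
  show Continuous fun c : An k r => (!![c.1, 0; 0, 1] : Matrix (Fin 2) (Fin 2) k)
  refine continuous_matrix fun i j => ?_
  fin_cases i <;> fin_cases j <;> simp <;>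
    first | exact continuous_const | exact continuous_subtype_val

end Iwa

section Orb

variable {k : Type} [NontriviallyNormedField k]
  (hcc : ∀ g h : GG k 2, ∀ y : YY k 2, cc (g * h) y = cc g (h • y) * cc h y)

/-- elements fixing `y0` and `y1` -/
def pd (a b w u v : k) (h : a * b * w = 1) : GG k 2 :=
  slm !![a, 0, u; 0, b, v; 0, 0, w] (by
    rw [Matrix.det_fin_three]
    simp
    linear_combination h)

/-- their conjugates -/
def pd' (a b w u v : k) (h : a * b * w = 1) : GG k 2 :=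
  slm !![b, 0, v; 0, a, -u; 0, 0, w] (by
    rw [Matrix.det_fin_three]
    simp
    linear_combination h)

lemma pd_wD (a b w u v : k) (h : a * b * w = 1) : pd a b w u v h * wD = wD * pd' a b w u v h := by
  apply Subtype.ext
  show !![a, 0, u; 0, b, v; 0, 0, w] * !![0, -1, 0; 1, 0, 0; 0, 0, 1] =
    !![0, -1, 0; 1, 0, 0; 0, 0, 1] * !![b, 0, v; 0, a, -u; 0, 0, w]
  ext i j
  fin_cases i <;> fin_cases j <;> simp [Matrix.mul_apply, Fin.sum_univ_three]

lemma pd_y0 (a b w u v : k) (h : a * b * w = 1) : pd a b w u v h • (y0 : YY k 2) = y0 := by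
  rw [smul_y0]
  intro i hi
  fin_cases i <;> simp [pd, slm_val] at hi ⊢

lemma pd'_y0 (a b w u v : k) (h : a * b * w = 1) : pd' a b w u v h • (y0 : YY k 2) = y0 := by
  rw [smul_y0]
  intro i hi
  fin_cases i <;> simp [pd', slm_val] at hi ⊢

lemma pd_y1 (a b w u v : k) (h : a * b * w = 1) : pd a b w u v h • (y1 : YY k 2) = y1 := by
  unfold y1
  rw [smul_single, mk_eq_mk_iff']
  refine ⟨b, ?_⟩
  ext i
  fin_cases i <;> simp [pd, slm_val]

lemma pd_cc {a b w u v : k} (h : a * b * w = 1) {β v' : k} (hβ : β ≠ 0) (hb : b = w * β)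
    (hv : v = w * v') : cc (pd a b w u v h) (y0 : YY k 2) = mkG (af β v' hβ) := by
  have hw : w ≠ 0 := by
    rintro rfl
    rw [mul_zero] at h
    exact zero_ne_one h
  obtain ⟨g, hg, hc⟩ := cc_stab (pd_y0 a b w u v h)
  rw [hc]
  symm
  rw [mkG_eq]
  refine ⟨w, hw, ?_⟩
  rw [hg]
  ext i j
  fin_cases i <;> fin_cases j <;> simp [pd, slm_val, hb, hv]

lemma pd'_cc {a b w u v : k} (h : a * b * w = 1) {α u' : k} (hα : α ≠ 0) (ha : a = w * α)
    (hu : -u = w * u') : cc (pd' a b w u v h) (y0 : YY k 2) = mkG (af α u' hα) := by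
  have hw : w ≠ 0 := by
    rintro rfl
    rw [mul_zero] at h
    exact zero_ne_one h
  obtain ⟨g, hg, hc⟩ := cc_stab (pd'_y0 a b w u v h)
  rw [hc]
  symm
  rw [mkG_eq]
  refine ⟨w, hw, ?_⟩
  rw [hg]
  ext i j
  fin_cases i <;> fin_cases j <;> simp [pd', slm_val, ha, hu]

include hcc in
lemma pd_cc1 {a b w u v : k} (h : a * b * w = 1) : cc (pd a b w u v h) (y1 : YY k 2) =
    cc wD (y0 : YY k 2) * cc (pd' a b w u v h) (y0 : YY k 2) * (cc wD (y0 : YY k 2))⁻¹ := by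
  have h1 := hcc (pd a b w u v h) wD y0
  have h2 := hcc wD (pd' a b w u v h) y0
  rw [pd_wD, h2, pd'_y0, wD_y0] at h1
  rw [h1, mul_inv_cancel_right]

/-- the compact set meeting every orbit -/
def S0 (k : Type) [NontriviallyNormedField k] {r : ℝ} (hr : 0 < r) :
    Set ((YY k 2 × PG k 2) × (YY k 2 × PG k 2)) :=
  ({(y0 : YY k 2)} ×ˢ K1 k) ×ˢ ({(y1 : YY k 2)} ×ˢ ({cc (wD : GG k 2) (y0 : YY k 2)} *
    (D1 k hr * K1 k)))

lemma S0_cpt [ProperSpace k] {r : ℝ} (hr : 0 < r) : IsCompact (S0 k hr) :=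
  (isCompact_singleton.prod K1_cpt).prod (isCompact_singleton.prod
    (isCompact_singleton.mul ((D1_cpt hr).mul K1_cpt)))

lemma S0_sub {r : ℝ} (hr : 0 < r) : S0 k hr ⊆ DD k := by
  rintro ⟨⟨y, h⟩, ⟨y', h'⟩⟩ ⟨⟨h1, _⟩, ⟨h2, _⟩⟩
  have e1 : y = y0 := h1
  have e2 : y' = y1 := h2
  show y ≠ y'
  rw [e1, e2]
  exact y1_ne.symm

include hcc in
lemma orb : ∃ (r : ℝ) (hr : 0 < r), ∀ x ∈ DD k, ∃ g : GG k 2,
    (zact cc g x.1, zact cc g x.2) ∈ S0 k hr := by
  obtain ⟨t, ht⟩ := NormedField.exists_one_lt_norm k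
  have ht0 : t ≠ 0 := by
    rintro rfl
    rw [norm_zero] at ht
    linarith
  have hs : 1 < ‖t‖ ^ 3 := one_lt_pow₀ ht (by norm_num)
  have hs0 : 0 < ‖t‖ ^ 3 := by positivity
  refine ⟨(‖t‖ ^ 3)⁻¹, inv_pos.2 hs0, ?_⟩
  rintro ⟨⟨y, h⟩, ⟨y', h'⟩⟩ hx
  have hx' : y ≠ y' := hx
  obtain ⟨g0, hg0, hg1⟩ := two_trans hx'
  have hi0 : g0⁻¹ • y = y0 := by rw [inv_smul_eq_iff, hg0]
  have hi1 : g0⁻¹ • y' = y1 := by rw [inv_smul_eq_iff, hg1]
  set C := cc (wD : GG k 2) (y0 : YY k 2) with hC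
  obtain ⟨β, v, hβ, hK⟩ := iwa (cc g0⁻¹ y * h)
  obtain ⟨α, u, hα, hK'⟩ := iwa (C⁻¹ * (cc g0⁻¹ y' * h'))
  have hαβ : 0 < ‖(α * β)⁻¹‖ := norm_pos_iff.2 (inv_ne_zero (mul_ne_zero hα hβ))
  obtain ⟨n, hn1, hn2⟩ := exists_mem_Ico_zpow hαβ hs
  set w := t ^ (n + 1) with hw
  have hw0 : w ≠ 0 := zpow_ne_zero _ ht0
  have hwn : ‖w‖ ^ 3 = (‖t‖ ^ 3) ^ (n + 1) := by
    rw [hw, norm_zpow, ← zpow_natCast, ← _root_.zpow_mul, ← zpow_natCast, ← _root_.zpow_mul, mul_comm]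
  set c := (α * β)⁻¹ * (w ^ 3)⁻¹ with hc
  have hcn : ‖c‖ = ‖(α * β)⁻¹‖ * ((‖t‖ ^ 3) ^ (n + 1))⁻¹ := by
    rw [hc, norm_mul, norm_inv (w ^ 3), norm_pow, hwn]
  have hp1 : 0 < (‖t‖ ^ 3) ^ (n + 1) := zpow_pos hs0 _
  have hc1 : (‖t‖ ^ 3)⁻¹ ≤ ‖c‖ := by
    rw [hcn, inv_eq_one_div, div_le_iff₀ hs0, ← div_eq_mul_inv, div_mul_eq_mul_div,
      le_div_iff₀ hp1, one_mul, zpow_add_one₀ hs0.ne']
    exact mul_le_mul_of_nonneg_right hn1 hs0.le
  have hc2 : ‖c‖ ≤ 1 := by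
    rw [hcn, ← div_eq_mul_inv, div_le_one hp1]
    exact hn2.le
  have hc0 : c ≠ 0 := mul_ne_zero (inv_ne_zero (mul_ne_zero hα hβ)) (inv_ne_zero (pow_ne_zero 3 hw0))
  have habw : (w * (c * α)) * (w * β) * w = 1 := by
    rw [hc]
    field_simp
  let p : GG k 2 := pd (w * (c * α)) (w * β) w (-(w * (c * u))) (w * v) habw
  have hp0 : cc p (y0 : YY k 2) = mkG (af β v hβ) := pd_cc habw hβ rfl rfl
  have hp1' : cc p (y1 : YY k 2) = C * mkG (af (c * α) (c * u) (mul_ne_zero hc0 hα)) * C⁻¹ := by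
    rw [pd_cc1 hcc, pd'_cc habw (mul_ne_zero hc0 hα) rfl (neg_neg _)]
  have hda : mkG (af (c * α) (c * u) (mul_ne_zero hc0 hα)) = mkG (dg c hc0) * mkG (af α u hα) := by
    rw [← map_mul]
    congr 1
    apply Units.ext
    rw [Units.val_mul]
    ext i j
    fin_cases i <;> fin_cases j <;> simp [Matrix.mul_apply, Fin.sum_univ_two]
  refine ⟨p * g0⁻¹, ⟨?_, ?_⟩, ⟨?_, ?_⟩⟩
  · show (p * g0⁻¹) • y = y0
    rw [mul_smul, hi0]
    exact pd_y0 _ _ _ _ _ _
  · show cc (p * g0⁻¹) y * h ∈ K1 k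
    rw [hcc, hi0, hp0, mul_assoc]
    exact hK
  · show (p * g0⁻¹) • y' = y1
    rw [mul_smul, hi1]
    exact pd_y1 _ _ _ _ _ _
  · show cc (p * g0⁻¹) y' * h' ∈ _
    rw [hcc, hi1, hp1', hda]
    refine Set.mem_mul.2 ⟨C, rfl, _, Set.mem_mul.2 ⟨_, ⟨⟨c, hc1, hc2⟩, rfl⟩, _, hK', rfl⟩, ?_⟩
    simp only [mul_assoc]

end Orb

section Fin

variable {k : Type} [NontriviallyNormedField k]
  (hG : Geo (cc : GG k 2 → YY k 2 → PG k 2) y0)

include hG in
lemma zact_cont : Continuous fun p : GG k 2 × (YY k 2 × PG k 2) => zact cc p.1 p.2 := by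
  have h1 : Continuous fun p : GG k 2 × (YY k 2 × PG k 2) => (p.1, p.2.1) :=
    continuous_fst.prodMk (continuous_fst.comp continuous_snd)
  have h2 : Continuous fun p : GG k 2 × (YY k 2 × PG k 2) => p.1 • p.2.1 :=
    Continuous.comp (g := fun p : GG k 2 × YY k 2 => p.1 • p.2)
      (f := fun p : GG k 2 × (YY k 2 × PG k 2) => (p.1, p.2.1)) hG.cact h1
  have h3 : Continuous fun p : GG k 2 × (YY k 2 × PG k 2) => cc p.1 p.2.1 :=
    Continuous.comp (g := fun p : GG k 2 × YY k 2 => cc p.1 p.2)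
      (f := fun p : GG k 2 × (YY k 2 × PG k 2) => (p.1, p.2.1)) hG.cont h1
  exact h2.prodMk (h3.mul (continuous_snd.comp continuous_snd))

lemma zact_mul (hcc : ∀ g h : GG k 2, ∀ y : YY k 2, cc (g * h) y = cc g (h • y) * cc h y)
    (g h : GG k 2) (z : YY k 2 × PG k 2) : zact cc (g * h) z = zact cc g (zact cc h z) := by
  unfold zact
  rw [hcc, mul_smul, mul_assoc]

lemma zact_one (hcc : ∀ g h : GG k 2, ∀ y : YY k 2, cc (g * h) y = cc g (h • y) * cc h y)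
    (z : YY k 2 × PG k 2) : zact cc (1 : GG k 2) z = z := by
  have := hcc 1 1 z.1
  rw [mul_one, one_smul] at this
  unfold zact
  rw [mul_eq_left.1 this.symm, one_mul, one_smul]

include hG in
/-- **(2b)**: `Γ`-cocompactness of the off diagonal part, with finitely many rectangles. -/
theorem exists_cov [ProperSpace k]
    (hbZ : ∀ z : YY k 2 × PG k 2, ∀ O ∈ 𝓝 z, ∃ A : Set (YY k 2 × PG k 2), CO A ∧ z ∈ A ∧ A ⊆ O)
    {Γ : Type*} [Group Γ] (q : Γ →* GG k 2) {S : Set (GG k 2)} (hS : IsCompact S)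
    (hqS : ∀ g : GG k 2, ∃ γ : Γ, ∃ x ∈ S, g = q γ * x) :
    ∃ (J : Type) (_ : Fintype J) (K K' : J → Set (YY k 2 × PG k 2)), (∀ j, CO (K j)) ∧
      (∀ j, CO (K' j)) ∧ (∀ j, K j ×ˢ K' j ⊆ DD k) ∧
      ∀ x ∈ DD k, ∃ (γ : Γ) (j : J), (zact cc (q γ) x.1, zact cc (q γ) x.2) ∈ K j ×ˢ K' j := by
  classical
  obtain ⟨r, hr, ho⟩ := orb (k := k) hG.mul
  let act : GG k 2 × ((YY k 2 × PG k 2) × (YY k 2 × PG k 2)) →
      (YY k 2 × PG k 2) × (YY k 2 × PG k 2) := fun p => (zact cc p.1 p.2.1, zact cc p.1 p.2.2)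
  have hact : Continuous act := by
    have h0 := zact_cont hG
    refine Continuous.prodMk ?_ ?_
    · exact Continuous.comp (g := fun p : GG k 2 × (YY k 2 × PG k 2) => zact cc p.1 p.2)
        (f := fun p : GG k 2 × ((YY k 2 × PG k 2) × (YY k 2 × PG k 2)) => (p.1, p.2.1)) h0
        (continuous_fst.prodMk (continuous_fst.comp continuous_snd))
    · exact Continuous.comp (g := fun p : GG k 2 × (YY k 2 × PG k 2) => zact cc p.1 p.2)
        (f := fun p : GG k 2 × ((YY k 2 × PG k 2) × (YY k 2 × PG k 2)) => (p.1, p.2.2)) h0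
        (continuous_fst.prodMk (continuous_snd.comp continuous_snd))
  have hS1 : IsCompact (act '' (S ×ˢ S0 k hr)) := (hS.prod (S0_cpt hr)).image hact
  have hS1D : act '' (S ×ˢ S0 k hr) ⊆ DD k := by
    rintro _ ⟨⟨g, x⟩, ⟨_, hx⟩, rfl⟩
    have h1 : x.1.1 ≠ x.2.1 := S0_sub hr hx
    show g • x.1.1 ≠ g • x.2.1
    exact fun e => h1 (smul_left_cancel _ e)
  have hloc : ∀ x : (YY k 2 × PG k 2) × (YY k 2 × PG k 2), x ∈ DD k →
      ∃ A A' : Set (YY k 2 × PG k 2), CO A ∧ CO A' ∧ x ∈ A ×ˢ A' ∧ A ×ˢ A' ⊆ DD k := by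
    intro x hx
    obtain ⟨U, hU, V, hV, hUV⟩ := mem_nhds_prod_iff.1 (DD_open.mem_nhds hx)
    obtain ⟨A, hA, hxA, hAU⟩ := hbZ x.1 U hU
    obtain ⟨A', hA', hxA', hAU'⟩ := hbZ x.2 V hV
    exact ⟨A, A', hA, hA', ⟨hxA, hxA'⟩, (Set.prod_mono hAU hAU').trans hUV⟩
  choose! A A' hA hA' hxA hAD using hloc
  obtain ⟨T, hTS, hT⟩ := hS1.elim_nhds_subcover (fun x => A x ×ˢ A' x) fun x hx =>
    ((hA x (hS1D hx)).2.prod (hA' x (hS1D hx)).2).mem_nhds (hxA x (hS1D hx))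
  refine ⟨T, inferInstance, fun j => A j.1, fun j => A' j.1, fun j => hA _ (hS1D (hTS _ j.2)),
    fun j => hA' _ (hS1D (hTS _ j.2)), fun j => hAD _ (hS1D (hTS _ j.2)), ?_⟩
  intro x hx
  obtain ⟨g, hg⟩ := ho x hx
  obtain ⟨γ, s, hs, hgs⟩ := hqS g⁻¹
  have e : ∀ z : YY k 2 × PG k 2, zact cc (q γ⁻¹) z = zact cc s (zact cc g z) := by
    intro z
    rw [← zact_mul hG.mul]
    congr 1
    have : g = s⁻¹ * q γ⁻¹ := by
      rw [← inv_inv g, hgs, _root_.mul_inv_rev, map_inv]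
    rw [this, mul_inv_cancel_left]
  have hmem : (zact cc (q γ⁻¹) x.1, zact cc (q γ⁻¹) x.2) ∈ act '' (S ×ˢ S0 k hr) := by
    refine ⟨(s, (zact cc g x.1, zact cc g x.2)), ⟨hs, hg⟩, ?_⟩
    show (zact cc s (zact cc g x.1), zact cc s (zact cc g x.2)) = _
    rw [e, e]
  obtain ⟨y, hy, hxy⟩ := Set.mem_iUnion₂.1 (hT hmem)
  exact ⟨γ⁻¹, ⟨y, hy⟩, hxy⟩

end Fin

end Vale.Agent.P092.H574
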