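import Mathlib

/-!
P092, TEAM C, block [C-DEL] (helper574).
A continuous homomorphism `δ : GL₂(k) → PGL₂(k)` with kernel the scalars (`k` a nontrivially
normed field with `2 ≠ 0`) sends unipotents to unipotents and induces an injective equivariant
map `d` of the projective line: `δ(B_c)` fixes `d c`, a nontrivial unipotent at `c` is sent to an
element whose only fixed point is `d c`, a contracting torus element at `c` is sent to a
contracting (hyperbolic) element.
-/

namespace Vale.Agent.P092.H574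

open Matrix Filter Topology Projectivization
open scoped LinearAlgebra.Projectivization MatrixGroups

section Alg

variable {k : Type*} [Field k]

/-- `PGL₂(k)` as a (topological) quotient group. -/
abbrev G0 (k : Type*) [Field k] := GL (Fin 2) k ⧸ Subgroup.center (GL (Fin 2) k)

/-- The projective line. -/
abbrev P1 (k : Type*) [Field k] := ℙ k (Fin 2 → k)

/-- The class of a matrix in `PGL₂(k)`. -/
abbrev mkG : GL (Fin 2) k →* G0 k := QuotientGroup.mk' (Subgroup.center (GL (Fin 2) k))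

lemma smul_vec (g : GL (Fin 2) k) (v : Fin 2 → k) : g • v = g.1 *ᵥ v := rfl

lemma center_iff {g : GL (Fin 2) k} :
    g ∈ Subgroup.center (GL (Fin 2) k) ↔ ∃ c : k, g.1 = Matrix.scalar (Fin 2) c := by
  rw [GeneralLinearGroup.mem_center_iff_val_mem_range_scalar]
  constructor
  · rintro ⟨c, hc⟩; exact ⟨c, hc.symm⟩
  · rintro ⟨c, hc⟩; exact ⟨c, hc.symm⟩

lemma center_iff' {g : GL (Fin 2) k} :
    g ∈ Subgroup.center (GL (Fin 2) k) ↔ g.1 0 1 = 0 ∧ g.1 1 0 = 0 ∧ g.1 0 0 = g.1 1 1 := by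
  rw [center_iff]
  constructor
  · rintro ⟨c, hc⟩
    rw [hc]
    simp
  · rintro ⟨h1, h2, h3⟩
    refine ⟨g.1 0 0, ?_⟩
    ext i j
    fin_cases i <;> fin_cases j <;> simp [h1, h2, h3]

lemma mkG_surj : Function.Surjective (mkG (k := k)) := QuotientGroup.mk'_surjective _

lemma mkG_eq_one {g : GL (Fin 2) k} : mkG g = 1 ↔ g ∈ Subgroup.center (GL (Fin 2) k) := by
  rw [← MonoidHom.mem_ker, QuotientGroup.ker_mk']

lemma mkG_eq {g h : GL (Fin 2) k} : mkG g = mkG h ↔ ∃ c : k, c ≠ 0 ∧ h.1 = c • g.1 := by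
  rw [QuotientGroup.mk'_apply, QuotientGroup.mk'_apply, QuotientGroup.eq, center_iff]
  constructor
  · rintro ⟨c, hc⟩
    have e : h.1 = g.1 * (g⁻¹ * h).1 := by
      rw [← Units.val_mul]; simp
    have e2 : h.1 = c • g.1 := by
      rw [e, hc]
      ext i j
      simp [Matrix.mul_apply, Matrix.diagonal_apply, mul_comm]
    refine ⟨c, ?_, e2⟩
    rintro rfl
    rw [zero_smul] at e2
    exact h.ne_zero e2
  · rintro ⟨c, hc, e⟩
    refine ⟨c, ?_⟩
    rw [Units.val_mul, e]
    rw [Matrix.mul_smul, ← Units.val_mul, inv_mul_cancel, Units.val_one]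
    ext i j
    simp [Matrix.one_apply, Matrix.diagonal_apply]

/-- scalar matrices act trivially on the projective line -/
lemma smul_center {g : GL (Fin 2) k} (hg : g ∈ Subgroup.center (GL (Fin 2) k)) (p : P1 k) :
    g • p = p := by
  obtain ⟨c, hc⟩ := center_iff.1 hg
  induction p using Projectivization.ind with
  | h v hv =>
    rw [smul_mk, mk_eq_mk_iff']
    refine ⟨c, ?_⟩
    rw [smul_vec, hc]
    simp

/-- the action of `PGL₂(k)` on the projective line -/
def pm : G0 k →* Equiv.Perm (P1 k) :=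
  QuotientGroup.lift (Subgroup.center (GL (Fin 2) k)) (MulAction.toPermHom (GL (Fin 2) k) (P1 k))
    (fun g hg => by
      ext p
      simp [smul_center hg])

@[simp] lemma pm_mk (g : GL (Fin 2) k) (p : P1 k) : pm (mkG g) p = g • p := rfl

lemma pm_mul (x y : G0 k) (p : P1 k) : pm (x * y) p = pm x (pm y p) := by
  rw [map_mul]; rfl

/-- the point at infinity -/
def e0 : P1 k := mk k ![1, 0] (by simp)

/-- the upper triangular unipotents -/
def un (b : k) : GL (Fin 2) k := GeneralLinearGroup.mkOfDetNeZero !![1, b; 0, 1] (by simp)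

/-- the lower triangular unipotent -/
def lo : GL (Fin 2) k := GeneralLinearGroup.mkOfDetNeZero !![1, 0; 1, 1] (by simp)

/-- the diagonal matrices `diag(a, 1)` -/
def dg (a : k) (ha : a ≠ 0) : GL (Fin 2) k :=
  GeneralLinearGroup.mkOfDetNeZero !![a, 0; 0, 1] (by simpa using ha)

/-- the affine matrices -/
def af (a b : k) (ha : a ≠ 0) : GL (Fin 2) k :=
  GeneralLinearGroup.mkOfDetNeZero !![a, b; 0, 1] (by simpa using ha)

@[simp] lemma un_val (b : k) : (un b).1 = !![1, b; 0, 1] := rfl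
@[simp] lemma lo_val : (lo (k := k)).1 = !![1, 0; 1, 1] := rfl
@[simp] lemma dg_val (a : k) (ha : a ≠ 0) : (dg a ha).1 = !![a, 0; 0, 1] := rfl
@[simp] lemma af_val (a b : k) (ha : a ≠ 0) : (af a b ha).1 = !![a, b; 0, 1] := rfl

lemma un_add (b c : k) : un (b + c) = un b * un c := by
  apply Units.ext
  rw [Units.val_mul, un_val, un_val, un_val]
  ext i j
  fin_cases i <;> fin_cases j <;> simp [Matrix.mul_apply, Fin.sum_univ_two, add_comm]

lemma un_zero : un (0 : k) = 1 := by
  apply Units.ext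
  rw [un_val, Units.val_one]
  ext i j
  fin_cases i <;> fin_cases j <;> simp

lemma un_inv (b : k) : (un b)⁻¹ = un (-b) := by
  rw [inv_eq_iff_mul_eq_one, ← un_add, add_neg_cancel, un_zero]

lemma un_not_center {b : k} (hb : b ≠ 0) : un b ∉ Subgroup.center (GL (Fin 2) k) := by
  rw [center_iff']
  simp [hb]

/-- the stabiliser of the point at infinity -/
lemma smul_e0 {g : GL (Fin 2) k} : g • (e0 : P1 k) = e0 ↔ g.1 1 0 = 0 := by
  unfold e0
  rw [smul_mk, mk_eq_mk_iff']
  constructor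
  · rintro ⟨c, hc⟩
    have := congrFun hc 1
    rw [smul_vec] at this
    simpa [Matrix.mulVec, dotProduct, Fin.sum_univ_two] using this.symm
  · intro h
    refine ⟨g.1 0 0, ?_⟩
    rw [smul_vec]
    ext i
    fin_cases i <;> simp [Matrix.mulVec, dotProduct, Fin.sum_univ_two, h]

/-- `GL₂` is transitive on the projective line -/
lemma exists_smul_e0 (p : P1 k) : ∃ g : GL (Fin 2) k, g • (e0 : P1 k) = p := by
  induction p using Projectivization.ind with
  | h v hv =>
    by_cases hx : v 0 = 0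
    · have hy : v 1 ≠ 0 := by
        intro hy
        apply hv
        ext i
        fin_cases i
        · simpa using hx
        · simpa using hy
      refine ⟨GeneralLinearGroup.mkOfDetNeZero !![v 0, 1; v 1, 0] (by simp [hy]), ?_⟩
      unfold e0
      rw [smul_mk, mk_eq_mk_iff']
      refine ⟨1, ?_⟩
      rw [smul_vec]
      ext i
      fin_cases i <;> simp [GeneralLinearGroup.mkOfDetNeZero, Matrix.mulVec, dotProduct,
        Fin.sum_univ_two]
    · refine ⟨GeneralLinearGroup.mkOfDetNeZero !![v 0, 0; v 1, 1] (by simp [hx]), ?_⟩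
      unfold e0
      rw [smul_mk, mk_eq_mk_iff']
      refine ⟨1, ?_⟩
      rw [smul_vec]
      ext i
      fin_cases i <;> simp [GeneralLinearGroup.mkOfDetNeZero, Matrix.mulVec, dotProduct,
        Fin.sum_univ_two]

/-- every point but infinity is the image of `[0 : 1]` under an upper unipotent; here in the
form: some upper unipotent moves it to `w • e0` with `w` the Weyl element. -/
lemma exists_un_smul {p : P1 k} (hp : p ≠ e0) :
    ∃ b : k, un b • p = mk k ![0, 1] (by simp) := by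
  induction p using Projectivization.ind with
  | h v hv =>
    have hy : v 1 ≠ 0 := by
      intro hy
      apply hp
      unfold e0
      rw [mk_eq_mk_iff']
      refine ⟨v 0, ?_⟩
      ext i
      fin_cases i <;> simp [hy]
    refine ⟨-(v 0 / v 1), ?_⟩
    rw [smul_mk, mk_eq_mk_iff']
    refine ⟨v 1, ?_⟩
    rw [smul_vec]
    ext i
    fin_cases i
    · simp [Matrix.mulVec, dotProduct, Fin.sum_univ_two]
      field_simp
      ring
    · simp [Matrix.mulVec, dotProduct, Fin.sum_univ_two]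

lemma lo_smul : (lo : GL (Fin 2) k) • (mk k ![0, 1] (by simp) : P1 k) = mk k ![0, 1] (by simp) := by
  rw [smul_mk, mk_eq_mk_iff']
  refine ⟨1, ?_⟩
  rw [smul_vec]
  ext i
  fin_cases i <;> simp [Matrix.mulVec, dotProduct, Fin.sum_univ_two]

lemma conj_un {g : GL (Fin 2) k} (hg : g • (e0 : P1 k) = e0) (b : k) :
    g * un b * g⁻¹ = un (g.1 0 0 * b / g.1 1 1) := by
  rw [smul_e0] at hg
  have hdet : g.1.det ≠ 0 := (GeneralLinearGroup.det_ne_zero g)
  rw [Matrix.det_fin_two, hg, mul_zero, sub_zero] at hdet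
  have h0 : g.1 0 0 ≠ 0 := left_ne_zero_of_mul hdet
  have h1 : g.1 1 1 ≠ 0 := right_ne_zero_of_mul hdet
  rw [mul_inv_eq_iff_eq_mul]
  apply Units.ext
  rw [Units.val_mul, Units.val_mul, un_val, un_val]
  ext i j
  fin_cases i <;> fin_cases j <;>
    simp [Matrix.mul_apply, Fin.sum_univ_two, hg]
  field_simp
  ring

/-- the condition `tr² = 4 det` (parabolic or trivial) -/
def Par (A : GL (Fin 2) k) : Prop := A.1.trace ^ 2 = 4 * A.1.det

/-- the conjugation invariant function `tr² / det` on `PGL₂(k)` -/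
def trd (A : GL (Fin 2) k) : k := A.1.trace ^ 2 / A.1.det

/-- the function `a₁₂² / det` on `PGL₂(k)` -/
def ofd (A : GL (Fin 2) k) : k := A.1 0 1 ^ 2 / A.1.det

lemma det_smul2 (c : k) (M : Matrix (Fin 2) (Fin 2) k) : (c • M).det = c ^ 2 * M.det := by
  rw [Matrix.det_smul, Fintype.card_fin]

lemma det_ne (A : GL (Fin 2) k) : A.1.det ≠ 0 := GeneralLinearGroup.det_ne_zero A

lemma trd_mk {g h : GL (Fin 2) k} (e : mkG g = mkG h) : trd g = trd h := by
  obtain ⟨c, hc, e⟩ := mkG_eq.1 e
  have hd := det_ne g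
  unfold trd
  rw [e, det_smul2, Matrix.trace_smul, smul_eq_mul]
  field_simp

lemma ofd_mk {g h : GL (Fin 2) k} (e : mkG g = mkG h) : ofd g = ofd h := by
  obtain ⟨c, hc, e⟩ := mkG_eq.1 e
  have hd := det_ne g
  unfold ofd
  rw [e, det_smul2, Matrix.smul_apply, smul_eq_mul]
  field_simp

lemma trd_conj (A g : GL (Fin 2) k) : trd (g * A * g⁻¹) = trd A := by
  unfold trd
  have h1 : (g * A * g⁻¹).1.trace = A.1.trace := by
    rw [Units.val_mul, Units.val_mul, Matrix.trace_mul_cycle, ← Units.val_mul, inv_mul_cancel,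
      Units.val_one, Matrix.one_mul]
  have h2 : (g * A * g⁻¹).1.det = A.1.det := by
    rw [Units.val_mul, Units.val_mul, Matrix.det_mul, Matrix.det_mul, mul_comm, ← mul_assoc,
      ← Matrix.det_mul, ← Units.val_mul, inv_mul_cancel, Units.val_one, Matrix.det_one, one_mul]
  rw [h1, h2]

lemma trd_par {A : GL (Fin 2) k} : trd A = 4 ↔ Par A := by
  unfold trd Par
  rw [div_eq_iff (det_ne A)]

/-- kernel vectors of `A - tr A / 2` -/
def Fx (A : GL (Fin 2) k) (v : Fin 2 → k) : Prop :=
  (A.1 0 0 - A.1 1 1) * v 0 + 2 * A.1 0 1 * v 1 = 0 ∧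
    2 * A.1 1 0 * v 0 + (A.1 1 1 - A.1 0 0) * v 1 = 0

lemma par_eq {A : GL (Fin 2) k} (hA : Par A) :
    (A.1 0 0 - A.1 1 1) ^ 2 + 4 * A.1 0 1 * A.1 1 0 = 0 := by
  unfold Par at hA
  rw [Matrix.trace_fin_two, Matrix.det_fin_two] at hA
  linear_combination hA

/-- fixed points of a parabolic element -/
lemma fix_iff (h2 : (2 : k) ≠ 0) {A : GL (Fin 2) k} (hA : Par A) {v : Fin 2 → k} (hv : v ≠ 0) :
    A • (mk k v hv : P1 k) = mk k v hv ↔ Fx A v := by
  have hA' := par_eq hA
  rw [smul_mk, mk_eq_mk_iff']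
  constructor
  · rintro ⟨c, hc⟩
    rw [smul_vec] at hc
    have h0 := congrFun hc 0
    have h1 := congrFun hc 1
    simp only [Pi.smul_apply, smul_eq_mul, Matrix.mulVec, dotProduct, Fin.sum_univ_two] at h0 h1
    set a := A.1 0 0
    set b := A.1 0 1
    set e := A.1 1 0
    set d := A.1 1 1
    -- (2c - a - d)^2 v = 0
    have k0 : (2 * c - a - d) ^ 2 * v 0 = 0 := by
      linear_combination (v 0) * hA' + (2 * (2 * c - a - d) + 2 * (a - d)) * h0 + 4 * b * h1
    have k1 : (2 * c - a - d) ^ 2 * v 1 = 0 := by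
      linear_combination (v 1) * hA' + (2 * (2 * c - a - d) + 2 * (d - a)) * h1 + 4 * e * h0
    have kc : 2 * c - a - d = 0 := by
      by_contra hne
      apply hv
      have hne2 : (2 * c - a - d) ^ 2 ≠ 0 := pow_ne_zero 2 hne
      ext i
      fin_cases i
      · simpa using (mul_eq_zero.1 k0).resolve_left hne2
      · simpa using (mul_eq_zero.1 k1).resolve_left hne2
    constructor
    · linear_combination (-2) * h0 + (v 0) * kc
    · linear_combination (-2) * h1 + (v 1) * kc
  · rintro ⟨h0, h1⟩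
    refine ⟨(A.1 0 0 + A.1 1 1) / 2, ?_⟩
    rw [smul_vec]
    ext i
    fin_cases i
    · simp only [Pi.smul_apply, smul_eq_mul, Matrix.mulVec, dotProduct, Fin.sum_univ_two,
        Fin.zero_eta, Fin.isValue]
      field_simp
      linear_combination -h0
    · simp only [Pi.smul_apply, smul_eq_mul, Matrix.mulVec, dotProduct, Fin.sum_univ_two,
        Fin.mk_one, Fin.isValue]
      field_simp
      linear_combination -h1

lemma fx_exists {A : GL (Fin 2) k} (hA : Par A) : ∃ v : Fin 2 → k, v ≠ 0 ∧ Fx A v := by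
  have hA' := par_eq hA
  by_cases h : A.1 0 0 - A.1 1 1 = 0 ∧ 2 * A.1 1 0 = 0
  · refine ⟨![1, 0], by simp, ?_, ?_⟩
    · simp [h.1]
    · simp [h.2]
  · refine ⟨![A.1 0 0 - A.1 1 1, 2 * A.1 1 0], ?_, ?_, ?_⟩
    · intro h0
      apply h
      exact ⟨by simpa using congrFun h0 0, by simpa using congrFun h0 1⟩
    · simp
      linear_combination hA'
    · simp
      ring

lemma fx_unique (h2 : (2 : k) ≠ 0) {A : GL (Fin 2) k}
    (hc : A ∉ Subgroup.center (GL (Fin 2) k)) {v w : Fin 2 → k} (hv : v ≠ 0) (hw : w ≠ 0)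
    (h : Fx A v) (h' : Fx A w) : (mk k v hv : P1 k) = mk k w hw := by
  have key : v 0 * w 1 - v 1 * w 0 = 0 := by
    by_contra hne
    apply hc
    rw [center_iff']
    obtain ⟨h0, h1⟩ := h
    obtain ⟨g0, g1⟩ := h'
    refine ⟨?_, ?_, ?_⟩
    · have : (v 0 * w 1 - v 1 * w 0) * (2 * A.1 0 1) = 0 := by
        linear_combination (v 0) * g0 - (w 0) * h0
      rcases mul_eq_zero.1 this with h | h
      · exact absurd h hne
      · exact (mul_eq_zero.1 h).resolve_left h2
    · have : (v 0 * w 1 - v 1 * w 0) * (2 * A.1 1 0) = 0 := by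
        linear_combination (w 1) * h1 - (v 1) * g1
      rcases mul_eq_zero.1 this with h | h
      · exact absurd h hne
      · exact (mul_eq_zero.1 h).resolve_left h2
    · have : (v 0 * w 1 - v 1 * w 0) * (A.1 0 0 - A.1 1 1) = 0 := by
        linear_combination (w 1) * h0 - (v 1) * g0
      rcases mul_eq_zero.1 this with h | h
      · exact absurd h hne
      · exact sub_eq_zero.1 h
  rw [mk_eq_mk_iff']
  by_cases hw0 : w 0 = 0
  · have hw1 : w 1 ≠ 0 := by
      intro h
      apply hw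
      ext i
      fin_cases i
      · simpa using hw0
      · simpa using h
    refine ⟨v 1 / w 1, ?_⟩
    ext i
    fin_cases i
    · simp only [Fin.zero_eta, Fin.isValue, Pi.smul_apply, smul_eq_mul, hw0, mul_zero]
      rw [hw0, mul_zero, sub_zero] at key
      exact ((mul_eq_zero.1 key).resolve_right hw1).symm
    · simp [hw1]
  · refine ⟨v 0 / w 0, ?_⟩
    ext i
    fin_cases i
    · simp [hw0]
    · simp only [Fin.mk_one, Fin.isValue, Pi.smul_apply, smul_eq_mul]
      field_simp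
      linear_combination key

/-- a nontrivial parabolic element has exactly one fixed point -/
lemma par_fix (h2 : (2 : k) ≠ 0) {A : GL (Fin 2) k} (hA : Par A)
    (hc : A ∉ Subgroup.center (GL (Fin 2) k)) :
    ∃ p : P1 k, ∀ q : P1 k, A • q = q ↔ q = p := by
  obtain ⟨v, hv, hf⟩ := fx_exists hA
  refine ⟨mk k v hv, fun q => ?_⟩
  constructor
  · intro hq
    induction q using Projectivization.ind with
    | h w hw =>
      rw [fix_iff h2 hA hw] at hq
      exact fx_unique h2 hc hw hv hq hf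
  · rintro rfl
    exact (fix_iff h2 hA hv).2 hf

/-- parabolic elements with a common fixed point commute -/
lemma par_comm (h2 : (2 : k) ≠ 0) {A B : GL (Fin 2) k} (hA : Par A) (hB : Par B) {p : P1 k}
    (h : A • p = p) (h' : B • p = p) : A * B = B * A := by
  induction p using Projectivization.ind with
  | h v hv =>
    rw [fix_iff h2 hA hv] at h
    rw [fix_iff h2 hB hv] at h'
    obtain ⟨a0, a1⟩ := h
    obtain ⟨b0, b1⟩ := h'
    -- the three commutation identities
    have key : ∀ X : k, X * v 0 = 0 → X * v 1 = 0 → X = 0 := by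
      intro X hx hy
      by_contra hX
      apply hv
      ext i
      fin_cases i
      · simpa using (mul_eq_zero.1 hx).resolve_left hX
      · simpa using (mul_eq_zero.1 hy).resolve_left hX
    have k1 : (A.1 0 0 - A.1 1 1) * B.1 0 1 - (B.1 0 0 - B.1 1 1) * A.1 0 1 = 0 := by
      have : 2 * ((A.1 0 0 - A.1 1 1) * B.1 0 1 - (B.1 0 0 - B.1 1 1) * A.1 0 1) = 0 := by
        apply key
        · linear_combination (2 * B.1 0 1) * a0 - (2 * A.1 0 1) * b0
        · linear_combination (A.1 0 0 - A.1 1 1) * b0 - (B.1 0 0 - B.1 1 1) * a0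
      exact (mul_eq_zero.1 this).resolve_left h2
    have k2 : (A.1 0 0 - A.1 1 1) * B.1 1 0 - (B.1 0 0 - B.1 1 1) * A.1 1 0 = 0 := by
      have : 2 * ((A.1 0 0 - A.1 1 1) * B.1 1 0 - (B.1 0 0 - B.1 1 1) * A.1 1 0) = 0 := by
        apply key
        · linear_combination (A.1 0 0 - A.1 1 1) * b1 - (B.1 0 0 - B.1 1 1) * a1
        · linear_combination (2 * A.1 1 0) * b1 - (2 * B.1 1 0) * a1
      exact (mul_eq_zero.1 this).resolve_left h2
    have k3 : A.1 0 1 * B.1 1 0 - B.1 0 1 * A.1 1 0 = 0 := by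
      have : 2 * 2 * (A.1 0 1 * B.1 1 0 - B.1 0 1 * A.1 1 0) = 0 := by
        apply key
        · linear_combination (2 * A.1 0 1) * b1 - (2 * B.1 0 1) * a1 +
            (B.1 0 0 - B.1 1 1) * a0 - (A.1 0 0 - A.1 1 1) * b0
        · linear_combination (2 * B.1 1 0) * a0 - (2 * A.1 1 0) * b0 -
            (A.1 0 0 - A.1 1 1) * b1 + (B.1 0 0 - B.1 1 1) * a1
      exact (mul_eq_zero.1 this).resolve_left (mul_ne_zero h2 h2)
    apply Units.ext
    rw [Units.val_mul, Units.val_mul]
    ext i j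
    fin_cases i <;> fin_cases j
    · simp only [Matrix.mul_apply, Fin.sum_univ_two, Fin.zero_eta, Fin.isValue]
      linear_combination k3
    · simp only [Matrix.mul_apply, Fin.sum_univ_two, Fin.zero_eta, Fin.mk_one, Fin.isValue]
      linear_combination k1
    · simp only [Matrix.mul_apply, Fin.sum_univ_two, Fin.zero_eta, Fin.mk_one, Fin.isValue]
      linear_combination -k2
    · simp only [Matrix.mul_apply, Fin.sum_univ_two, Fin.mk_one, Fin.isValue]
      linear_combination -k3

end Alg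

section Top

variable {k : Type*} [NontriviallyNormedField k]

/-- `tr² / det` on the quotient -/
noncomputable def trq : G0 k → k :=
  fun x => Quotient.liftOn' x trd (fun g h e => trd_mk (by
    have : (g : G0 k) = (h : G0 k) := Quotient.sound' e
    exact this))

/-- `a₁₂² / det` on the quotient -/
noncomputable def ofq : G0 k → k :=
  fun x => Quotient.liftOn' x ofd (fun g h e => ofd_mk (by
    have : (g : G0 k) = (h : G0 k) := Quotient.sound' e
    exact this))

@[simp] lemma trq_mk (g : GL (Fin 2) k) : trq (mkG g) = trd g := rfl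
@[simp] lemma ofq_mk (g : GL (Fin 2) k) : ofq (mkG g) = ofd g := rfl

lemma trq_cont : Continuous (trq (k := k)) := by
  refine Continuous.quotient_liftOn' ?_ _
  unfold trd
  refine Continuous.div₀ ?_ ?_ (fun g => det_ne g)
  · exact (Units.continuous_val.matrix_trace).pow 2
  · exact Units.continuous_val.matrix_det

lemma ofq_cont : Continuous (ofq (k := k)) := by
  refine Continuous.quotient_liftOn' ?_ _
  unfold ofd
  refine Continuous.div₀ ?_ ?_ (fun g => det_ne g)
  · exact (Units.continuous_val.matrix_elem 0 1).pow 2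
  · exact Units.continuous_val.matrix_det

lemma un_cont : Continuous (un (k := k)) := by
  rw [Units.continuous_iff]
  have h : Continuous fun b : k => (!![1, b; 0, 1] : Matrix (Fin 2) (Fin 2) k) := by
    refine continuous_matrix fun i j => ?_
    fin_cases i <;> fin_cases j <;> simp <;> fun_prop
  refine ⟨h, ?_⟩
  have : (fun b : k => (((un b)⁻¹ : GL (Fin 2) k) : Matrix (Fin 2) (Fin 2) k)) =
      fun b => !![1, -b; 0, 1] := by
    funext b
    rw [un_inv]; rfl
  rw [this]
  exact h.comp continuous_neg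

lemma dg_conj (a : k) (ha : a ≠ 0) (b : k) (n : ℕ) :
    dg a ha ^ n * un b * (dg a ha ^ n)⁻¹ = un (a ^ n * b) := by
  induction n with
  | zero => simp
  | succ n ih =>
    have e : dg a ha ^ (n + 1) * un b * (dg a ha ^ (n + 1))⁻¹ =
        dg a ha * (dg a ha ^ n * un b * (dg a ha ^ n)⁻¹) * (dg a ha)⁻¹ := by
      rw [pow_succ', _root_.mul_inv_rev]
      group
    rw [e, ih, conj_un (by rw [smul_e0]; simp)]
    congr 1
    simp [pow_succ']
    ring

lemma tendsto_conj {a : k} (ha : a ≠ 0) (ha1 : ‖a‖ < 1) (b : k) :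
    Tendsto (fun n : ℕ => dg a ha ^ n * un b * (dg a ha ^ n)⁻¹) atTop (𝓝 1) := by
  have h1 : Tendsto (fun n : ℕ => a ^ n * b) atTop (𝓝 0) := by
    have := (tendsto_pow_atTop_nhds_zero_of_norm_lt_one ha1).mul_const b
    simpa using this
  have h2 := (un_cont (k := k)).tendsto 0 |>.comp h1
  rw [un_zero] at h2
  refine h2.congr fun n => ?_
  rw [dg_conj]
  rfl

variable (δ : GL (Fin 2) k →* G0 k) (hδ : Continuous δ)
  (hk : ∀ g, δ g = 1 → g ∈ Subgroup.center (GL (Fin 2) k))

include hδ in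
lemma trq_un {a : k} (ha : a ≠ 0) (ha1 : ‖a‖ < 1) (b : k) : trq (δ (un b)) = 4 := by
  have h1 := (hδ.tendsto 1).comp (tendsto_conj ha ha1 b)
  rw [map_one] at h1
  have h2 := (trq_cont.tendsto (1 : G0 k)).comp h1
  have e1 : trq (1 : G0 k) = 4 := by
    have : (1 : G0 k) = mkG 1 := (map_one _).symm
    rw [this, trq_mk]
    unfold trd
    simp
    norm_num
  have e2 : ∀ n : ℕ, trq (δ (dg a ha ^ n * un b * (dg a ha ^ n)⁻¹)) = trq (δ (un b)) := by
    intro n
    obtain ⟨A, hA⟩ := mkG_surj (δ (dg a ha ^ n))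
    obtain ⟨B, hB⟩ := mkG_surj (δ (un b))
    rw [map_mul, map_mul, map_inv, ← hA, ← hB, ← map_mul, ← map_inv, ← map_mul, trq_mk, trq_mk,
      trd_conj]
  rw [e1] at h2
  have h3 : Tendsto (fun _ : ℕ => trq (δ (un b))) atTop (𝓝 4) := by
    refine h2.congr fun n => ?_
    exact e2 n
  exact (tendsto_nhds_unique h3 tendsto_const_nhds).symm ▸ rfl

lemma trq_conj (x y : G0 k) : trq (x * y * x⁻¹) = trq y := by
  obtain ⟨A, rfl⟩ := mkG_surj x
  obtain ⟨B, rfl⟩ := mkG_surj y
  rw [← map_mul, ← map_inv, ← map_mul, trq_mk, trq_mk, trd_conj]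

/-- `PGL₂` version of `par_fix` -/
lemma parq_fix (h2 : (2 : k) ≠ 0) {x : G0 k} (hx : trq x = 4) (h1 : x ≠ 1) :
    ∃ p : P1 k, ∀ q : P1 k, pm x q = q ↔ q = p := by
  obtain ⟨A, rfl⟩ := mkG_surj x
  have hA : Par A := trd_par.1 hx
  have hc : A ∉ Subgroup.center (GL (Fin 2) k) := fun h => h1 (mkG_eq_one.2 h)
  exact par_fix h2 hA hc

/-- `PGL₂` version of `par_comm` -/
lemma parq_comm (h2 : (2 : k) ≠ 0) {x y : G0 k} (hx : trq x = 4) (hy : trq y = 4) {p : P1 k}
    (h : pm x p = p) (h' : pm y p = p) : x * y = y * x := by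
  obtain ⟨A, rfl⟩ := mkG_surj x
  obtain ⟨B, rfl⟩ := mkG_surj y
  rw [← map_mul, ← map_mul, par_comm h2 (trd_par.1 hx) (trd_par.1 hy) h h']

lemma exists_small : ∃ a : k, a ≠ 0 ∧ ‖a‖ < 1 := by
  obtain ⟨a, ha, ha1⟩ := NormedField.exists_norm_lt_one k
  exact ⟨a, norm_pos_iff.1 ha, ha1⟩

/-- the fixed point of the images of the upper unipotents -/
lemma exists_p0 (h2 : (2 : k) ≠ 0) (hδ : Continuous δ)
    (hk : ∀ g, δ g = 1 → g ∈ Subgroup.center (GL (Fin 2) k)) :
    ∃ p0 : P1 k, (∀ b : k, b ≠ 0 → ∀ q : P1 k, pm (δ (un b)) q = q ↔ q = p0) ∧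
      ∀ h : GL (Fin 2) k, h • (e0 : P1 k) = e0 → pm (δ h) p0 = p0 := by
  obtain ⟨a, ha, ha1⟩ := exists_small (k := k)
  have hne : ∀ b : k, b ≠ 0 → δ (un b) ≠ 1 := fun b hb h => un_not_center hb (hk _ h)
  have htr : ∀ b : k, trq (δ (un b)) = 4 := trq_un δ hδ ha ha1
  obtain ⟨p0, hp0⟩ := parq_fix h2 (htr 1) (hne 1 one_ne_zero)
  have hb : ∀ b : k, b ≠ 0 → ∀ q : P1 k, pm (δ (un b)) q = q ↔ q = p0 := by
    intro b hb
    obtain ⟨p, hp⟩ := parq_fix h2 (htr b) (hne b hb)
    have : p = p0 := by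
      rw [← hp0]
      rw [← hp]
      have e : pm (δ (un b)) (pm (δ (un 1)) p) = pm (δ (un 1)) (pm (δ (un b)) p) := by
        rw [← pm_mul, ← map_mul δ, ← un_add, add_comm b 1, un_add, map_mul δ, pm_mul]
      rw [e, (hp p).2 rfl]
    rw [← this]
    exact hp
  refine ⟨p0, hb, fun h hh => ?_⟩
  have hdet : h.1.det ≠ 0 := det_ne h
  have h10 := smul_e0.1 hh
  rw [Matrix.det_fin_two, h10, mul_zero, sub_zero] at hdet
  have hb' : h.1 0 0 * 1 / h.1 1 1 ≠ 0 := by
    rw [mul_one]
    exact div_ne_zero (left_ne_zero_of_mul hdet) (right_ne_zero_of_mul hdet)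
  have e : un (h.1 0 0 * 1 / h.1 1 1) * h = h * un 1 := by
    rw [← conj_un hh 1]; group
  rw [← hb _ hb', ← pm_mul, ← map_mul, e, map_mul, pm_mul, (hb 1 one_ne_zero p0).2 rfl]

/-- The structure of a continuous homomorphism `δ : GL₂(k) → PGL₂(k)` whose kernel is the
scalars. -/
structure Star (δ : GL (Fin 2) k →* G0 k) (d : P1 k → P1 k) : Prop where
  inj : Function.Injective d
  equi : ∀ g c, d (g • c) = pm (δ g) (d c)
  fix : ∀ (g : GL (Fin 2) k) (b : k), b ≠ 0 → ∀ q : P1 k,
    pm (δ (g * un b * g⁻¹)) q = q ↔ q = d (g • e0)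
  hyp : ∀ (a : k) (ha : a ≠ 0), ‖a‖ < 1 → ∀ h : GL (Fin 2) k, ∃ (g : GL (Fin 2) k) (α β c : k)
    (hα : α ≠ 0), ‖α‖ < 1 ∧ c ≠ 0 ∧ g • e0 = d (h • e0) ∧
    δ (h * dg a ha * h⁻¹) = mkG (g * af α β hα * g⁻¹) ∧
    δ (h * un 1 * h⁻¹) = mkG (g * un c * g⁻¹)

theorem exists_star (h2 : (2 : k) ≠ 0) (hδ : Continuous δ)
    (hk : ∀ g, δ g = 1 → g ∈ Subgroup.center (GL (Fin 2) k)) : ∃ d : P1 k → P1 k, Star δ d := by
  obtain ⟨a0, ha0, ha01⟩ := exists_small (k := k)
  have htr : ∀ b : k, trq (δ (un b)) = 4 := trq_un δ hδ ha0 ha01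
  obtain ⟨p0, hp0, hst⟩ := exists_p0 δ h2 hδ hk
  choose gg hgg using (exists_smul_e0 (k := k))
  let d : P1 k → P1 k := fun c => pm (δ (gg c)) p0
  have hd : ∀ g : GL (Fin 2) k, d (g • e0) = pm (δ g) p0 := by
    intro g
    have h1 : (g⁻¹ * gg (g • e0)) • (e0 : P1 k) = e0 := by
      rw [mul_smul, hgg, inv_smul_smul]
    have h3 := hst _ h1
    rw [map_mul, pm_mul] at h3
    have h4 := congrArg (pm (δ g)) h3
    rw [← pm_mul, ← map_mul, mul_inv_cancel, map_one, map_one] at h4
    simpa using h4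
  have hequi : ∀ g c, d (g • c) = pm (δ g) (d c) := by
    intro g c
    obtain ⟨h, rfl⟩ := exists_smul_e0 c
    rw [← mul_smul, hd, hd, map_mul, pm_mul]
  refine ⟨d, ?_, hequi, ?_, ?_⟩
  · -- injectivity
    intro c c' hcc
    by_contra hne
    obtain ⟨g, rfl⟩ := exists_smul_e0 c
    have h1 : g⁻¹ • c' ≠ e0 := by
      intro h
      apply hne
      rw [← h, smul_inv_smul]
    have h3 : d (g⁻¹ • c') = p0 := by
      rw [hequi, ← hcc, hd, ← pm_mul, ← map_mul, inv_mul_cancel, map_one, map_one]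
      rfl
    obtain ⟨b, hb⟩ := exists_un_smul h1
    have hb0 : pm (δ (un b)) p0 = p0 := hst _ (by rw [smul_e0]; simp)
    have h4 : d (mk k ![0, 1] (by simp)) = p0 := by
      rw [← hb, hequi, h3, hb0]
    have h5 : pm (δ lo) p0 = p0 := by
      have := hequi lo (mk k ![0, 1] (by simp))
      rw [lo_smul, h4] at this
      exact this.symm
    let w : GL (Fin 2) k := GeneralLinearGroup.mkOfDetNeZero !![0, 1; 1, 0] (by simp)
    have hw : w * un 1 = lo * w := by
      apply Units.ext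
      rw [Units.val_mul, Units.val_mul, un_val, lo_val]
      ext i j
      fin_cases i <;> fin_cases j <;>
        simp [w, GeneralLinearGroup.mkOfDetNeZero, Matrix.mul_apply, Fin.sum_univ_two]
    have hlo : trq (δ lo) = 4 := by
      have : lo = w * un 1 * w⁻¹ := by rw [hw]; group
      rw [this, map_mul, map_mul, map_inv, trq_conj, htr]
    have h1' : pm (δ (un 1)) p0 = p0 := (hp0 1 one_ne_zero p0).2 rfl
    have hcm := parq_comm h2 (htr 1) hlo h1' h5
    have h6 : δ (un 1 * lo * (lo * un 1)⁻¹) = 1 := by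
      rw [map_mul, map_inv, map_mul, map_mul, hcm, mul_inv_cancel]
    obtain ⟨z, hz⟩ := center_iff.1 (hk _ h6)
    have h7 : (un 1 * lo : GL (Fin 2) k).1 = Matrix.scalar (Fin 2) z * (lo * un 1 : GL (Fin 2) k).1 := by
      rw [← hz, ← Units.val_mul]
      congr 1
      group
    have e01 := congrFun (congrFun h7 0) 1
    have e00 := congrFun (congrFun h7 0) 0
    simp [Matrix.mul_apply, Fin.sum_univ_two] at e01 e00
    rw [← e01] at e00
    norm_num at e00
    exact one_ne_zero (α := k) (by linear_combination e00)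
  · intro g b hb q
    obtain ⟨H, hH⟩ := mkG_surj (δ g)
    rw [hd, map_mul δ, map_mul δ, map_inv δ, pm_mul, pm_mul]
    have e : pm (δ g)⁻¹ = (pm (δ g))⁻¹ := map_inv _ _
    rw [e]
    have := hp0 b hb ((pm (δ g))⁻¹ q)
    constructor
    · intro h
      have h3 : pm (δ (un b)) ((pm (δ g))⁻¹ q) = (pm (δ g))⁻¹ q := by
        rw [Equiv.Perm.eq_inv_iff_eq]; exact h
      rw [← this.1 h3]
      exact (Equiv.apply_symm_apply (pm (δ g)) q).symm
    · rintro rfl
      have e3 : (pm (δ g))⁻¹ (pm (δ g) p0) = p0 := Equiv.symm_apply_apply (pm (δ g)) p0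
      rw [e3, (hp0 b hb p0).2 rfl]
  · intro a ha ha1 h
    obtain ⟨g, hg⟩ := exists_smul_e0 p0
    obtain ⟨A, hA⟩ := mkG_surj (δ (dg a ha))
    obtain ⟨V, hV⟩ := mkG_surj (δ (un 1))
    obtain ⟨H, hH⟩ := mkG_surj (δ h)
    have hA0 : (g⁻¹ * A * g) • (e0 : P1 k) = e0 := by
      rw [mul_smul, mul_smul, hg]
      have : A • p0 = p0 := by
        rw [← pm_mk, hA]
        exact hst _ (by rw [smul_e0]; simp)
      rw [this, ← hg, inv_smul_smul]
    have hV0 : (g⁻¹ * V * g) • (e0 : P1 k) = e0 := by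
      rw [mul_smul, mul_smul, hg]
      have : V • p0 = p0 := by
        rw [← pm_mk, hV]
        exact hst _ (by rw [smul_e0]; simp)
      rw [this, ← hg, inv_smul_smul]
    set A' := g⁻¹ * A * g with hA'
    set V' := g⁻¹ * V * g with hV'
    rw [smul_e0] at hA0 hV0
    have hdA := det_ne A'
    have hdV := det_ne V'
    rw [Matrix.det_fin_two, hA0, mul_zero, sub_zero] at hdA
    rw [Matrix.det_fin_two, hV0, mul_zero, sub_zero] at hdV
    have hVpar : Par V' := by
      rw [← trd_par]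
      have : V' = g⁻¹ * V * (g⁻¹)⁻¹ := by rw [inv_inv]
      rw [this, trd_conj, ← trq_mk, hV, htr]
    have hVd : V'.1 0 0 = V'.1 1 1 := by
      have := par_eq hVpar
      rw [hV0, mul_zero, add_zero] at this
      exact sub_eq_zero.1 (pow_eq_zero_iff (two_ne_zero)|>.1 this)
    have hα : A'.1 0 0 / A'.1 1 1 ≠ 0 :=
      div_ne_zero (left_ne_zero_of_mul hdA) (right_ne_zero_of_mul hdA)
    have hA11 := right_ne_zero_of_mul hdA
    have hV11 := right_ne_zero_of_mul hdV
    -- normal forms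
    have eA : mkG A' = mkG (af (A'.1 0 0 / A'.1 1 1) (A'.1 0 1 / A'.1 1 1) hα) := by
      rw [mkG_eq]
      refine ⟨(A'.1 1 1)⁻¹, inv_ne_zero hA11, ?_⟩
      ext i j
      fin_cases i <;> fin_cases j
      · simp; field_simp
      · simp; field_simp
      · simp [hA0]
      · simp [hA11]
    have eV : mkG V' = mkG (un (V'.1 0 1 / V'.1 1 1)) := by
      rw [mkG_eq]
      refine ⟨(V'.1 1 1)⁻¹, inv_ne_zero hV11, ?_⟩
      ext i j
      fin_cases i <;> fin_cases j
      · simp [hVd, hV11]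
      · simp; field_simp
      · simp [hV0]
      · simp [hV11]
    have fA : δ (dg a ha) = mkG (g * af (A'.1 0 0 / A'.1 1 1) (A'.1 0 1 / A'.1 1 1) hα * g⁻¹) := by
      rw [map_mul, map_mul, ← eA, ← map_mul, ← map_mul, hA', ← hA]
      congr 1
      group
    have fV : δ (un 1) = mkG (g * un (V'.1 0 1 / V'.1 1 1) * g⁻¹) := by
      rw [map_mul, map_mul, ← eV, ← map_mul, ← map_mul, hV', ← hV]
      congr 1
      group
    obtain ⟨α, β, hα, fA⟩ : ∃ (α β : k) (hα : α ≠ 0),
        δ (dg a ha) = mkG (g * af α β hα * g⁻¹) := ⟨_, _, hα, fA⟩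
    obtain ⟨c, fV⟩ : ∃ c : k, δ (un 1) = mkG (g * un c * g⁻¹) := ⟨_, fV⟩
    have hc : c ≠ 0 := by
      intro hc0
      have : δ (un 1) = 1 := by
        rw [fV, hc0, un_zero, mul_one, mul_inv_cancel, map_one]
      exact un_not_center one_ne_zero (hk _ this)
    have hpow : ∀ n : ℕ, af α β hα ^ n * un c * (af α β hα ^ n)⁻¹ = un (α ^ n * c) := by
      intro n
      induction n with
      | zero => simp
      | succ n ih =>
        have e : af α β hα ^ (n + 1) * un c * (af α β hα ^ (n + 1))⁻¹ =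
            af α β hα * (af α β hα ^ n * un c * (af α β hα ^ n)⁻¹) * (af α β hα)⁻¹ := by
          rw [pow_succ', _root_.mul_inv_rev]
          group
        rw [e, ih, conj_un (by rw [smul_e0]; simp)]
        congr 1
        simp [pow_succ']
        ring
    have hlim : Tendsto (fun n : ℕ => ofq (mkG (un (α ^ n * c)))) atTop (𝓝 0) := by
      have h1 := (hδ.tendsto 1).comp (tendsto_conj ha ha1 1)
      rw [map_one] at h1
      have h3 : Tendsto (fun n : ℕ => (mkG g)⁻¹ *
          δ (dg a ha ^ n * un 1 * (dg a ha ^ n)⁻¹) * mkG g) atTop (𝓝 ((mkG g)⁻¹ * 1 * mkG g)) :=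
        (h1.const_mul _).mul_const _
      rw [mul_one, inv_mul_cancel] at h3
      have h4 := (ofq_cont.tendsto (1 : G0 k)).comp h3
      have e1 : ofq (1 : G0 k) = 0 := by
        have : (1 : G0 k) = mkG 1 := (map_one _).symm
        rw [this, ofq_mk]
        unfold ofd
        simp
      rw [e1] at h4
      refine h4.congr fun n => ?_
      have e3 : (mkG g)⁻¹ * δ (dg a ha ^ n * un 1 * (dg a ha ^ n)⁻¹) * mkG g =
          mkG (un (α ^ n * c)) := by
        rw [← hpow n, map_mul δ, map_mul δ, map_inv δ, map_pow δ, fA, fV, ← map_pow, ← map_inv,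
          ← map_inv, ← map_mul, ← map_mul, ← map_mul, ← map_mul]
        congr 1
        have : (g * af α β hα * g⁻¹) ^ n = g * af α β hα ^ n * g⁻¹ := conj_pow
        rw [this]
        group
      simp only [Function.comp]
      rw [e3]
    have hα1 : ‖α‖ < 1 := by
      have h3 : ∀ n : ℕ, ofq (mkG (un (α ^ n * c))) = (α ^ n * c) ^ 2 := by
        intro n
        rw [ofq_mk]
        unfold ofd
        simp
      simp only [h3] at hlim
      by_contra hge
      push Not at hge
      have h4 := hlim.norm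
      rw [norm_zero] at h4
      have h5 : ∀ n : ℕ, ‖c‖ ^ 2 ≤ ‖(α ^ n * c) ^ 2‖ := by
        intro n
        rw [norm_pow, norm_mul, norm_pow]
        have : 1 ≤ ‖α‖ ^ n := one_le_pow₀ hge
        have h6 : ‖c‖ ≤ ‖α‖ ^ n * ‖c‖ := le_mul_of_one_le_left (norm_nonneg _) this
        exact pow_le_pow_left₀ (norm_nonneg _) h6 2
      have h7 : ‖c‖ ^ 2 ≤ 0 := ge_of_tendsto h4 (Eventually.of_forall h5)
      have h8 : 0 < ‖c‖ ^ 2 := pow_pos (norm_pos_iff.2 hc) 2
      linarith
    refine ⟨H * g, α, β, c, hα, hα1, hc, ?_, ?_, ?_⟩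
    · rw [hd, ← hH, pm_mk, mul_smul, hg]
    · rw [map_mul, map_mul, map_inv, fA, ← hH, ← map_inv, ← map_mul, ← map_mul]
      congr 1
      group
    · rw [map_mul, map_mul, map_inv, fV, ← hH, ← map_inv, ← map_mul, ← map_mul]
      congr 1
      group

end Top

end Vale.Agent.P092.H574
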