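import Vale.Agent.P092.H574.Del
import Vale.Agent.P092.RC.Cc

/-!
P092, TEAM C, block [C-DEL] (helper574), second part: the wrapper in the letters of `RC/Defs`.
`δ` is multiplicative on the stabiliser of `y0` in `SL₃(k)`, with kernel the kernel of the cocycle.
-/

namespace Vale.Agent.P092.H574

open Matrix Filter Topology Projectivization
open Vale.Agent.P092.RC
open scoped LinearAlgebra.Projectivization MatrixGroups

section Sct

variable {k : Type} [NontriviallyNormedField k] {m : ℕ}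

lemma rep_y0 : ∃ a : k, a ≠ 0 ∧ (y0 : YY k m).rep = a • (Pi.single 0 1 : Fin (m + 1) → k) := by
  have hv : (Pi.single 0 1 : Fin (m + 1) → k) ≠ 0 := by
    intro h
    have := congrFun h 0
    simp at this
  obtain ⟨a, ha⟩ := exists_smul_eq_mk_rep k (Pi.single 0 1 : Fin (m + 1) → k) hv
  exact ⟨a, a.ne_zero, ha.symm⟩

lemma ix_y0 : ix (y0 : YY k m).rep = 0 := by
  obtain ⟨a, ha, hr⟩ := rep_y0 (k := k) (m := m)
  have hmem : (0 : Fin (m + 1)) ∈ (Finset.univ.filter fun i =>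
      ∀ j, ‖(y0 : YY k m).rep j‖ ≤ ‖(y0 : YY k m).rep i‖) := by
    rw [Finset.mem_filter]
    refine ⟨Finset.mem_univ _, fun j => ?_⟩
    rw [hr]
    by_cases hj : j = 0
    · rw [hj]
    · simp [hj]
  unfold ix
  have hne : (Finset.univ.filter fun i =>
      ∀ j, ‖(y0 : YY k m).rep j‖ ≤ ‖(y0 : YY k m).rep i‖).Nonempty := ⟨0, hmem⟩
  rw [dif_pos (by convert hne)]
  apply le_antisymm
  · exact Finset.min'_le _ _ (by convert hmem)
  · exact Fin.zero_le _

lemma nv_y0 (j : Fin (m + 1)) : nv (y0 : YY k m) j = if j = 0 then 1 else 0 := by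
  obtain ⟨a, ha, hr⟩ := rep_y0 (k := k) (m := m)
  unfold nv
  rw [ix_y0, hr]
  by_cases hj : j = 0
  · simp [hj, ha]
  · simp [hj]

lemma sct_y0 : sct (y0 : YY k m) = 1 := by
  ext a b
  unfold sct
  rw [Matrix.of_apply]
  refine Fin.cases ?_ (fun j => ?_) b
  · simp only [Fin.cases_zero]
    rw [nv_y0, Matrix.one_apply]
  · simp only [Fin.cases_succ]
    rw [ix_y0, Fin.succAbove_zero, Matrix.one_apply]

lemma blk_y0 {g : GG k m} (hg : g • (y0 : YY k m) = y0) :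
    blk g y0 = g.1.submatrix Fin.succ Fin.succ := by
  unfold blk
  rw [hg, sct_y0, inv_one, Matrix.one_mul, Matrix.mul_one]

lemma smul_y0 {g : GG k m} : g • (y0 : YY k m) = y0 ↔ ∀ i, i ≠ 0 → g.1 i 0 = 0 := by
  unfold y0
  rw [smul_mk, mk_eq_mk_iff']
  have e : ∀ i, (g • (Pi.single 0 1 : Fin (m + 1) → k)) i = g.1 i 0 := by
    intro i
    show (g.1 *ᵥ (Pi.single 0 1 : Fin (m + 1) → k)) i = _
    simp
  constructor
  · rintro ⟨c, hc⟩ i hi
    rw [← e, ← hc]
    simp [hi]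
  · intro h
    refine ⟨g.1 0 0, ?_⟩
    ext i
    rw [e]
    by_cases hi : i = 0
    · simp [hi]
    · simp [hi, h i hi]

end Sct

section Emb3

variable {k : Type} [NontriviallyNormedField k]

/-- the Levi embedding `GL₂ → SL₃` -/
noncomputable def jj : GL (Fin 2) k →* GG k 2 where
  toFun h := ⟨!![h.1.det⁻¹, 0, 0; 0, h.1 0 0, h.1 0 1; 0, h.1 1 0, h.1 1 1], by
    have hd := det_ne h
    rw [Matrix.det_fin_three]
    simp
    rw [Matrix.det_fin_two] at hd ⊢
    field_simp⟩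
  map_one' := by
    apply Subtype.ext
    ext i j
    fin_cases i <;> fin_cases j <;> simp
  map_mul' h h' := by
    apply Subtype.ext
    show (!![(h * h').1.det⁻¹, 0, 0; 0, (h * h').1 0 0, (h * h').1 0 1; 0, (h * h').1 1 0,
      (h * h').1 1 1] : Matrix (Fin 3) (Fin 3) k) =
      !![h.1.det⁻¹, 0, 0; 0, h.1 0 0, h.1 0 1; 0, h.1 1 0, h.1 1 1] *
      !![h'.1.det⁻¹, 0, 0; 0, h'.1 0 0, h'.1 0 1; 0, h'.1 1 0, h'.1 1 1]
    ext i j
    fin_cases i <;> fin_cases j <;>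
      simp [Matrix.mul_apply, Fin.sum_univ_three, Fin.sum_univ_two, mul_comm]

lemma jj_val (h : GL (Fin 2) k) : (jj h).1 =
    !![h.1.det⁻¹, 0, 0; 0, h.1 0 0, h.1 0 1; 0, h.1 1 0, h.1 1 1] := rfl

lemma jj_y0 (h : GL (Fin 2) k) : jj h • (y0 : YY k 2) = y0 := by
  rw [smul_y0, jj_val]
  intro i hi
  fin_cases i <;> simp at hi ⊢

lemma jj_cc (h : GL (Fin 2) k) : cc (jj h) (y0 : YY k 2) = mkG h := by
  have e : blk (jj h) (y0 : YY k 2) = h.1 := by
    rw [blk_y0 (jj_y0 h), jj_val]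
    ext i j
    fin_cases i <;> fin_cases j <;> simp
  have hu : IsUnit (blk (jj h) (y0 : YY k 2)) := by rw [e]; exact h.isUnit
  unfold cc
  rw [dif_pos hu]
  have : hu.unit = h := by
    apply Units.ext
    rw [IsUnit.unit_spec, e]
  rw [this]
  rfl

lemma jj_cont : Continuous (jj : GL (Fin 2) k → GG k 2) := by
  refine Continuous.subtype_mk (f := fun h : GL (Fin 2) k => (jj h).1) ?_ fun h => (jj h).2
  have hd : Continuous fun h : GL (Fin 2) k => h.1.det⁻¹ :=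
    (Units.continuous_val.matrix_det).inv₀ fun h => det_ne h
  have he : ∀ i j, Continuous fun h : GL (Fin 2) k => h.1 i j := fun i j =>
    Units.continuous_val.matrix_elem i j
  refine continuous_matrix fun i j => ?_
  fin_cases i <;> fin_cases j <;> simp [jj_val] <;>
    first | exact hd | exact he _ _ | exact continuous_const

variable {δ : GG k 2 → PG k 2}
  (hmul : ∀ p p' : GG k 2, p • (y0 : YY k 2) = y0 → p' • (y0 : YY k 2) = y0 →
    δ (p * p') = δ p * δ p')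
  (hker : ∀ p : GG k 2, p • (y0 : YY k 2) = y0 → (δ p = 1 ↔ cc p (y0 : YY k 2) = 1))
  (hcont : Continuous fun p : {p : GG k 2 // p • (y0 : YY k 2) = y0} => δ p)

include hmul in
lemma dlt_one : δ 1 = 1 := by
  have := hmul 1 1 (one_smul _ _) (one_smul _ _)
  rw [mul_one] at this
  exact (mul_eq_left.1 this.symm)

/-- the homomorphism on `GL₂` -/
noncomputable def dl (hmul : ∀ p p' : GG k 2, p • (y0 : YY k 2) = y0 →
    p' • (y0 : YY k 2) = y0 → δ (p * p') = δ p * δ p') : GL (Fin 2) k →* G0 k where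
  toFun h := δ (jj h)
  map_one' := by
    rw [map_one]
    exact dlt_one hmul
  map_mul' h h' := by
    rw [map_mul]
    exact hmul _ _ (jj_y0 h) (jj_y0 h')

@[simp] lemma dl_apply (h : GL (Fin 2) k) : dl hmul h = δ (jj h) := rfl

include hcont in
lemma dl_cont : Continuous (dl hmul) := by
  have : Continuous fun h : GL (Fin 2) k =>
      (⟨jj h, jj_y0 h⟩ : {p : GG k 2 // p • (y0 : YY k 2) = y0}) :=
    Continuous.subtype_mk jj_cont _
  exact hcont.comp this

include hker in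
lemma dl_ker (g : GL (Fin 2) k) (h : dl hmul g = 1) : g ∈ Subgroup.center (GL (Fin 2) k) := by
  rw [dl_apply, hker _ (jj_y0 g), jj_cc] at h
  exact mkG_eq_one.1 h

include hker in
/-- `δ` on the stabiliser is determined by the homomorphism on `GL₂` -/
lemma dl_eq (hcc : ∀ g h : GG k 2, ∀ y : YY k 2, cc (g * h) y = cc g (h • y) * cc h y)
    {p : GG k 2} (hp : p • (y0 : YY k 2) = y0) {h : GL (Fin 2) k}
    (hh : mkG h = cc p (y0 : YY k 2)) : δ p = dl hmul h := by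
  have hp' : (jj h)⁻¹ • (y0 : YY k 2) = y0 := by
    rw [inv_smul_eq_iff, jj_y0]
  have hq : ((jj h)⁻¹ * p) • (y0 : YY k 2) = y0 := by rw [mul_smul, hp, hp']
  have e1 : cc ((jj h)⁻¹ * p) (y0 : YY k 2) = 1 := by
    have h1 : cc (jj h * ((jj h)⁻¹ * p)) (y0 : YY k 2) =
        cc (jj h) (((jj h)⁻¹ * p) • (y0 : YY k 2)) * cc ((jj h)⁻¹ * p) (y0 : YY k 2) :=
      hcc _ _ _
    rw [mul_inv_cancel_left, hq, jj_cc, hh] at h1
    exact (mul_eq_left.1 h1.symm)
  have e2 : δ ((jj h)⁻¹ * p) = 1 := (hker _ hq).2 e1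
  have e3 := hmul (jj h) ((jj h)⁻¹ * p) (jj_y0 h) hq
  rw [mul_inv_cancel_left, e2, mul_one] at e3
  exact e3

/-- the two special elements of the Borel subgroup at `c` -/
structure Two (δ : GG k 2 → PG k 2) (d : P1 k → P1 k) (c : P1 k) (t u : GG k 2) : Prop where
  ty : t • (y0 : YY k 2) = y0
  uy : u • (y0 : YY k 2) = y0
  tc : pm (cc t (y0 : YY k 2)) c = c
  uc : pm (cc u (y0 : YY k 2)) c = c
  nf : ∃ (g : GL (Fin 2) k) (α β b : k) (hα : α ≠ 0), ‖α‖ < 1 ∧ b ≠ 0 ∧ g • e0 = d c ∧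
    δ t = mkG (g * af α β hα * g⁻¹) ∧ δ u = mkG (g * un b * g⁻¹)

include hker hcont in
/-- [C-DEL] in the letters of `RC/Defs`. -/
theorem del_main [CharZero k]
    (hcc : ∀ g h : GG k 2, ∀ y : YY k 2, cc (g * h) y = cc g (h • y) * cc h y) :
    ∃ d : P1 k → P1 k, Star (dl hmul) d ∧
      (∀ p : GG k 2, p • (y0 : YY k 2) = y0 → ∀ c, d (pm (cc p (y0 : YY k 2)) c) =
        pm (δ p) (d c)) ∧
      ∀ (a : k) (ha : a ≠ 0), ‖a‖ < 1 → ∀ h : GL (Fin 2) k, Two δ d (h • e0)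
        (jj (h * dg a ha * h⁻¹)) (jj (h * un 1 * h⁻¹)) := by
  obtain ⟨d, hd⟩ := exists_star (dl hmul) two_ne_zero (dl_cont hmul hcont) (dl_ker hmul hker)
  refine ⟨d, hd, ?_, ?_⟩
  · intro p hp c
    obtain ⟨h, hh⟩ := mkG_surj (cc p (y0 : YY k 2))
    rw [dl_eq hmul hker hcc hp hh, ← hh, ← hd.equi]
    rfl
  · intro a ha ha1 h
    obtain ⟨g, α, β, c, hα, hα1, hc, hg, h1, h3⟩ := hd.hyp a ha ha1 h
    refine ⟨jj_y0 _, jj_y0 _, ?_, ?_, g, α, β, c, hα, hα1, hc, hg, h1, h3⟩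
    · rw [jj_cc, pm_mk, mul_smul, mul_smul, inv_smul_smul]
      congr 1
      rw [smul_e0]
      simp
    · rw [jj_cc, pm_mk, mul_smul, mul_smul, inv_smul_smul]
      congr 1
      rw [smul_e0]
      simp

end Emb3

end Vale.Agent.P092.H574
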