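import Vale.Agent.P092.H574.DelR

/-!
P092, TEAM C, [C-LINE] step (2d) (helper574): the direction map `dir y y'` of two different points
of the plane, in the frame given by the cocycle: `dir (g y) (g y') = cc g y • dir y y'`, and its
continuity; the continuous action of `PGL₂(k)` on the projective line.
-/

set_option linter.all false

namespace Vale.Agent.P092.H574

open Matrix Filter Topology Projectivization
open Vale.Agent.P092.RC
open Vale.Agent.P092.H820
open scoped LinearAlgebra.Projectivization MatrixGroups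

section PmCont

variable {k : Type} [NontriviallyNormedField k]

lemma pm_cont : Continuous fun p : G0 k × P1 k => pm p.1 p.2 := by
  have hq : IsOpenQuotientMap (Prod.map (mkG (k := k)) (id : P1 k → P1 k)) :=
    (QuotientGroup.isOpenQuotientMap_mk).prodMap IsOpenQuotientMap.id
  rw [← hq.continuous_comp_iff]
  show Continuous fun p : GL (Fin 2) k × P1 k => p.1 • p.2
  exact continuous_smul

lemma pm_inv_cont : Continuous fun p : G0 k × P1 k => pm p.1⁻¹ p.2 :=
  pm_cont.comp ((continuous_fst.inv).prodMk continuous_snd)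

end PmCont

section Dir

variable {k : Type} [NontriviallyNormedField k]

lemma single_ne (i : Fin 3) : (Pi.single i 1 : Fin 3 → k) ≠ 0 := by
  intro h
  have := congrFun h i
  simp at this

/-- the second base point -/
noncomputable def y1 : YY k 2 := mk k (Pi.single 1 1) (single_ne 1)

lemma y0_eq : (y0 : YY k 2) = mk k (Pi.single 0 1) (single_ne 0) := rfl

lemma sl_smul (g : GG k 2) {v : Fin 3 → k} (hv : v ≠ 0) (hw : g.1 *ᵥ v ≠ 0) :
    g • (mk k v hv : YY k 2) = mk k (g.1 *ᵥ v) hw := rfl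

lemma col_ne (g : GG k 2) (i : Fin 3) : (fun a => g.1 a i) ≠ 0 := by
  intro h
  have hd : g.1.det = 1 := g.2
  have : g.1.det = 0 := Matrix.det_eq_zero_of_column_eq_zero i fun a => congrFun h a
  rw [hd] at this
  exact one_ne_zero this

lemma smul_single (g : GG k 2) (i : Fin 3) :
    g • (mk k (Pi.single i 1) (single_ne i) : YY k 2) = mk k (fun a => g.1 a i) (col_ne g i) := by
  rw [smul_mk, mk_eq_mk_iff']
  refine ⟨1, ?_⟩
  rw [one_smul]
  ext a
  show _ = (g.1 *ᵥ (Pi.single i 1 : Fin 3 → k)) a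
  simp

/-- the matrix with the columns `v`, `v'`, `e₂ / c` -/
noncomputable def colm (v v' : Fin 3 → k) (c : k) : Matrix (Fin 3) (Fin 3) k :=
  !![v 0, v' 0, 0; v 1, v' 1, 0; v 2, v' 2, c⁻¹]

lemma colm_det {v v' : Fin 3 → k} (h : v 0 * v' 1 - v 1 * v' 0 ≠ 0) :
    (colm v v' (v 0 * v' 1 - v 1 * v' 0)).det = 1 := by
  unfold colm
  rw [Matrix.det_fin_three]
  simp
  field_simp

/-- an element of `SL₃` from its matrix -/
def slm (A : Matrix (Fin 3) (Fin 3) k) (h : A.det = 1) : GG k 2 := ⟨A, h⟩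

lemma slm_val (A : Matrix (Fin 3) (Fin 3) k) (h : A.det = 1) : (slm A h).1 = A := rfl

/-- local section of `SL₃ → D` -/
noncomputable def sg (v v' : Fin 3 → k) (h : v 0 * v' 1 - v 1 * v' 0 ≠ 0) : GG k 2 :=
  slm (colm v v' (v 0 * v' 1 - v 1 * v' 0)) (colm_det h)

lemma sg_y0 (v v' : Fin 3 → k) (h : v 0 * v' 1 - v 1 * v' 0 ≠ 0) (hv : v ≠ 0) :
    sg v v' h • (y0 : YY k 2) = mk k v hv := by
  rw [y0_eq, smul_single, mk_eq_mk_iff']
  refine ⟨1, ?_⟩
  rw [one_smul]
  ext a
  fin_cases a <;> simp [sg, slm_val, colm]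

lemma sg_y1 (v v' : Fin 3 → k) (h : v 0 * v' 1 - v 1 * v' 0 ≠ 0) (hv : v' ≠ 0) :
    sg v v' h • (y1 : YY k 2) = mk k v' hv := by
  unfold y1
  rw [smul_single, mk_eq_mk_iff']
  refine ⟨1, ?_⟩
  rw [one_smul]
  ext a
  fin_cases a <;> simp [sg, slm_val, colm]

/-- every point is moved to `y0` by `SL₃` -/
lemma exists_y0 (y : YY k 2) : ∃ g : GG k 2, g • (y0 : YY k 2) = y := by
  induction y using Projectivization.ind with
  | h v hv =>
    by_cases h0 : v 0 = 0
    · by_cases h1 : v 1 = 0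
      · have h2 : v 2 ≠ 0 := by
          intro h2
          apply hv
          ext a
          fin_cases a
          · simpa using h0
          · simpa using h1
          · simpa using h2
        refine ⟨slm !![v 0, 1, 0; v 1, 0, (v 2)⁻¹; v 2, 0, 0] ?_, ?_⟩
        · rw [Matrix.det_fin_three]
          simp [h0, h1, h2]
        · rw [y0_eq, smul_single, mk_eq_mk_iff']
          refine ⟨1, ?_⟩
          rw [one_smul]
          ext a
          fin_cases a <;> simp [slm_val]
      · refine ⟨slm !![v 0, -(v 1)⁻¹, 0; v 1, 0, 0; v 2, 0, 1] ?_, ?_⟩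
        · rw [Matrix.det_fin_three]
          simp [h0, h1]
        · rw [y0_eq, smul_single, mk_eq_mk_iff']
          refine ⟨1, ?_⟩
          rw [one_smul]
          ext a
          fin_cases a <;> simp [slm_val]
    · refine ⟨slm !![v 0, 0, 0; v 1, (v 0)⁻¹, 0; v 2, 0, 1] ?_, ?_⟩
      · rw [Matrix.det_fin_three]
        simp [h0]
      · rw [y0_eq, smul_single, mk_eq_mk_iff']
        refine ⟨1, ?_⟩
        rw [one_smul]
        ext a
        fin_cases a <;> simp [slm_val]

/-- every point `≠ y0` is moved to `y1` by the stabiliser of `y0` -/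
lemma exists_y1 {y : YY k 2} (hy : y ≠ y0) :
    ∃ g : GG k 2, g • (y0 : YY k 2) = y0 ∧ g • (y1 : YY k 2) = y := by
  induction y using Projectivization.ind with
  | h v hv =>
    by_cases h1 : v 1 = 0
    · have h2 : v 2 ≠ 0 := by
        intro h2
        apply hy
        rw [y0_eq, mk_eq_mk_iff']
        refine ⟨v 0, ?_⟩
        ext a
        fin_cases a
        · simp
        · simp [h1]
        · simp [h2]
      refine ⟨slm !![1, v 0, 0; 0, v 1, -(v 2)⁻¹; 0, v 2, 0] ?_, ?_, ?_⟩
      · rw [Matrix.det_fin_three]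
        simp [h1, h2]
      · rw [smul_y0, slm_val]
        intro i hi
        fin_cases i <;> simp at hi ⊢
      · unfold y1
        rw [smul_single, mk_eq_mk_iff']
        refine ⟨1, ?_⟩
        rw [one_smul]
        ext a
        fin_cases a <;> simp [slm_val]
    · refine ⟨slm !![1, v 0, 0; 0, v 1, 0; 0, v 2, (v 1)⁻¹] ?_, ?_, ?_⟩
      · rw [Matrix.det_fin_three]
        simp [h1]
      · rw [smul_y0, slm_val]
        intro i hi
        fin_cases i <;> simp at hi ⊢
      · unfold y1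
        rw [smul_single, mk_eq_mk_iff']
        refine ⟨1, ?_⟩
        rw [one_smul]
        ext a
        fin_cases a <;> simp [slm_val]

lemma y1_ne : (y1 : YY k 2) ≠ y0 := by
  unfold y1
  rw [y0_eq]
  intro h
  rw [mk_eq_mk_iff'] at h
  obtain ⟨c, hc⟩ := h
  have := congrFun hc 1
  simp at this

lemma two_trans {y y' : YY k 2} (h : y ≠ y') :
    ∃ g : GG k 2, g • (y0 : YY k 2) = y ∧ g • (y1 : YY k 2) = y' := by
  obtain ⟨g, hg⟩ := exists_y0 y
  have : g⁻¹ • y' ≠ y0 := by
    intro h'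
    apply h
    rw [← hg, ← h', smul_inv_smul]
  obtain ⟨p, hp, hp'⟩ := exists_y1 this
  refine ⟨g * p, ?_, ?_⟩
  · rw [mul_smul, hp, hg]
  · rw [mul_smul, hp', smul_inv_smul]

/-- the block of an element of the stabiliser of `y0` -/
lemma cc_stab {g : GG k 2} (hg : g • (y0 : YY k 2) = y0) : ∃ h : GL (Fin 2) k,
    h.1 = g.1.submatrix Fin.succ Fin.succ ∧ cc g (y0 : YY k 2) = mkG h := by
  have h0 := smul_y0.1 hg
  have hd : g.1.det = 1 := g.2
  rw [Matrix.det_fin_three, h0 1 (by simp), h0 2 (by simp)] at hd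
  have e : (g.1.submatrix Fin.succ Fin.succ : Matrix (Fin 2) (Fin 2) k).det =
      g.1 1 1 * g.1 2 2 - g.1 1 2 * g.1 2 1 := by
    rw [Matrix.det_fin_two]
    rfl
  have hne : (g.1.submatrix Fin.succ Fin.succ : Matrix (Fin 2) (Fin 2) k).det ≠ 0 := by
    rw [e]
    intro h
    have : g.1 0 0 * (g.1 1 1 * g.1 2 2 - g.1 1 2 * g.1 2 1) = 1 := by linear_combination hd
    rw [h, mul_zero] at this
    exact zero_ne_one this
  let h : GL (Fin 2) k := GeneralLinearGroup.mkOfDetNeZero _ hne
  have hh : h.1 = g.1.submatrix Fin.succ Fin.succ := rfl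
  refine ⟨h, hh, ?_⟩
  have hu : IsUnit (blk g (y0 : YY k 2)) := by
    rw [blk_y0 hg, ← hh]
    exact h.isUnit
  unfold cc
  rw [dif_pos hu]
  have : hu.unit = h := by
    apply Units.ext
    rw [IsUnit.unit_spec, blk_y0 hg, hh]
  rw [this]
  rfl

lemma cc_y1 {g : GG k 2} (hg : g • (y0 : YY k 2) = y0) (hg' : g • (y1 : YY k 2) = y1) :
    pm (cc g (y0 : YY k 2)) e0 = e0 := by
  obtain ⟨h, hh, hc⟩ := cc_stab hg
  rw [hc, pm_mk, smul_e0, hh]
  unfold y1 at hg'
  rw [smul_single, mk_eq_mk_iff'] at hg'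
  obtain ⟨c, hc'⟩ := hg'
  have := congrFun hc' 2
  simp at this
  simpa using this.symm

variable (hcc : ∀ g h : GG k 2, ∀ y : YY k 2, cc (g * h) y = cc g (h • y) * cc h y)

open Classical in
/-- the direction of `y'` at `y` -/
noncomputable def dir (y y' : YY k 2) : P1 k :=
  if h : y ≠ y' then pm (cc (two_trans h).choose (y0 : YY k 2)) e0 else e0

include hcc in
lemma dir_eq {y y' : YY k 2} (h : y ≠ y') {g : GG k 2} (hg : g • (y0 : YY k 2) = y)
    (hg' : g • (y1 : YY k 2) = y') : dir y y' = pm (cc g (y0 : YY k 2)) e0 := by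
  unfold dir
  rw [dif_pos h]
  set g₁ := (two_trans h).choose
  obtain ⟨h1, h2⟩ := (two_trans h).choose_spec
  change g₁ • (y0 : YY k 2) = y at h1
  change g₁ • (y1 : YY k 2) = y' at h2
  have e1 : (g⁻¹ * g₁) • (y0 : YY k 2) = y0 := by rw [mul_smul, h1, ← hg, inv_smul_smul]
  have e2 : (g⁻¹ * g₁) • (y1 : YY k 2) = y1 := by rw [mul_smul, h2, ← hg', inv_smul_smul]
  have e3 := cc_y1 e1 e2
  have e4 := hcc g (g⁻¹ * g₁) (y0 : YY k 2)
  rw [mul_inv_cancel_left, e1] at e4
  rw [e4, pm_mul, e3]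

include hcc in
lemma dir_smul {y y' : YY k 2} (h : y ≠ y') (g : GG k 2) :
    dir (g • y) (g • y') = pm (cc g y) (dir y y') := by
  obtain ⟨p, hp, hp'⟩ := two_trans h
  have h' : g • y ≠ g • y' := fun e => h (smul_left_cancel g e)
  rw [dir_eq hcc h hp hp', dir_eq hcc h' (g := g * p) (by rw [mul_smul, hp])
    (by rw [mul_smul, hp']), hcc, hp, pm_mul]

end Dir

end Vale.Agent.P092.H574
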