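import Vale.Agent.P092.H899.G6

/-!
P092, Track H (`SU(2, n)`, complex), count row (helper574), part 1: the constraints given by a
point wall, any form.
-/

set_option linter.all false

namespace Vale.Agent.P092.H574.H

open Matrix
open Vale.Agent.P092.H303 (FormGroup Idx hyp)
open Vale.Agent.P092.H714.Cl
open Vale.Agent.P092.H899.G (Pres ent_le nmM_nonneg)
open Vale.Agent.P092.CL (ta nmM NW1)

variable {k : Type} [NontriviallyNormedField k] {n : Type} [Fintype n] [DecidableEq n]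
  {σ : k →+* k} {ε : k} {J : Matrix n n k}

theorem mv_le (A : Matrix n n k) (v : n → k) : ‖A *ᵥ v‖ ≤ Fintype.card n * (nmM A * ‖v‖) := by
  have h0 := nmM_nonneg A
  rw [pi_norm_le_iff_of_nonneg (by positivity)]
  intro i
  calc ‖∑ j, A i j * v j‖ ≤ ∑ _j : n, nmM A * ‖v‖ := by
        refine norm_sum_le_of_le _ fun j _ => ?_
        rw [norm_mul]
        exact mul_le_mul (ent_le _ _ _) (norm_le_pi_norm _ _) (norm_nonneg _) h0
    _ = _ := by simp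

/-- the form is not degenerate, with a bound -/
theorem nd (hσ : ∀ x, ‖σ x‖ = ‖x‖) (hnd : ∀ x, x ≠ 0 → ∃ y, hf σ J x y ≠ 0) :
    ∃ B : ℝ, 0 ≤ B ∧ ∀ (w : n → k) (e : ℝ), 0 ≤ e →
      (∀ j, ‖hf σ J (Pi.single j 1) w‖ ≤ e) → ‖w‖ ≤ B * e := by
  have hdet : J.det ≠ 0 := by
    intro h
    obtain ⟨x, hx, h1⟩ := exists_vecMul_eq_zero_iff.2 h
    obtain ⟨y, hy⟩ := hnd x hx
    apply hy
    unfold hf
    rw [dotProduct_mulVec, h1, zero_dotProduct]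
  have hu : IsUnit J.det := isUnit_iff_ne_zero.2 hdet
  refine ⟨∑ i, ∑ j, ‖J⁻¹ i j‖, by positivity, fun w e he h => ?_⟩
  rw [pi_norm_le_iff_of_nonneg (by positivity)]
  intro i
  have h1 : J⁻¹ *ᵥ (J *ᵥ fun l => σ (w l)) = fun l => σ (w l) := by
    rw [mulVec_mulVec, nonsing_inv_mul _ hu, one_mulVec]
  have h2 : ∀ j, ‖(J *ᵥ fun l => σ (w l)) j‖ ≤ e := by
    intro j
    have := h j
    unfold hf at this
    rwa [single_one_dotProduct] at this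
  calc ‖w i‖ = ‖σ (w i)‖ := (hσ _).symm
    _ = ‖(J⁻¹ *ᵥ (J *ᵥ fun l => σ (w l))) i‖ := by rw [h1]
    _ ≤ ∑ j, ‖J⁻¹ i j‖ * e := by
        refine norm_sum_le_of_le _ fun j _ => ?_
        rw [norm_mul]
        exact mul_le_mul_of_nonneg_left (h2 j) (norm_nonneg _)
    _ = (∑ j, ‖J⁻¹ i j‖) * e := by rw [Finset.sum_mul]
    _ ≤ (∑ i, ∑ j, ‖J⁻¹ i j‖) * e := by
        refine mul_le_mul_of_nonneg_right ?_ he
        exact Finset.single_le_sum (f := fun i => ∑ j, ‖J⁻¹ i j‖)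
          (fun _ _ => Finset.sum_nonneg fun _ _ => norm_nonneg _) (Finset.mem_univ i)

theorem hf_zsmul_sub (x y v : n → k) (a : k) : hf σ J (x - a • y) v = hf σ J x v - a * hf σ J y v := by
  have e : x - a • y = x + (-a) • y := by rw [neg_smul, sub_eq_add_neg]
  rw [e, hf_add_left, hf_smul_left]
  ring

/-- **The constraints of a point wall.** `g₀` is near the point wall, `x` a unit vector of its
attracting point, `x + τ y` a small perturbation inside the orthogonal of `x`; `m g₀ = c g` with `g`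
near the point wall, too, of a norm at most `2 |g₀|`. -/
theorem wall {B B' D R₁ : ℝ} (hB : 0 ≤ B) (hB' : 0 ≤ B') (hD : 0 ≤ D) (hR₁ : 0 ≤ R₁)
    (hbd : ∀ x y : n → k, ‖hf σ J x y‖ ≤ B * (‖x‖ * ‖y‖))
    (hnd : ∀ (w : n → k) (e : ℝ), 0 ≤ e → (∀ j, ‖hf σ J (Pi.single j 1) w‖ ≤ e) → ‖w‖ ≤ B' * e)
    {g₀ g m : Matrix n n k} (h₀ : Pres σ J g₀) (hs : ∀ y, ∃ z, g₀ *ᵥ z = y) (hA : 0 < nmM g₀)
    {x ζ₀ : n → k} (hx : g₀ *ᵥ ζ₀ = x) (hx1 : ‖x‖ = 1) (hζ₀ : nmM g₀ * ‖ζ₀‖ ≤ D)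
    (hr : ∀ (v : n → k) (i j : n), ‖x i * (g₀ *ᵥ v) j - x j * (g₀ *ᵥ v) i‖ ≤ R₁ * ‖v‖)
    {c : k} (hc : ‖c‖ = 1) (hm : m * g₀ = c • g) (hg : nmM g ≤ 2 * nmM g₀) {R : ℝ} (hR : 0 ≤ R)
    (hg2 : ∀ (v w : n → k) (i j : n), ‖(g *ᵥ v) i * (g *ᵥ w) j - (g *ᵥ v) j * (g *ᵥ w) i‖ ≤
      Fintype.card n ^ 2 * (R * nmM g) * (‖v‖ * ‖w‖))
    {y : n → k} (hy : hf σ J x y = 0) (hyn : ‖y‖ ≤ 2) {τ : k} (hτA : ‖τ‖ * nmM g₀ ≤ 1) :
    ‖m *ᵥ (x + τ • y)‖ ≤ 2 * Fintype.card n * (D + B' * (B * (R₁ * 2))) ∧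
      ∀ v : n → k, hf σ J (x + τ • y) v = 0 → ∀ i j,
        ‖(m *ᵥ (x + τ • y)) i * (m *ᵥ v) j - (m *ᵥ (x + τ • y)) j * (m *ᵥ v) i‖ ≤
          2 * Fintype.card n ^ 2 * R * (D + B' * (B * (R₁ * 2))) * (B' * (B * (R₁ + 2))) * ‖v‖ := by
  obtain ⟨p, hp⟩ : ∃ p, ‖x p‖ = 1 := by
    by_contra hcon
    push Not at hcon
    have h4 : ∀ p, ‖x p‖ < 1 := fun p => lt_of_le_of_ne (hx1 ▸ norm_le_pi_norm x p) (hcon p)
    have := (pi_norm_lt_iff one_pos).2 h4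
    rw [hx1] at this
    exact lt_irrefl _ this
  have hp0 : x p ≠ 0 := by rw [← norm_pos_iff, hp]; exact one_pos
  obtain ⟨ψ, hψ⟩ : ∃ ψ : n → k, ∀ j, ψ j = g₀ p j / x p := ⟨_, fun j => rfl⟩
  have hψn : ∀ j, ‖ψ j‖ ≤ nmM g₀ := fun j => by
    rw [hψ, norm_div, hp, div_one]
    exact ent_le _ _ _
  have hrr : ∀ j, ‖g₀ *ᵥ Pi.single j 1 - ψ j • x‖ ≤ R₁ := by
    intro j
    rw [pi_norm_le_iff_of_nonneg hR₁]
    intro i
    have h1 := hr (Pi.single j 1) p i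
    have e1 : (g₀ *ᵥ Pi.single j 1 - ψ j • x) i =
        (x p * (g₀ *ᵥ Pi.single j 1) i - x i * (g₀ *ᵥ Pi.single j 1) p) / x p := by
      rw [Pi.sub_apply, Pi.smul_apply, smul_eq_mul, hψ]
      have e2 : (g₀ *ᵥ (Pi.single j 1 : n → k)) p = g₀ p j := by
        rw [mulVec_single_one]; rfl
      rw [e2]
      field_simp
    rw [e1, norm_div, hp, div_one]
    refine h1.trans ?_
    have h2 : ‖(Pi.single j 1 : n → k)‖ ≤ 1 := by
      rw [pi_norm_le_iff_of_nonneg zero_le_one]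
      intro i
      by_cases h : i = j
      · subst h; simp
      · simp [h]
    nlinarith
  have split : ∀ j (v : n → k), hf σ J (g₀ *ᵥ Pi.single j 1) v =
      hf σ J (g₀ *ᵥ Pi.single j 1 - ψ j • x) v + ψ j * hf σ J x v := by
    intro j v
    rw [hf_zsmul_sub]
    ring
  have inv : ∀ (z : n → k) (e : ℝ), 0 ≤ e →
      (∀ j, ‖hf σ J (g₀ *ᵥ Pi.single j 1) (g₀ *ᵥ z)‖ ≤ e) → ‖z‖ ≤ B' * e := by
    intro z e he h
    exact hnd z e he fun j => by rw [← h₀]; exact h j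
  -- `y = g₀ zy`
  obtain ⟨zy, hzy⟩ := hs y
  have hzyn : ‖zy‖ ≤ B' * (B * (R₁ * 2)) := by
    refine inv _ _ (by positivity) fun j => ?_
    rw [hzy, split, hy, mul_zero, add_zero]
    refine (hbd _ _).trans (mul_le_mul_of_nonneg_left ?_ hB)
    exact mul_le_mul (hrr j) hyn (norm_nonneg _) hR₁
  -- `x + τ y = g₀ ζ`
  obtain ⟨ζ, hζ⟩ : ∃ ζ : n → k, ζ = ζ₀ + τ • zy := ⟨_, rfl⟩
  have hxζ : x + τ • y = g₀ *ᵥ ζ := by
    rw [hζ, mulVec_add, mulVec_smul, hzy, hx]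
  obtain ⟨E, hE⟩ : ∃ E : ℝ, E = D + B' * (B * (R₁ * 2)) := ⟨_, rfl⟩
  have hE0 : 0 ≤ E := by rw [hE]; positivity
  have hζn : nmM g₀ * ‖ζ‖ ≤ E := by
    rw [hζ, hE]
    calc nmM g₀ * ‖ζ₀ + τ • zy‖ ≤ nmM g₀ * (‖ζ₀‖ + ‖τ‖ * ‖zy‖) := by
          refine mul_le_mul_of_nonneg_left ((norm_add_le _ _).trans ?_) hA.le
          rw [norm_smul]
      _ = nmM g₀ * ‖ζ₀‖ + (‖τ‖ * nmM g₀) * ‖zy‖ := by ring
      _ ≤ D + 1 * (B' * (B * (R₁ * 2))) :=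
          add_le_add hζ₀ (mul_le_mul hτA hzyn (norm_nonneg _) zero_le_one)
      _ = _ := by ring
  have hmg : ∀ z : n → k, m *ᵥ (g₀ *ᵥ z) = c • (g *ᵥ z) := by
    intro z
    rw [mulVec_mulVec, hm, smul_mulVec]
  rw [← hE]
  have hgζ : nmM g * ‖ζ‖ ≤ 2 * E := by
    calc nmM g * ‖ζ‖ ≤ 2 * nmM g₀ * ‖ζ‖ := mul_le_mul_of_nonneg_right hg (norm_nonneg _)
      _ = 2 * (nmM g₀ * ‖ζ‖) := by ring
      _ ≤ _ := mul_le_mul_of_nonneg_left hζn (by norm_num)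
  refine ⟨?_, fun v hv0 i j => ?_⟩
  · rw [hxζ, hmg, norm_smul, hc, one_mul]
    calc ‖g *ᵥ ζ‖ ≤ Fintype.card n * (nmM g * ‖ζ‖) := mv_le _ _
      _ ≤ Fintype.card n * (2 * E) := mul_le_mul_of_nonneg_left hgζ (Nat.cast_nonneg _)
      _ = _ := by ring
  · obtain ⟨z, hz⟩ := hs v
    have hzn : ‖z‖ ≤ B' * (B * (R₁ + 2) * ‖v‖) := by
      refine inv _ _ (by positivity) fun j => ?_
      rw [hz, split]
      have e : hf σ J x v = -(τ * hf σ J y v) := by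
        rw [hf_add_left, hf_smul_left] at hv0
        exact eq_neg_of_add_eq_zero_left hv0
      rw [e]
      have h1 : ‖hf σ J (g₀ *ᵥ Pi.single j 1 - ψ j • x) v‖ ≤ B * (R₁ * ‖v‖) :=
        (hbd _ _).trans (mul_le_mul_of_nonneg_left
          (mul_le_mul_of_nonneg_right (hrr j) (norm_nonneg _)) hB)
      have h2 : ‖hf σ J y v‖ ≤ B * (2 * ‖v‖) :=
        (hbd _ _).trans (mul_le_mul_of_nonneg_left
          (mul_le_mul_of_nonneg_right hyn (norm_nonneg _)) hB)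
      have h3 : ‖ψ j * -(τ * hf σ J y v)‖ ≤ B * (2 * ‖v‖) := by
        rw [norm_mul, norm_neg, norm_mul, ← mul_assoc]
        have h4 : ‖ψ j‖ * ‖τ‖ ≤ 1 := by
          calc ‖ψ j‖ * ‖τ‖ ≤ nmM g₀ * ‖τ‖ := mul_le_mul_of_nonneg_right (hψn j) (norm_nonneg _)
            _ = ‖τ‖ * nmM g₀ := mul_comm _ _
            _ ≤ 1 := hτA
        calc ‖ψ j‖ * ‖τ‖ * ‖hf σ J y v‖ ≤ 1 * (B * (2 * ‖v‖)) :=
              mul_le_mul h4 h2 (norm_nonneg _) zero_le_one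
          _ = _ := one_mul _
      calc _ ≤ B * (R₁ * ‖v‖) + B * (2 * ‖v‖) := (norm_add_le _ _).trans (add_le_add h1 h3)
        _ = _ := by ring
    have e2 : (m *ᵥ (x + τ • y)) i * (m *ᵥ v) j - (m *ᵥ (x + τ • y)) j * (m *ᵥ v) i =
        c * c * ((g *ᵥ ζ) i * (g *ᵥ z) j - (g *ᵥ ζ) j * (g *ᵥ z) i) := by
      rw [hxζ, ← hz, hmg, hmg]
      simp only [Pi.smul_apply, smul_eq_mul]
      ring
    rw [e2, norm_mul, norm_mul, hc, one_mul, one_mul]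
    have hnm := nmM_nonneg g
    calc _ ≤ Fintype.card n ^ 2 * (R * nmM g) * (‖ζ‖ * ‖z‖) := hg2 ζ z i j
      _ = Fintype.card n ^ 2 * R * (nmM g * ‖ζ‖) * ‖z‖ := by ring
      _ ≤ Fintype.card n ^ 2 * R * (2 * E) * (B' * (B * (R₁ + 2) * ‖v‖)) := by
          refine mul_le_mul (mul_le_mul_of_nonneg_left hgζ (by positivity)) hzn (norm_nonneg _)
            (by positivity)
      _ = _ := by ring

/-- The perturbation. -/
theorem pert {δ ρ : ℝ} (hδ : 0 < δ) (hρ : 0 < ρ) {w D t : k} (ht : ‖t‖ = ρ) (hD : δ ≤ ‖D‖) :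
    ∃ τ : k, ‖τ‖ ≤ ρ ∧ ‖w‖ ≤ ‖w + τ * D‖ ∧ ρ * δ / 2 ≤ ‖w + τ * D‖ := by
  by_cases hw : ρ * δ / 2 ≤ ‖w‖
  · exact ⟨0, by rw [norm_zero]; exact hρ.le, by simp, by simpa using hw⟩
  · push Not at hw
    have h1 : ρ * δ ≤ ‖t * D‖ := by
      rw [norm_mul, ht]
      exact mul_le_mul_of_nonneg_left hD hρ.le
    have h2 : ‖t * D‖ ≤ ‖w + t * D‖ + ‖w‖ := by
      have : t * D = (w + t * D) - w := by ring
      conv_lhs => rw [this]
      exact norm_sub_le _ _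
    exact ⟨t, ht.le, by linarith, by linarith⟩

end Vale.Agent.P092.H574.H
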