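import Vale.Agent.P092.H574.H2

/-!
P092, Track H (`SU(2, n)`, complex), count row (helper574), part 2: the base vectors and the members
of a class.
-/

set_option linter.all false

namespace Vale.Agent.P092.H574.H

open Matrix
open Vale.Agent.P092.H303 (FormGroup Idx hyp)
open Vale.Agent.P092.H714.Cl
open Vale.Agent.P092.H899.G (Pres ent_le nmM_nonneg ta_mul ta_inv' pres_ta ta_scal)
open Vale.Agent.P092.CL (ta nmM NW1 scal)

section mem

variable {k : Type} [NontriviallyNormedField k] {n : Type} [Fintype n] [DecidableEq n]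
  {σ : k →+* k} {ε : k} {J : Matrix n n k}

/-- The conclusions of the walls for one element `m` (both walls). -/
structure MemH (σ : k →+* k) (J : Matrix n n k) (C : ℝ) (x x' : n → k) (m : Matrix n n k) :
    Prop where
  iso : ∀ a b, hf σ J (m *ᵥ a) (m *ᵥ b) = hf σ J a b
  c1 : ‖m *ᵥ x‖ ≤ C
  c4 : ‖m *ᵥ x'‖ ≤ C
  c2 : ∀ v, hf σ J x v = 0 → ∀ i j,
    ‖(m *ᵥ x) i * (m *ᵥ v) j - (m *ᵥ x) j * (m *ᵥ v) i‖ ≤ C * ‖v‖
  c3 : ∀ v, hf σ J x' v = 0 → ∀ i j,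
    ‖(m *ᵥ x') i * (m *ᵥ v) j - (m *ᵥ x') j * (m *ᵥ v) i‖ ≤ C * ‖v‖

/-- `x` is a unit vector of the attracting point of the matrix `g` -/
structure AttH (D R₁ : ℝ) (g : Matrix n n k) (x : n → k) : Prop where
  src : ∃ ζ, g *ᵥ ζ = x ∧ nmM g * ‖ζ‖ ≤ D
  rt : ∀ (v : n → k) (i j : n), ‖x i * (g *ᵥ v) j - x j * (g *ᵥ v) i‖ ≤ R₁ * ‖v‖

theorem nw_wedge {R : ℝ} {z : Matrix n n k} (h : NW1 R z) (x y : n → k) (i j : n) :
    ‖(z *ᵥ x) i * (z *ᵥ y) j - (z *ᵥ x) j * (z *ᵥ y) i‖ ≤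
      Fintype.card n ^ 2 * (|R| * nmM z) * (‖x‖ * ‖y‖) := by
  have e : (z *ᵥ x) i * (z *ᵥ y) j - (z *ᵥ x) j * (z *ᵥ y) i =
      ∑ a, ∑ b, (z i a * z j b - z j a * z i b) * (x a * y b) := by
    simp only [mulVec, dotProduct, Finset.sum_mul_sum]
    rw [← Finset.sum_sub_distrib]
    refine Finset.sum_congr rfl fun a _ => ?_
    rw [← Finset.sum_sub_distrib]
    exact Finset.sum_congr rfl fun b _ => by ring
  rw [e]
  have h5 := nmM_nonneg z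
  have h1 : ∀ a b, ‖(z i a * z j b - z j a * z i b) * (x a * y b)‖ ≤
      (|R| * nmM z) * (‖x‖ * ‖y‖) := fun a b => by
    rw [norm_mul, norm_mul]
    refine mul_le_mul ?_ (mul_le_mul (norm_le_pi_norm x a) (norm_le_pi_norm y b) (norm_nonneg _)
      (norm_nonneg _)) (by positivity) (by positivity)
    refine (h i j a b).trans ?_
    exact mul_le_mul_of_nonneg_right (le_abs_self R) h5
  calc ‖∑ a, ∑ b, (z i a * z j b - z j a * z i b) * (x a * y b)‖ ≤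
      ∑ _a : n, ∑ _b : n, (|R| * nmM z) * (‖x‖ * ‖y‖) :=
        (norm_sum_le _ _).trans (Finset.sum_le_sum fun a _ =>
          (norm_sum_le _ _).trans (Finset.sum_le_sum fun b _ => h1 a b))
    _ = _ := by
        rw [Finset.sum_const, Finset.sum_const, Finset.card_univ, nsmul_eq_mul, nsmul_eq_mul]
        ring

/-- the constant -/
noncomputable def CC (N B B' D R₁ R : ℝ) : ℝ :=
  1 + 2 * N * (D + B' * (B * (R₁ * 2))) +
    2 * N ^ 2 * |R| * (D + B' * (B * (R₁ * 2))) * (B' * (B * (R₁ + 2)))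

/-- **The members of a class.** -/
theorem memS {B B' D R₁ R : ℝ} (hB : 0 ≤ B) (hB' : 0 ≤ B') (hD : 0 ≤ D) (hR₁ : 0 ≤ R₁)
    (hbd : ∀ x y : n → k, ‖hf σ J x y‖ ≤ B * (‖x‖ * ‖y‖))
    (hnd : ∀ (w : n → k) (e : ℝ), 0 ≤ e → (∀ j, ‖hf σ J (Pi.single j 1) w‖ ≤ e) → ‖w‖ ≤ B' * e)
    {g₀ g h₀ h m : FormGroup σ J} {x x' : n → k} (hA : 0 < nmM (ta g₀.1))
    (hA' : 0 < nmM (ta h₀.1)) (hx1 : ‖x‖ = 1) (hx1' : ‖x'‖ = 1)
    (hx : AttH D R₁ (ta g₀.1) x) (hx' : AttH D R₁ (ta h₀.1) x')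
    (a1 : NW1 R (ta g.1)) (a2 : nmM (ta g.1) ≤ 2 * nmM (ta g₀.1)) (b1 : NW1 R (ta h.1))
    (b2 : nmM (ta h.1) ≤ nmM (ta h₀.1)) {c : k} (hc : ‖c‖ = 1)
    (hm : ta m.1 * ta g₀.1 = c • ta g.1) (hm' : ta m.1 * ta h₀.1 = ta h.1)
    {y : n → k} (hy : hf σ J x y = 0) (hyn : ‖y‖ ≤ 2) {τ : k}
    (hτA : ‖τ‖ * nmM (ta g₀.1) ≤ 1) :
    MemH σ J (CC (Fintype.card n) B B' D R₁ R) (x + τ • y) x' (ta m.1) := by
  have sur : ∀ (g : FormGroup σ J) (y : n → k), ∃ z, ta g.1 *ᵥ z = y := fun g y =>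
    ⟨ta g.1⁻¹ *ᵥ y, by rw [mulVec_mulVec, ta_inv', one_mulVec]⟩
  obtain ⟨ζ, hζ, hζn⟩ := hx.src
  obtain ⟨ζ', hζ', hζn'⟩ := hx'.src
  obtain ⟨r1, r2⟩ := wall hB hB' hD hR₁ hbd hnd (pres_ta g₀.2) (sur g₀) hA hζ hx1 hζn hx.rt hc hm
    a2 (abs_nonneg R) (fun v w i j => nw_wedge a1 v w i j) hy hyn hτA
  obtain ⟨s1, s2⟩ := wall hB hB' hD hR₁ hbd hnd (pres_ta h₀.2) (sur h₀) hA' hζ' hx1' hζn' hx'.rt
    (c := 1) norm_one (m := ta m.1) (g := ta h.1) (by rw [one_smul]; exact hm') (by linarith)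
    (abs_nonneg R) (fun v w i j => nw_wedge b1 v w i j) (y := 0) (hf_zero_right _ _ _)
    (by rw [norm_zero]; norm_num) (τ := 0) (by rw [norm_zero, zero_mul]; exact zero_le_one)
  rw [smul_zero, add_zero] at s1 s2
  have e0 : 0 ≤ 2 * (Fintype.card n : ℝ) * (D + B' * (B * (R₁ * 2))) := by positivity
  have e0' : 0 ≤ 2 * (Fintype.card n : ℝ) ^ 2 * |R| * (D + B' * (B * (R₁ * 2))) *
      (B' * (B * (R₁ + 2))) := by positivity
  have e1 : 2 * (Fintype.card n : ℝ) * (D + B' * (B * (R₁ * 2))) ≤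
      CC (Fintype.card n) B B' D R₁ R := by unfold CC; linarith
  have e2 : 2 * (Fintype.card n : ℝ) ^ 2 * |R| * (D + B' * (B * (R₁ * 2))) *
      (B' * (B * (R₁ + 2))) ≤ CC (Fintype.card n) B B' D R₁ R := by unfold CC; linarith
  refine ⟨pres_ta m.2, r1.trans e1, s1.trans e1, fun v hv i j => ?_, fun v hv i j => ?_⟩
  · exact (r2 v hv i j).trans (mul_le_mul_of_nonneg_right e2 (norm_nonneg _))
  · exact (s2 v hv i j).trans (mul_le_mul_of_nonneg_right e2 (norm_nonneg _))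

/-- the multiplier -/
theorem mulc [Nonempty n] {Γ : Type} [Group Γ] {q : Γ → FormGroup σ J}
    (hq : ∀ γ γ', ∃ z : FormGroup σ J, z.1 ∈ scal k n ∧ q (γ * γ') = z * (q γ * q γ'))
    (η γ γ₀ : Γ) : ∃ c : k, ‖c‖ = 1 ∧
    ta (q γ * (q γ₀)⁻¹).1 * ta (q (γ₀ * η)).1 = c • ta (q (γ * η)).1 := by
  obtain ⟨z₁, hz₁, e₁⟩ := hq γ η
  obtain ⟨z₂, hz₂, e₂⟩ := hq γ₀ η
  obtain ⟨t₁, h₁, f₁⟩ := ta_scal hz₁
  obtain ⟨t₂, h₂, f₂⟩ := ta_scal hz₂
  have ht₁ : t₁ ≠ 0 := by rw [← norm_pos_iff, h₁]; exact one_pos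
  refine ⟨t₂ * t₁⁻¹, by rw [norm_mul, norm_inv, h₁, h₂]; norm_num, ?_⟩
  have g₁ : ta (z₁ * (q γ * q η)).1 = t₁ • ta (q γ * q η).1 := by
    rw [← f₁, ← Subgroup.coe_mul]
  have g₂ : ta (z₂ * (q γ₀ * q η)).1 = t₂ • ta (q γ₀ * q η).1 := by
    rw [← f₂, ← Subgroup.coe_mul]
  have e : q γ * (q γ₀)⁻¹ * (q γ₀ * q η) = q γ * q η := by group
  have g₃ : ta (q γ * (q γ₀)⁻¹).1 * ta (q γ₀ * q η).1 = ta (q γ * q η).1 := by
    rw [← ta_mul, ← Subgroup.coe_mul, e]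
  rw [e₁, e₂, g₁, g₂, smul_smul, inv_mul_cancel_right₀ ht₁, Matrix.mul_smul, g₃]

end mem

section base

variable {n : Type} [Fintype n] [DecidableEq n] {σ : ℂ →+* ℂ} {ε : ℂ} {J : Matrix n n ℂ}

/-- the direction of a perturbation -/
def PertAt (σ : ℂ →+* ℂ) (J : Matrix n n ℂ) (δ c : ℝ) : Prop :=
  ∀ x x' : n → ℂ, hf σ J x x = 0 → hf σ J x' x' = 0 → ‖x‖ ≤ 1 → ‖x'‖ ≤ 1 →
    (∃ a b, δ ≤ ‖x a * x' b - x b * x' a‖) → ‖hf σ J x x'‖ ≤ c →
    ∃ y, hf σ J y y = 0 ∧ hf σ J x y = 0 ∧ ‖y‖ ≤ 2 ∧ c ≤ ‖hf σ J y x'‖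

/-- the constant of `base` -/
noncomputable def cB (δ c : ℝ) : ℝ := min 1 (min c (δ * c / 16))

theorem cB_pos {δ c : ℝ} (hδ : 0 < δ) (hc : 0 < c) : 0 < cB δ c := by
  unfold cB
  have : 0 < δ * c / 16 := by positivity
  exact lt_min one_pos (lt_min hc this)

/-- **The base vectors of a class.** -/
theorem base (herm : ∀ x y, hf σ J y x = ε * σ (hf σ J x y)) {δ c A : ℝ} (hδ : 0 < δ)
    (hδ1 : δ ≤ 1) (hc : 0 < c) (hP : PertAt σ J δ c) {x x' : n → ℂ} (hx : ‖x‖ ≤ 1)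
    (hx' : ‖x'‖ ≤ 1) (hi : hf σ J x x = 0) (hi' : hf σ J x' x' = 0)
    (hs : ∃ a b, δ ≤ ‖x a * x' b - x b * x' a‖) :
    ∃ (y : n → ℂ) (τ : ℂ), hf σ J x y = 0 ∧ ‖y‖ ≤ 2 ∧ ‖τ‖ * A ≤ 1 ∧
      hf σ J (x + τ • y) (x + τ • y) = 0 ∧ ‖x + τ • y‖ ≤ 2 ∧
      (∃ a b, δ / 2 ≤ ‖(x + τ • y) a * x' b - (x + τ • y) b * x' a‖) ∧
      cB δ c * max ‖hf σ J x x'‖ (1 / max 1 A) ≤ ‖hf σ J (x + τ • y) x'‖ := by
  have hm1 : (1 : ℝ) ≤ max 1 A := le_max_left _ _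
  have hm0 : (0 : ℝ) < max 1 A := by linarith
  have hm2 : 1 / max 1 A ≤ 1 := by rw [div_le_one hm0]; exact hm1
  have hm3 : 0 < 1 / max 1 A := by positivity
  by_cases hw : ‖hf σ J x x'‖ ≤ c
  · obtain ⟨y, y1, y2, y3, y4⟩ := hP x x' hi hi' hx hx' hs hw
    obtain ⟨a, b, hab⟩ := hs
    obtain ⟨ρ, hρ⟩ : ∃ ρ : ℝ, ρ = δ / 8 / max 1 A := ⟨_, rfl⟩
    have hρ0 : 0 < ρ := by rw [hρ]; positivity
    have hρ1 : ρ ≤ δ / 8 := by
      rw [hρ]
      exact div_le_self (by positivity) hm1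
    have hρA : ρ * max 1 A = δ / 8 := by
      rw [hρ]
      field_simp
    obtain ⟨τ, t1, t2, t3⟩ := pert (k := ℂ) hc hρ0 (w := hf σ J x x') (D := hf σ J y x')
      (t := (ρ : ℂ)) (by rw [Complex.norm_real, Real.norm_eq_abs, abs_of_pos hρ0]) y4
    have e : hf σ J (x + τ • y) x' = hf σ J x x' + τ * hf σ J y x' := by
      rw [hf_add_left, hf_smul_left]
    refine ⟨y, τ, y2, y3, ?_, ?_, ?_, ⟨a, b, ?_⟩, ?_⟩
    · by_cases hA : 0 ≤ A
      · calc ‖τ‖ * A ≤ ρ * max 1 A := mul_le_mul t1 (le_max_right _ _) hA hρ0.le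
          _ ≤ 1 := by rw [hρA]; linarith
      · push Not at hA
        have := norm_nonneg τ
        nlinarith
    · rw [hf_add_left, hf_add_right, hf_add_right, hf_smul_left, hf_smul_left, hf_smul_right,
        hf_smul_right, hi, y2, herm x y, y2, y1]
      simp
    · calc ‖x + τ • y‖ ≤ 1 + δ / 8 * 2 := (norm_add_le _ _).trans
            (add_le_add hx (by
              rw [norm_smul]
              exact mul_le_mul (t1.trans hρ1) y3 (norm_nonneg _) (by positivity)))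
        _ ≤ 2 := by linarith
    · have e2 : (x + τ • y) a * x' b - (x + τ • y) b * x' a =
          (x a * x' b - x b * x' a) + τ * (y a * x' b - y b * x' a) := by
        simp only [Pi.add_apply, Pi.smul_apply, smul_eq_mul]
        ring
      have h1 : ‖y a * x' b - y b * x' a‖ ≤ 4 := by
        refine (norm_sub_le _ _).trans ?_
        rw [norm_mul, norm_mul]
        have q1 : ‖y a‖ * ‖x' b‖ ≤ 2 * 1 := mul_le_mul ((norm_le_pi_norm y a).trans y3)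
          ((norm_le_pi_norm x' b).trans hx') (norm_nonneg _) (by norm_num)
        have q2 : ‖y b‖ * ‖x' a‖ ≤ 2 * 1 := mul_le_mul ((norm_le_pi_norm y b).trans y3)
          ((norm_le_pi_norm x' a).trans hx') (norm_nonneg _) (by norm_num)
        linarith
      have h2 : ‖τ * (y a * x' b - y b * x' a)‖ ≤ δ / 8 * 4 := by
        rw [norm_mul]
        exact mul_le_mul (t1.trans hρ1) h1 (norm_nonneg _) (by positivity)
      have h3 : ‖x a * x' b - x b * x' a‖ ≤ ‖(x + τ • y) a * x' b - (x + τ • y) b * x' a‖ +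
          ‖τ * (y a * x' b - y b * x' a)‖ := by
        have : x a * x' b - x b * x' a = ((x + τ • y) a * x' b - (x + τ • y) b * x' a) -
            τ * (y a * x' b - y b * x' a) := by rw [e2]; ring
        conv_lhs => rw [this]
        exact norm_sub_le _ _
      linarith
    · rw [e]
      rcases max_choice ‖hf σ J x x'‖ (1 / max 1 A) with h | h
      · rw [h]
        calc _ ≤ 1 * ‖hf σ J x x'‖ :=
              mul_le_mul_of_nonneg_right (min_le_left _ _) (norm_nonneg _)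
          _ = ‖hf σ J x x'‖ := one_mul _
          _ ≤ _ := t2
      · rw [h]
        calc _ ≤ δ * c / 16 * (1 / max 1 A) :=
              mul_le_mul_of_nonneg_right ((min_le_right _ _).trans (min_le_right _ _)) hm3.le
          _ = ρ * c / 2 := by rw [hρ]; field_simp; ring
          _ ≤ _ := t3
  · push Not at hw
    obtain ⟨a, b, hab⟩ := hs
    refine ⟨0, 0, hf_zero_right _ _ _, by rw [norm_zero]; norm_num, by
      rw [norm_zero, zero_mul]; exact zero_le_one, ?_, ?_, ⟨a, b, ?_⟩, ?_⟩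
    · rw [smul_zero, add_zero]
      exact hi
    · rw [smul_zero, add_zero]
      linarith
    · rw [smul_zero, add_zero]
      linarith
    · rw [smul_zero, add_zero]
      rcases max_choice ‖hf σ J x x'‖ (1 / max 1 A) with h | h
      · rw [h]
        calc _ ≤ 1 * ‖hf σ J x x'‖ :=
              mul_le_mul_of_nonneg_right (min_le_left _ _) (norm_nonneg _)
          _ = ‖hf σ J x x'‖ := one_mul _
      · rw [h]
        calc _ ≤ c * 1 := mul_le_mul ((min_le_right _ _).trans (min_le_left _ _)) hm2 hm3.le hc.le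
          _ = c := mul_one _
          _ ≤ _ := hw.le

end base

end Vale.Agent.P092.H574.H
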