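import Vale.Agent.P092.H574.H3
import Vale.Agent.P092.H862.Pig

/-!
P092, Track H (`SU(2, n)`, complex), count row (helper574), part 3: the class sum and the count for
two point walls.
-/

set_option linter.all false

namespace Vale.Agent.P092.H574.H

open Matrix
open Vale.Agent.P092.H303 (FormGroup Idx hyp)
open Vale.Agent.P092.H714.Cl
open Vale.Agent.P092.H899.G (Pres ent_le nmM_nonneg nmM_le ta_mul ta_inv' pres_ta ta_scal)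
open Vale.Agent.P092.CL (ta nmM NW1 scal)
open Vale.Agent.P092.H862.Pig (pig1 pig2)

variable {n : Type} [Fintype n] [DecidableEq n] {σ : ℂ →+* ℂ} {ε : ℂ} {J : Matrix n n ℂ}

/-- **The two parameters** of a member (row (1), helper337). -/
def ParAt (σ : ℂ →+* ℂ) (J : Matrix n n ℂ) (C δ C' : ℝ) : Prop :=
  1 ≤ C' ∧ ∀ x x' : n → ℂ, ‖x‖ ≤ 2 → ‖x'‖ ≤ 2 → hf σ J x x = 0 → hf σ J x' x' = 0 →
    (∃ a b, δ ≤ ‖x a * x' b - x b * x' a‖) →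
    ∃ (s : Matrix n n ℂ → ℝ) (q : Matrix n n ℂ → ℂ),
      (∀ m, MemH σ J C x x' m → 0 < s m ∧ s m ≤ C' ∧ ‖hf σ J x x'‖ ≤ C' * s m ∧
        ‖q m‖ * (‖hf σ J x x'‖ * s m) ≤ C') ∧
      ∀ m m' m'', MemH σ J C x x' m → MemH σ J C x x' m' → m'' * m = m' → s m ≤ 2 * s m' →
        s m' ≤ 2 * s m → ‖q m' - q m‖ * (s m * s m') ≤ 1 → ∀ i j, ‖m'' i j‖ ≤ C'

variable {Γ : Type} [Group Γ]

/-- the weight of an element -/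
noncomputable def wt (B : ℝ) (a : FormGroup σ J → n → ℂ) (q : Γ → FormGroup σ J) (η γ : Γ) : ℝ :=
  max (‖hf σ J (a (q (γ * η))) (a (q γ))‖ / (B + 1)) (1 / max 1 (nmM (ta (q (γ * η)).1)))

theorem wt_pos (B : ℝ) (a : FormGroup σ J → n → ℂ) (q : Γ → FormGroup σ J) (η γ : Γ) :
    0 < wt B a q η γ :=
  lt_of_lt_of_le (by positivity) (le_max_right _ _)

theorem wt_mul (B : ℝ) (a : FormGroup σ J → n → ℂ) (q : Γ → FormGroup σ J) (η γ : Γ) :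
    1 ≤ wt B a q η γ * max 1 (nmM (ta (q (γ * η)).1)) := by
  have h1 : (1 : ℝ) ≤ max 1 (nmM (ta (q (γ * η)).1)) := le_max_left _ _
  have h2 : 1 / max 1 (nmM (ta (q (γ * η)).1)) ≤ wt B a q η γ := le_max_right _ _
  rwa [div_le_iff₀ (by linarith)] at h2

theorem wt_le {B : ℝ} (hB : 0 ≤ B) {a : FormGroup σ J → n → ℂ} (ha : ∀ g, ‖a g‖ = 1)
    (hbd : ∀ x y : n → ℂ, ‖hf σ J x y‖ ≤ B * (‖x‖ * ‖y‖)) (q : Γ → FormGroup σ J) (η γ : Γ) :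
    wt B a q η γ ≤ 4 := by
  refine max_le ?_ ?_
  · have h1 := hbd (a (q (γ * η))) (a (q γ))
    rw [ha, ha, mul_one, mul_one] at h1
    rw [div_le_iff₀ (by linarith)]
    linarith
  · have : (1 : ℝ) ≤ max 1 (nmM (ta (q (γ * η)).1)) := le_max_left _ _
    calc _ ≤ (1 : ℝ) := by
          rw [div_le_one (by linarith)]
          exact this
      _ ≤ 4 := by norm_num

theorem wt_hf {B : ℝ} (hB : 0 ≤ B) (a : FormGroup σ J → n → ℂ) (q : Γ → FormGroup σ J)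
    (η γ : Γ) : ‖hf σ J (a (q (γ * η))) (a (q γ))‖ ≤ (B + 1) * wt B a q η γ := by
  have h : ‖hf σ J (a (q (γ * η))) (a (q γ))‖ / (B + 1) ≤ wt B a q η γ := le_max_left _ _
  rw [div_le_iff₀ (by linarith)] at h
  linarith

theorem wt_le_max {B : ℝ} (hB : 0 ≤ B) (a : FormGroup σ J → n → ℂ) (q : Γ → FormGroup σ J)
    (η γ : Γ) : wt B a q η γ ≤ max ‖hf σ J (a (q (γ * η))) (a (q γ))‖
      (1 / max 1 (nmM (ta (q (γ * η)).1))) :=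
  max_le_max (div_le_self (norm_nonneg _) (by linarith)) le_rfl

/-- the data of the count -/
structure Dat (ε : ℂ) (J : Matrix n n ℂ) (σ : ℂ →+* ℂ) (a : FormGroup σ J → n → ℂ)
    (B B' D R₁ R c₀ : ℝ) : Prop where
  ne : Nonempty n
  B0 : 0 ≤ B
  B0' : 0 ≤ B'
  D0 : 0 ≤ D
  R0 : 0 ≤ R₁
  c0 : 0 < c₀
  bd : ∀ x y : n → ℂ, ‖hf σ J x y‖ ≤ B * (‖x‖ * ‖y‖)
  nd : ∀ (w : n → ℂ) (e : ℝ), 0 ≤ e → (∀ j, ‖hf σ J (Pi.single j 1) w‖ ≤ e) → ‖w‖ ≤ B' * e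
  nm : ∀ g : FormGroup σ J, c₀ ≤ nmM (ta g.1)
  herm : ∀ x y, hf σ J y x = ε * σ (hf σ J x y)
  a1 : ∀ g, ‖a g‖ = 1
  ai : ∀ g, hf σ J (a g) (a g) = 0
  att : ∀ g, NW1 R (ta g.1) → AttH D R₁ (ta g.1) (a g)

/-- **The class sum.** -/
theorem cls {a : FormGroup σ J → n → ℂ} {B B' D R₁ R c₀ : ℝ} (hd : Dat ε J σ a B B' D R₁ R c₀)
    {q : Γ → FormGroup σ J}
    (hq : ∀ γ γ', ∃ z : FormGroup σ J, z.1 ∈ scal ℂ n ∧ q (γ * γ') = z * (q γ * q γ'))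
    (hud : ∀ C : ℝ, ∃ N : ℕ, ∀ T : Finset Γ,
      (∀ γ ∈ T, ∀ γ' ∈ T, nmM (ta (q γ' * (q γ)⁻¹).1) ≤ C) → T.card ≤ N)
    {C₀ δ c₁ C' : ℝ} (hC₀ : 0 ≤ C₀) (hδ : 0 < δ) (hδ1 : δ ≤ 1) (hc₁ : 0 < c₁)
    (hP : PertAt σ J δ c₁) (hPar : ParAt σ J (CC (Fintype.card n) B B' D R₁ R) (δ / 2) C')
    {F : FormGroup σ J → FormGroup σ J → ℝ} (hF0 : ∀ g h, 0 ≤ F g h)
    (hF : ∀ g h, F g h ≤ C₀ * ‖hf σ J (a g) (a h)‖)
    (hFs : ∀ g h, F g h ≠ 0 → ∃ i j, δ ≤ ‖a g i * a h j - a g j * a h i‖) :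
    ∃ K : ℝ, 0 ≤ K ∧ ∀ Q : ℝ, 0 ≤ Q → ∀ (η : Γ) (T : Finset Γ),
      (∀ γ ∈ T, NW1 R (ta (q (γ * η)).1) ∧ NW1 R (ta (q γ).1) ∧
        Real.log (nmM (ta (q (γ * η)).1)) ≤ Q) →
      (∀ γ ∈ T, ∀ γ' ∈ T, nmM (ta (q (γ * η)).1) ≤ 2 * nmM (ta (q (γ' * η)).1) ∧
        wt B a q η γ ≤ 2 * wt B a q η γ') →
      ∑ γ ∈ T, F (q (γ * η)) (q γ) ^ 2 ≤ K * (1 + Q) := by
  classical
  haveI := hd.ne
  obtain ⟨hC', HP⟩ := hPar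
  obtain ⟨N, hN⟩ := hud C'
  have hCC : 1 ≤ C' ^ 2 := one_le_pow₀ hC'
  have hCle : C' ≤ C' ^ 2 := le_self_pow₀ hC' (by norm_num)
  obtain ⟨K, hK, HK⟩ := pig1 (ι := Γ) (C' ^ 2) hCC N
  obtain ⟨e, he⟩ : ∃ e : ℝ, e = cB δ c₁ := ⟨_, rfl⟩
  have he0 : 0 < e := by rw [he]; exact cB_pos hδ hc₁
  obtain ⟨L, hL⟩ : ∃ L : ℝ, L = |Real.log (1 / e)| + |Real.log (C' ^ 2)| := ⟨_, rfl⟩
  have hL0 : 0 ≤ L := by rw [hL]; positivity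
  have hB1 : 0 < B + 1 := by linarith [hd.B0]
  refine ⟨4 * C₀ ^ 2 * ((B + 1) * (1 / e)) ^ 2 * K * (1 + L), by positivity, ?_⟩
  intro Q hQ η T hT hcl
  obtain ⟨T₁, hT₁⟩ : ∃ T₁, T₁ = T.filter fun γ => F (q (γ * η)) (q γ) ≠ 0 := ⟨_, rfl⟩
  have hsub : T₁ ⊆ T := by rw [hT₁]; exact Finset.filter_subset _ _
  have hsum : ∑ γ ∈ T, F (q (γ * η)) (q γ) ^ 2 = ∑ γ ∈ T₁, F (q (γ * η)) (q γ) ^ 2 := by
    refine (Finset.sum_subset hsub fun γ hγ hn => ?_).symm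
    have : F (q (γ * η)) (q γ) = 0 := by
      by_contra hne
      exact hn (by rw [hT₁]; exact Finset.mem_filter.2 ⟨hγ, hne⟩)
    rw [this]
    ring
  rw [hsum]
  rcases T₁.eq_empty_or_nonempty with hem | hne
  · rw [hem, Finset.sum_empty]
    positivity
  obtain ⟨γ₀, hγ₀, hmax⟩ := T₁.exists_max_image (fun γ => nmM (ta (q γ).1)) hne
  have hγ₀T := hsub hγ₀
  obtain ⟨a0, b0, c0⟩ := hT γ₀ hγ₀T
  have hA0 : 0 < nmM (ta (q (γ₀ * η)).1) := lt_of_lt_of_le hd.c0 (hd.nm _)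
  have hA0' : 0 < nmM (ta (q γ₀).1) := lt_of_lt_of_le hd.c0 (hd.nm _)
  have hFγ₀ : F (q (γ₀ * η)) (q γ₀) ≠ 0 := by
    rw [hT₁] at hγ₀
    exact (Finset.mem_filter.1 hγ₀).2
  obtain ⟨y, τ, o1, o2, o4, o8, o5, o6, o7⟩ := base (A := nmM (ta (q (γ₀ * η)).1)) hd.herm hδ hδ1
    hc₁ hP (hd.a1 (q (γ₀ * η))).le (hd.a1 (q γ₀)).le (hd.ai _) (hd.ai _) (hFs _ _ hFγ₀)
  obtain ⟨x, hx⟩ : ∃ x, x = a (q (γ₀ * η)) + τ • y := ⟨_, rfl⟩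
  rw [← hx] at o5 o6 o7 o8
  obtain ⟨W, hW⟩ : ∃ W, W = ‖hf σ J x (a (q γ₀))‖ := ⟨_, rfl⟩
  have hw7 : e * wt B a q η γ₀ ≤ W := by
    rw [hW, he]
    exact (mul_le_mul_of_nonneg_left (wt_le_max hd.B0 a q η γ₀) (cB_pos hδ hc₁).le).trans o7
  have hW0 : 0 < W := lt_of_lt_of_le (mul_pos he0 (wt_pos B a q η γ₀)) hw7
  have hmem : ∀ γ ∈ T₁, MemH σ J (CC (Fintype.card n) B B' D R₁ R) x (a (q γ₀))
      (ta (q γ * (q γ₀)⁻¹).1) := by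
    intro γ hγ
    obtain ⟨a1, b1, c1⟩ := hT γ (hsub hγ)
    obtain ⟨c, hc, hm⟩ := mulc hq η γ γ₀
    rw [hx]
    refine memS hd.B0 hd.B0' hd.D0 hd.R0 hd.bd hd.nd hA0 hA0' (hd.a1 _) (hd.a1 _) (hd.att _ a0)
      (hd.att _ b0) a1 (hcl γ (hsub hγ) γ₀ hγ₀T).1 b1 (hmax γ hγ) hc hm ?_ o1 o2 o4
    have e : q γ * (q γ₀)⁻¹ * q γ₀ = q γ := by group
    rw [← ta_mul, ← Subgroup.coe_mul, e]
  obtain ⟨s, p, P1, P2⟩ := HP x (a (q γ₀)) o5 ((hd.a1 (q γ₀)).le.trans (by norm_num)) o8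
    (hd.ai _) o6
  rw [← hW] at P1
  obtain ⟨z1, z2, z3, -⟩ := P1 _ (hmem γ₀ hγ₀)
  have hWC : W ≤ C' ^ 2 := by
    refine z3.trans ?_
    rw [sq]
    exact mul_le_mul_of_nonneg_left z2 (by linarith)
  have hcard := HK W hW0 hWC T₁ (fun γ => s (ta (q γ * (q γ₀)⁻¹).1))
    (fun γ => p (ta (q γ * (q γ₀)⁻¹).1)) (fun γ hγ => by
      obtain ⟨r1, r2, r3, r4⟩ := P1 _ (hmem γ hγ)
      exact ⟨r1, r2.trans hCle, r3.trans (mul_le_mul_of_nonneg_right hCle r1.le), r4.trans hCle⟩)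
    (fun T' hT' hcell => by
      refine hN T' fun γ hγ γ' hγ' => ?_
      refine nmM_le (by linarith) fun i j => ?_
      refine P2 _ _ (ta (q γ' * (q γ)⁻¹).1) (hmem γ (hT' hγ)) (hmem γ' (hT' hγ')) ?_
        (hcell γ hγ γ' hγ').1 (hcell γ' hγ' γ hγ).1 ?_ i j
      · have e : q γ' * (q γ)⁻¹ * (q γ * (q γ₀)⁻¹) = q γ' * (q γ₀)⁻¹ := by group
        rw [← ta_mul, ← Subgroup.coe_mul, e]
      · have h1 := (hcell γ' hγ' γ hγ).2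
        rwa [mul_comm (s _) (s _)])
  -- the terms
  have hd1 : 0 < 1 / e := by positivity
  have hwW : wt B a q η γ₀ ≤ 1 / e * W := by
    have h1 := mul_le_mul_of_nonneg_left hw7 hd1.le
    have e1 : 1 / e * (e * wt B a q η γ₀) = wt B a q η γ₀ := by
      field_simp
    rwa [e1] at h1
  have hterm : ∀ γ ∈ T₁, F (q (γ * η)) (q γ) ^ 2 ≤
      4 * C₀ ^ 2 * ((B + 1) * (1 / e)) ^ 2 * W ^ 2 := by
    intro γ hγ
    have h1 : F (q (γ * η)) (q γ) ≤ C₀ * ((B + 1) * (2 * (1 / e * W))) := by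
      refine (hF _ _).trans (mul_le_mul_of_nonneg_left ?_ hC₀)
      calc _ ≤ (B + 1) * wt B a q η γ := wt_hf hd.B0 a q η γ
        _ ≤ (B + 1) * (2 * wt B a q η γ₀) :=
            mul_le_mul_of_nonneg_left (hcl γ (hsub hγ) γ₀ hγ₀T).2 hB1.le
        _ ≤ _ := mul_le_mul_of_nonneg_left (mul_le_mul_of_nonneg_left hwW (by norm_num)) hB1.le
    calc _ ≤ (C₀ * ((B + 1) * (2 * (1 / e * W)))) ^ 2 := pow_le_pow_left₀ (hF0 _ _) h1 2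
      _ = _ := by ring
  -- the logarithm
  have hlog : 1 + |Real.log W| ≤ (1 + L) * (1 + Q) := by
    have h1 : Real.log W ≤ |Real.log (C' ^ 2)| :=
      (Real.log_le_log hW0 hWC).trans (le_abs_self _)
    have hM1 : (1 : ℝ) ≤ max 1 (nmM (ta (q (γ₀ * η)).1)) := le_max_left _ _
    have hM0 : (0 : ℝ) < max 1 (nmM (ta (q (γ₀ * η)).1)) := by linarith
    have h2 : 1 ≤ 1 / e * W * max 1 (nmM (ta (q (γ₀ * η)).1)) :=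
      (wt_mul B a q η γ₀).trans (mul_le_mul_of_nonneg_right hwW hM0.le)
    have h3 : 0 ≤ Real.log (1 / e) + Real.log W +
        Real.log (max 1 (nmM (ta (q (γ₀ * η)).1))) := by
      rw [← Real.log_mul hd1.ne' hW0.ne', ← Real.log_mul (by positivity) hM0.ne']
      exact Real.log_nonneg h2
    have h4 : Real.log (max 1 (nmM (ta (q (γ₀ * η)).1))) ≤ Q := by
      rcases max_choice 1 (nmM (ta (q (γ₀ * η)).1)) with h | h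
      · rw [h, Real.log_one]
        exact hQ
      · rw [h]
        exact c0
    have h5 : -Real.log W ≤ |Real.log (1 / e)| + Q := by
      have := le_abs_self (Real.log (1 / e))
      linarith
    have h6 : |Real.log W| ≤ L + Q := by
      rw [abs_le]
      have q1 := abs_nonneg (Real.log (1 / e))
      have q2 := abs_nonneg (Real.log (C' ^ 2))
      constructor <;> linarith
    nlinarith
  calc ∑ γ ∈ T₁, F (q (γ * η)) (q γ) ^ 2 ≤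
      ∑ _γ ∈ T₁, 4 * C₀ ^ 2 * ((B + 1) * (1 / e)) ^ 2 * W ^ 2 := Finset.sum_le_sum hterm
    _ = 4 * C₀ ^ 2 * ((B + 1) * (1 / e)) ^ 2 * ((T₁.card : ℝ) * W ^ 2) := by
        rw [Finset.sum_const, nsmul_eq_mul]; ring
    _ ≤ 4 * C₀ ^ 2 * ((B + 1) * (1 / e)) ^ 2 * (K * (1 + |Real.log W|)) :=
        mul_le_mul_of_nonneg_left hcard (by positivity)
    _ ≤ 4 * C₀ ^ 2 * ((B + 1) * (1 / e)) ^ 2 * (K * ((1 + L) * (1 + Q))) := by gcongr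
    _ = _ := by ring

/-- **The count for two point walls.** -/
theorem count {a : FormGroup σ J → n → ℂ} {B B' D R₁ R c₀ : ℝ} (hd : Dat ε J σ a B B' D R₁ R c₀)
    {q : Γ → FormGroup σ J}
    (hq : ∀ γ γ', ∃ z : FormGroup σ J, z.1 ∈ scal ℂ n ∧ q (γ * γ') = z * (q γ * q γ'))
    (hud : ∀ C : ℝ, ∃ N : ℕ, ∀ T : Finset Γ,
      (∀ γ ∈ T, ∀ γ' ∈ T, nmM (ta (q γ' * (q γ)⁻¹).1) ≤ C) → T.card ≤ N)
    {C₀ δ c₁ C' : ℝ} (hC₀ : 0 ≤ C₀) (hδ : 0 < δ) (hδ1 : δ ≤ 1) (hc₁ : 0 < c₁)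
    (hP : PertAt σ J δ c₁) (hPar : ParAt σ J (CC (Fintype.card n) B B' D R₁ R) (δ / 2) C')
    {F : FormGroup σ J → FormGroup σ J → ℝ} (hF0 : ∀ g h, 0 ≤ F g h)
    (hF : ∀ g h, F g h ≤ C₀ * ‖hf σ J (a g) (a h)‖)
    (hFs : ∀ g h, F g h ≠ 0 → ∃ i j, δ ≤ ‖a g i * a h j - a g j * a h i‖) :
    ∃ C : ℝ, 0 ≤ C ∧ ∀ Q : ℝ, 0 ≤ Q → ∀ (η : Γ) (S : Finset Γ),
      (∀ γ ∈ S, NW1 R (ta (q (γ * η)).1) ∧ NW1 R (ta (q γ).1) ∧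
        Real.log (nmM (ta (q (γ * η)).1)) ≤ Q) →
      ∑ γ ∈ S, F (q (γ * η)) (q γ) ^ 2 ≤ C * (1 + Q) ^ 3 := by
  obtain ⟨K, hK, H⟩ := cls hd hq hud hC₀ hδ hδ1 hc₁ hP hPar hF0 hF hFs
  obtain ⟨C, hC, HC⟩ := pig2 (ι := Γ) c₀ K hd.c0 hK
  refine ⟨C, hC, fun Q hQ η S hS => ?_⟩
  refine HC Q hQ S (fun γ => nmM (ta (q (γ * η)).1)) (fun γ => wt B a q η γ)
    (fun γ => F (q (γ * η)) (q γ) ^ 2)
    (fun γ hγ => ⟨hd.nm _, (hS γ hγ).2.2, wt_pos B a q η γ, wt_mul B a q η γ,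
      wt_le hd.B0 hd.a1 hd.bd q η γ⟩) ?_
  intro T hT hcl
  exact H Q hQ η T (fun γ hγ => hS γ (hT hγ)) hcl

end Vale.Agent.P092.H574.H
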