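import Vale.Agent.P092.H574.H4
import Vale.Agent.P092.H632.T2.Bpx
import Vale.Agent.P092.CL.LegE

/-!
P092, Track H (`SU(2, n)`, complex), count row (helper574), part 4: the weighted count `WC` for the
letters `CL.lt` and the sharp attracting points (helper632).
-/

set_option linter.all false

namespace Vale.Agent.P092.H574.H

open Matrix
open Vale.Agent.P092.H303 (FormGroup Idx hyp)
open Vale.Agent.P092.H714.Cl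
open Vale.Agent.P092.H370.Po
open Vale.Agent.P092.H416.CL (exists_vec mem_of_span)
open Vale.Agent.P092.H899.G (Pres ent_le nmM_nonneg nmM_le ta_mul ta_inv' pres_ta ta_scal hf_bd)
open Vale.Agent.P092.CL (ta nmM NW1 NWr scal Lt Gau lt WC)
open Vale.Agent.P092.H632.T2 (BpX gau nw1_gau g1 g1')

section dat

variable {n : Type} [Fintype n] [DecidableEq n] {σ : ℂ →+* ℂ} {ε : ℂ} {J : Matrix n n ℂ}

/-- a unit vector of a point -/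
theorem exists_unit (X : SGr σ J 1) : ∃ x ∈ X.S, ‖x‖ = 1 := by
  obtain ⟨x, hx, h⟩ := exists_vec X
  have hn : (0 : ℝ) < ‖x‖ := norm_pos_iff.2 hx
  refine ⟨((‖x‖⁻¹ : ℝ) : ℂ) • x, X.S.smul_mem _ (mem_of_span h), ?_⟩
  rw [norm_smul, Complex.norm_real, Real.norm_eq_abs, abs_of_pos (inv_pos.2 hn),
    inv_mul_cancel₀ hn.ne']

/-- a lower bound of the norm -/
theorem nm_ge (hF : Frm σ ε J) {B : ℝ} (hB : 0 ≤ B)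
    (hbd : ∀ x y : n → ℂ, ‖hf σ J x y‖ ≤ B * (‖x‖ * ‖y‖)) :
    ∃ c₀ : ℝ, 0 < c₀ ∧ ∀ g : FormGroup σ J, c₀ ≤ nmM (ta g.1) := by
  obtain ⟨u, hu, -⟩ := hF.iso
  obtain ⟨y, hy⟩ := hF.nondeg u hu
  have h0 : 0 < ‖hf σ J u y‖ := norm_pos_iff.2 hy
  obtain ⟨M, hM⟩ : ∃ M : ℝ, M = B * ((Fintype.card n * ‖u‖) * (Fintype.card n * ‖y‖)) := ⟨_, rfl⟩
  have hM0 : 0 ≤ M := by rw [hM]; positivity
  refine ⟨min 1 (‖hf σ J u y‖ / (M + 1)), lt_min one_pos (by positivity), fun g => ?_⟩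
  by_contra hc
  push Not at hc
  have h1 := nmM_nonneg (ta g.1)
  have h2 : nmM (ta g.1) < 1 := lt_of_lt_of_le hc (min_le_left _ _)
  have h3 : nmM (ta g.1) < ‖hf σ J u y‖ / (M + 1) := lt_of_lt_of_le hc (min_le_right _ _)
  rw [lt_div_iff₀ (by linarith)] at h3
  have h4 : ‖hf σ J u y‖ ≤ M * (nmM (ta g.1) * nmM (ta g.1)) := by
    rw [← pres_ta g.2 u y]
    refine (hbd _ _).trans ?_
    calc B * (‖ta g.1 *ᵥ u‖ * ‖ta g.1 *ᵥ y‖) ≤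
        B * ((Fintype.card n * (nmM (ta g.1) * ‖u‖)) * (Fintype.card n * (nmM (ta g.1) * ‖y‖))) :=
          mul_le_mul_of_nonneg_left (mul_le_mul (mv_le _ _) (mv_le _ _) (norm_nonneg _)
            (by positivity)) hB
      _ = _ := by rw [hM]; ring
  have h5 : nmM (ta g.1) * nmM (ta g.1) ≤ nmM (ta g.1) := by nlinarith
  nlinarith

/-- **The data of the count.** -/
theorem exists_dat [Nonempty n] (hσ : ∀ x, ‖σ x‖ = ‖x‖) (hF : Frm σ ε J) {c : ℝ}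
    {F : Finset (SGr σ J 1)} {bp : FormGroup σ J → SGr σ J 1} (hc : 0 < c) (hbp : BpX c F bp)
    (R : ℝ) : ∃ (a : FormGroup σ J → n → ℂ) (B B' D R₁ c₀ : ℝ), (∀ g, a g ∈ (bp g).S) ∧
      Dat ε J σ a B B' D R₁ R c₀ := by
  obtain ⟨B, hB, hbd⟩ := hf_bd hσ J
  obtain ⟨B', hB', hnd⟩ := nd hσ hF.nondeg
  obtain ⟨c₀, hc₀, hnm⟩ := nm_ge hF hB hbd
  obtain ⟨R₁, hR₁, hsh⟩ := hbp.sharp hc R
  choose a ha hb using fun g : FormGroup σ J => exists_unit (bp g)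
  refine ⟨a, B, B', 1 / c, R₁, c₀, ha, ‹_›, hB, hB', by positivity, hR₁, hc₀, hbd, hnd, hnm,
    hF.herm, hb, fun g => (bp g).sing _ (ha g) _ (ha g), fun g hg => ⟨?_, fun v i j => ?_⟩⟩
  · obtain ⟨X, hX, h1, h2⟩ := hbp.vec g
    obtain ⟨x, hx, h3, h4⟩ := h2 (a g) (ha g)
    refine ⟨x, h3, ?_⟩
    rw [hb, mul_assoc] at h4
    rw [le_div_iff₀ hc]
    linarith
  · have h1 := hsh g hg (a g) (ha g) v i j
    rwa [hb, one_mul] at h1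

end dat

section fin

variable {n : Type} [Fintype n] [DecidableEq n] {σ : ℂ →+* ℂ} {ε : ℂ} {J : Matrix n n ℂ} {N : ℕ}

/-- **The weighted count**, any form over `ℂ`. -/
theorem wcnt [Nonempty n] (hσ : ∀ x, ‖σ x‖ = ‖x‖) (hF : Frm σ ε J)
    (hP : ∀ δ : ℝ, 0 < δ → ∃ c, 0 < c ∧ PertAt σ J δ c)
    (hPar : ∀ C δ : ℝ, 1 ≤ C → 0 < δ → δ ≤ 1 → ∃ C', ParAt σ J C δ C')
    (hN : 1 ≤ N) (e : n ≃ Fin (N + 1)) {c : ℝ}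
    {F : Finset (SGr σ J 1)} {bp : FormGroup σ J → SGr σ J 1} (hc : 0 < c) (hbp : BpX c F bp)
    {Γ : Type} [Group Γ] {q : Γ → FormGroup σ J}
    (hq : ∀ γ γ', ∃ z : FormGroup σ J, z.1 ∈ scal ℂ n ∧ q (γ * γ') = z * (q γ * q γ'))
    (hud : ∀ C : ℝ, ∃ N : ℕ, ∀ T : Finset Γ,
      (∀ γ ∈ T, ∀ γ' ∈ T, nmM (ta (q γ' * (q γ)⁻¹).1) ≤ C) → T.card ≤ N)
    {I : Type} [Fintype I] {u v : I → C(SGr σ J 1, ℂ)} {C₀ δ : ℝ} (hC₀ : 0 ≤ C₀) (hδ : 0 < δ)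
    (hδ1 : δ ≤ 1)
    (H : ∀ (X Y : SGr σ J 1) (a b : n → ℂ), a ∈ X.S → b ∈ Y.S → ‖a‖ = 1 → ‖b‖ = 1 →
      ‖∑ i, u i X * v i Y‖ ≤ C₀ * ‖hf σ J a b‖ ∧
        (∑ i, u i X * v i Y ≠ 0 → ∃ i j, δ ≤ ‖a i * b j - a j * b i‖)) (r : ℝ) :
    ∃ C : ℝ, ∀ Q : ℝ, 0 ≤ Q → ∀ (η : Γ) (S : Finset Γ),
      (∀ γ ∈ S, (g1' e (q (γ * η)) ≤ r ∧ g1' e (q (γ * η)) ≤ g1 e (q (γ * η))) ∧
        Real.log (nmM (ta (q (γ * η)).1)) ≤ Q ∧ (g1' e (q γ) ≤ r ∧ g1' e (q γ) ≤ g1 e (q γ))) →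
      ∑ γ ∈ S, ‖∑ i, u i (bp (q (γ * η))) * v i (bp (q γ))‖ ^ 2 ≤ C * (1 + Q) ^ 3 := by
  obtain ⟨R, hR⟩ := nw1_gau (σ := σ) (J := J) hN e r
  obtain ⟨a, B, B', D, R₁, c₀, ha, hd⟩ := exists_dat hσ hF hc hbp R
  obtain ⟨c₁, hc₁, hP₁⟩ := hP δ hδ
  have hCC : 1 ≤ CC (Fintype.card n) B B' D R₁ R := by
    have h1 := hd.B0
    have h2 := hd.B0'
    have h3 := hd.D0
    have h4 := hd.R0
    have e0 : 0 ≤ 2 * (Fintype.card n : ℝ) * (D + B' * (B * (R₁ * 2))) := by positivity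
    have e0' : 0 ≤ 2 * (Fintype.card n : ℝ) ^ 2 * |R| * (D + B' * (B * (R₁ * 2))) *
        (B' * (B * (R₁ + 2))) := by positivity
    unfold CC
    linarith
  obtain ⟨C', hPar'⟩ := hPar _ (δ / 2) hCC (by linarith) (by linarith)
  obtain ⟨C, hC, HC⟩ := count hd hq hud hC₀ hδ hδ1 hc₁ hP₁ hPar'
    (F := fun g h => ‖∑ i, u i (bp g) * v i (bp h)‖) (fun _ _ => norm_nonneg _)
    (fun g h => (H _ _ _ _ (ha g) (ha h) (hd.a1 g) (hd.a1 h)).1)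
    (fun g h hne => (H _ _ _ _ (ha g) (ha h) (hd.a1 g) (hd.a1 h)).2 (norm_ne_zero_iff.1 hne))
  refine ⟨C, fun Q hQ η S hS => HC Q hQ η S fun γ hγ => ?_⟩
  obtain ⟨⟨b1, -⟩, b2, b3, -⟩ := hS γ hγ
  exact ⟨hR _ b1, hR _ b3, b2⟩

end fin

section letters

open MeasureTheory

variable {ι : Type} [Fintype ι] [DecidableEq ι] {s N : ℕ} {σ : ℂ →+* ℂ} {ε : ℂ} {J₀ : Matrix ι ι ℂ}

/-- **[H-CNT]**: `WC` for the letters `CL.lt`. -/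
theorem wcH' (hσ : ∀ x, ‖σ x‖ = ‖x‖) (hF : Frm σ ε (hyp (s + 2) ε J₀)) {w : ℂ} (hw : w ≠ 0)
    (hσw : σ w = w) (μ₁ : Measure ℂ) (μ₂ : Measure (CL.V2 σ ε))
    (hP : ∀ δ : ℝ, 0 < δ → ∃ c, 0 < c ∧ PertAt σ (hyp (s + 2) ε J₀) δ c)
    (hPar : ∀ C δ : ℝ, 1 ≤ C → 0 < δ → δ ≤ 1 → ∃ C', ParAt σ (hyp (s + 2) ε J₀) C δ C')
    (e : Idx (s + 2) ι ≃ Fin (N + 1)) {c : ℝ} {F : Finset (SGr σ (hyp (s + 2) ε J₀) 1)}
    {bp : FormGroup σ (hyp (s + 2) ε J₀) → SGr σ (hyp (s + 2) ε J₀) 1}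
    {bm : FormGroup σ (hyp (s + 2) ε J₀) → SGr σ (hyp (s + 2) ε J₀) (s + 2)}
    (hc : 0 < c) (hbp : BpX c F bp) {Γ : Type} [Group Γ]
    {q : Γ → FormGroup σ (hyp (s + 2) ε J₀)}
    (hq : (lt hF hw hσw μ₁ μ₂).PH q) (hud : (lt hF hw hσw μ₁ μ₂).UD q)
    {I : Type} [Fintype I] {u v : I → C(SGr σ (hyp (s + 2) ε J₀) 1, ℂ)} {C₀ δ : ℝ}
    (hC₀ : 0 ≤ C₀) (hδ : 0 < δ) (hδ1 : δ ≤ 1)
    (H : ∀ (X Y : SGr σ (hyp (s + 2) ε J₀) 1) (a b : Idx (s + 2) ι → ℂ), a ∈ X.S → b ∈ Y.S →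
      ‖a‖ = 1 → ‖b‖ = 1 → ‖∑ i, u i X * v i Y‖ ≤ C₀ * ‖hf σ (hyp (s + 2) ε J₀) a b‖ ∧
        (∑ i, u i X * v i Y ≠ 0 → ∃ i j, δ ≤ ‖a i * b j - a j * b i‖)) :
    WC (lt hF hw hσw μ₁ μ₂) (gau e (s + 2) (MonoidHom.id _) bp bm) q u v := by
  haveI : Nonempty (Idx (s + 2) ι) := ⟨e.symm 0⟩
  have hN : 1 ≤ N := by
    have h1 : Fintype.card (Idx (s + 2) ι) = N + 1 := by
      rw [Fintype.card_congr e, Fintype.card_fin]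
    have h2 : Fintype.card (Idx (s + 2) ι) = (s + 2) + ((s + 2) + Fintype.card ι) := by
      simp [Idx]
      ring
    omega
  intro r
  obtain ⟨C, HC⟩ := wcnt hσ hF hP hPar hN e hc hbp (q := q)
    (fun γ γ' => by
      obtain ⟨z, hz, h⟩ := hq γ γ'
      exact ⟨z, hz, h⟩)
    hud hC₀ hδ hδ1 H r
  exact ⟨C, 3, HC⟩

end letters

end Vale.Agent.P092.H574.H
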