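import Vale.Agent.P092.H574.H5
import Vale.Agent.P092.H188.HC

/-!
P092, Track H (`SU(2, n)`, complex), count row (helper574), part 5: the direction of the
perturbation is helper188's `pertH`.
-/

set_option linter.all false

namespace Vale.Agent.P092.H574.H

open Matrix MeasureTheory
open Vale.Agent.P092.H303 (FormGroup Idx hyp)
open Vale.Agent.P092.H714.Cl
open Vale.Agent.P092.H370.Po
open Vale.Agent.P092.CL (ta nmM NW1 NWr scal Lt Gau lt WC)
open Vale.Agent.P092.H632.T2 (BpX gau)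

theorem pertAt {n : Type} [Fintype n] [DecidableEq n] {σ : ℂ →+* ℂ} {ε : ℂ} {J : Matrix n n ℂ}
    (hσ : ∀ x, ‖σ x‖ = ‖x‖) (hF : Frm σ ε J) (δ : ℝ) (hδ : 0 < δ) :
    ∃ c, 0 < c ∧ PertAt σ J δ c :=
  H188.HC.pertH hF (H899.G.cont_of_isom hσ) hδ

end Vale.Agent.P092.H574.H
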