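import Vale.Agent.P092.H574.Phi
import Vale.Agent.P092.H684.Rec2

/-!
P092, TEAM C, [C-LINE] step (2d) (helper574): the elements of `P ∩ g P g⁻¹` which act
hyperbolically at one point and trivially at the other, and the recurrence data `MovL`, `MovR` of
helper684.
-/

set_option linter.all false

namespace Vale.Agent.P092.H574

open Matrix Filter Topology Projectivization
open Vale.Agent.P092.RC
open Vale.Agent.P092.H820
open Vale.Agent.P092.H684 (aff exists_disj MovL MovR)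
open scoped LinearAlgebra.Projectivization MatrixGroups

section Em

variable {k : Type} [NontriviallyNormedField k]

lemma em_ne (x : k) : (![x, 1] : Fin 2 → k) ≠ 0 := by
  intro h
  have := congrFun h 1
  simp at this

/-- the affine chart -/
def em (x : k) : P1 k := mk k ![x, 1] (em_ne x)

lemma em_inj : Function.Injective (em (k := k)) := by
  intro x x' h
  unfold em at h
  rw [mk_eq_mk_iff'] at h
  obtain ⟨c, hc⟩ := h
  have h1 := congrFun hc 1
  have h0 := congrFun hc 0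
  simp at h1 h0
  rw [h1, one_mul] at h0
  exact h0.symm

lemma em_cont : Continuous (em (k := k)) := by
  have : (em (k := k)) = fun x => pj k (Fin 2) ⟨![x, 1], em_ne x⟩ := rfl
  rw [this]
  refine pj_continuous.comp (Continuous.subtype_mk ?_ _)
  refine continuous_pi fun i => ?_
  fin_cases i
  · show Continuous fun x : k => x
    exact continuous_id
  · show Continuous fun _ : k => (1 : k)
    exact continuous_const

lemma em_open : IsOpenMap (em (k := k)) := by
  intro U hU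
  have hq : IsQuotientMap (pj k (Fin 2)) := pj_oq.isQuotientMap
  rw [← hq.isOpen_preimage]
  have h : ∀ i : Fin 2, Continuous fun v : {v : Fin 2 → k // v ≠ 0} => v.1 i := fun i =>
    (continuous_apply i).comp continuous_subtype_val
  have hV : IsOpen {v : {v : Fin 2 → k // v ≠ 0} | v.1 1 ≠ 0} := isOpen_ne.preimage (h 1)
  have hc : ContinuousOn (fun v : {v : Fin 2 → k // v ≠ 0} => v.1 0 / v.1 1)
      {v | v.1 1 ≠ 0} := (h 0).continuousOn.div (h 1).continuousOn fun v hv => hv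
  have e : pj k (Fin 2) ⁻¹' (em '' U) =
      {v : {v : Fin 2 → k // v ≠ 0} | v.1 1 ≠ 0} ∩
        (fun v : {v : Fin 2 → k // v ≠ 0} => v.1 0 / v.1 1) ⁻¹' U := by
    ext v
    simp only [Set.mem_preimage, Set.mem_image, Set.mem_inter_iff, Set.mem_ofPred_eq]
    constructor
    · rintro ⟨x, hx, hxv⟩
      have hxv' : (mk k ![x, 1] (em_ne x) : P1 k) = mk k v.1 v.2 := hxv
      rw [mk_eq_mk_iff'] at hxv'
      obtain ⟨c, hc⟩ := hxv'
      have h1 := congrFun hc 1
      have h0 := congrFun hc 0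
      simp at h1 h0
      have hv1 : v.1 1 ≠ 0 := by
        intro h2
        rw [h2, mul_zero] at h1
        exact zero_ne_one h1
      refine ⟨hv1, ?_⟩
      have : v.1 0 / v.1 1 = x := by
        rw [div_eq_iff hv1, ← h0]
        linear_combination (-(v.1 0)) * h1
      rw [this]
      exact hx
    · rintro ⟨h1, h2⟩
      refine ⟨_, h2, ?_⟩
      show (mk k ![v.1 0 / v.1 1, 1] (em_ne _) : P1 k) = mk k v.1 v.2
      rw [mk_eq_mk_iff']
      refine ⟨(v.1 1)⁻¹, ?_⟩
      ext i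
      fin_cases i
      · simp [div_eq_inv_mul]
      · simp [h1]
  rw [e]
  exact hc.isOpen_inter_preimage hV hU

lemma em_oe : IsOpenEmbedding (em (k := k)) :=
  IsOpenEmbedding.of_continuous_injective_isOpenMap em_cont em_inj em_open

lemma em_af (α β : k) (hα : α ≠ 0) (x : k) : af α β hα • em x = em (α * x + β) := by
  unfold em
  rw [smul_mk, mk_eq_mk_iff']
  refine ⟨1, ?_⟩
  rw [smul_vec]
  ext i
  fin_cases i <;> simp [Matrix.mulVec, dotProduct, Fin.sum_univ_two]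

lemma em_surj {p : P1 k} (hp : p ≠ e0) : ∃ x, em x = p := by
  induction p using Projectivization.ind with
  | h v hv =>
    have hy : v 1 ≠ 0 := by
      intro hy
      apply hp
      unfold e0
      rw [mk_eq_mk_iff']
      refine ⟨v 0, ?_⟩
      ext i
      fin_cases i <;> simp [hy]
    refine ⟨v 0 / v 1, ?_⟩
    unfold em
    rw [mk_eq_mk_iff']
    refine ⟨(v 1)⁻¹, ?_⟩
    ext i
    fin_cases i
    · simp [div_eq_inv_mul]
    · simp [hy]

/-- the chart centred at `g • e0` -/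
lemma emg_oe (g : GL (Fin 2) k) : IsOpenEmbedding fun x : k => g • (em x : P1 k) :=
  (hP g : P1 k ≃ₜ P1 k).isOpenEmbedding.comp em_oe

lemma emg_surj (g : GL (Fin 2) k) {p : P1 k} (hp : p ≠ g • e0) : ∃ x, g • (em x : P1 k) = p := by
  have : g⁻¹ • p ≠ e0 := by
    intro h
    apply hp
    rw [← h, smul_inv_smul]
  obtain ⟨x, hx⟩ := em_surj this
  exact ⟨x, by rw [hx, smul_inv_smul]⟩

end Em

section Spec

variable {k : Type} [NontriviallyNormedField k]

/-- the hyperbolic element -/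
noncomputable def tD (α : k) (hα : α ≠ 0) : GG k 2 :=
  slm !![α, 0, 0; 0, (α ^ 2)⁻¹, 0; 0, 0, α] (by
    rw [Matrix.det_fin_three]
    simp
    field_simp)

/-- its conjugate -/
noncomputable def tD' (α : k) (hα : α ≠ 0) : GG k 2 :=
  slm !![(α ^ 2)⁻¹, 0, 0; 0, α, 0; 0, 0, α] (by
    rw [Matrix.det_fin_three]
    simp
    field_simp)

/-- the unipotent element -/
def uD : GG k 2 := slm !![1, 0, 0; 0, 1, 1; 0, 0, 1] (by
    rw [Matrix.det_fin_three]
    simp)

/-- its conjugate -/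
def uD' : GG k 2 := slm !![1, 0, 1; 0, 1, 0; 0, 0, 1] (by
    rw [Matrix.det_fin_three]
    simp)

/-- the Weyl element -/
def wD : GG k 2 := slm !![0, -1, 0; 1, 0, 0; 0, 0, 1] (by
    rw [Matrix.det_fin_three]
    simp)

lemma wD_y0 : (wD : GG k 2) • (y0 : YY k 2) = y1 := by
  rw [y0_eq, smul_single]
  unfold y1
  rw [mk_eq_mk_iff']
  refine ⟨1, ?_⟩
  ext a
  fin_cases a <;> simp [wD, slm_val]

lemma tw (α : k) (hα : α ≠ 0) : tD α hα * wD = wD * tD' α hα := by
  apply Subtype.ext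
  show !![α, 0, 0; 0, (α ^ 2)⁻¹, 0; 0, 0, α] * !![0, -1, 0; 1, 0, 0; 0, 0, 1] =
    !![0, -1, 0; 1, 0, 0; 0, 0, 1] * !![(α ^ 2)⁻¹, 0, 0; 0, α, 0; 0, 0, α]
  ext i j
  fin_cases i <;> fin_cases j <;> simp [Matrix.mul_apply, Fin.sum_univ_three]

lemma uw : (uD : GG k 2) * wD = wD * uD' := by
  apply Subtype.ext
  show !![1, 0, 0; 0, 1, 1; 0, 0, 1] * !![0, -1, 0; 1, 0, 0; 0, 0, 1] =
    !![0, -1, 0; 1, 0, 0; 0, 0, 1] * !![1, 0, 1; 0, 1, 0; 0, 0, 1]
  ext i j
  fin_cases i <;> fin_cases j <;> simp [Matrix.mul_apply, Fin.sum_univ_three]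

lemma tD_y0 (α : k) (hα : α ≠ 0) : tD α hα • (y0 : YY k 2) = y0 := by
  rw [smul_y0]
  intro i hi
  fin_cases i <;> simp [tD, slm_val] at hi ⊢

lemma tD'_y0 (α : k) (hα : α ≠ 0) : tD' α hα • (y0 : YY k 2) = y0 := by
  rw [smul_y0]
  intro i hi
  fin_cases i <;> simp [tD', slm_val] at hi ⊢

lemma uD_y0 : (uD : GG k 2) • (y0 : YY k 2) = y0 := by
  rw [smul_y0]
  intro i hi
  fin_cases i <;> simp [uD, slm_val] at hi ⊢

lemma uD'_y0 : (uD' : GG k 2) • (y0 : YY k 2) = y0 := by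
  rw [smul_y0]
  intro i hi
  fin_cases i <;> simp [uD', slm_val] at hi ⊢

lemma tD_y1 (α : k) (hα : α ≠ 0) : tD α hα • (y1 : YY k 2) = y1 := by
  unfold y1
  rw [smul_single, mk_eq_mk_iff']
  refine ⟨(α ^ 2)⁻¹, ?_⟩
  ext a
  fin_cases a <;> simp [tD, slm_val]

lemma uD_y1 : (uD : GG k 2) • (y1 : YY k 2) = y1 := by
  unfold y1
  rw [smul_single, mk_eq_mk_iff']
  refine ⟨1, ?_⟩
  ext a
  fin_cases a <;> simp [uD, slm_val]

lemma tD_cc (α : k) (hα : α ≠ 0) : cc (tD α hα) (y0 : YY k 2) =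
    mkG (dg ((α ^ 3)⁻¹) (inv_ne_zero (pow_ne_zero 3 hα))) := by
  obtain ⟨h, hh, hc⟩ := cc_stab (tD_y0 α hα)
  rw [hc, mkG_eq]
  refine ⟨α⁻¹, inv_ne_zero hα, ?_⟩
  rw [hh]
  ext i j
  fin_cases i <;> fin_cases j <;> simp [tD, slm_val, hα]
  field_simp

lemma tD'_cc (α : k) (hα : α ≠ 0) : cc (tD' α hα) (y0 : YY k 2) = 1 := by
  obtain ⟨h, hh, hc⟩ := cc_stab (tD'_y0 α hα)
  rw [hc, mkG_eq_one, center_iff']
  rw [hh]
  simp [tD', slm_val]

lemma uD_cc : cc (uD : GG k 2) (y0 : YY k 2) = mkG (un 1) := by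
  obtain ⟨h, hh, hc⟩ := cc_stab (uD_y0 (k := k))
  rw [hc]
  congr 1
  apply Units.ext
  rw [hh]
  ext i j
  fin_cases i <;> fin_cases j <;> simp [uD, slm_val]

lemma uD'_cc : cc (uD' : GG k 2) (y0 : YY k 2) = 1 := by
  obtain ⟨h, hh, hc⟩ := cc_stab (uD'_y0 (k := k))
  rw [hc, mkG_eq_one, center_iff']
  rw [hh]
  simp [uD', slm_val]

end Spec

end Vale.Agent.P092.H574
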