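import Vale.Agent.P092.H574.Mov

/-!
P092, TEAM C, [C-LINE] step (2d) (helper574): `MovL` and `MovR` for the off diagonal pairs of
points of `Z = Y × PGL₂(k)`.
-/

set_option linter.all false

namespace Vale.Agent.P092.H574

open Matrix Filter Topology Projectivization
open Vale.Agent.P092.RC
open Vale.Agent.P092.H820
open Vale.Agent.P092.H684 (aff exists_disj MovL MovR)
open scoped LinearAlgebra.Projectivization MatrixGroups

section Key

variable {k : Type} [NontriviallyNormedField k]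
  (hcc : ∀ g h : GG k 2, ∀ y : YY k 2, cc (g * h) y = cc g (h • y) * cc h y)

include hcc in
lemma cc_one' (y : YY k 2) : cc (1 : GG k 2) y = 1 := by
  have := hcc 1 1 y
  rw [mul_one, one_smul] at this
  exact mul_eq_left.1 this.symm

include hcc in
lemma cc_inv' {g : GG k 2} (hg : g • (y0 : YY k 2) = y0) :
    cc g⁻¹ (y0 : YY k 2) = (cc g y0)⁻¹ := by
  have hg' : g⁻¹ • (y0 : YY k 2) = y0 := by rw [inv_smul_eq_iff, hg]
  have := hcc g g⁻¹ y0
  rw [mul_inv_cancel, cc_one' hcc, hg'] at this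
  exact (inv_eq_of_mul_eq_one_right this.symm).symm

include hcc in
lemma cc_conj {g t : GG k 2} (hg : g • (y0 : YY k 2) = y0) (ht : t • (y0 : YY k 2) = y0) :
    cc (g * t * g⁻¹) (y0 : YY k 2) = cc g y0 * cc t y0 * (cc g y0)⁻¹ := by
  have hg' : g⁻¹ • (y0 : YY k 2) = y0 := by rw [inv_smul_eq_iff, hg]
  rw [hcc, hcc, hg', ht, cc_inv' hcc hg]

/-- the special elements of `P ∩ g P g⁻¹` -/
structure KE (g t u : GG k 2) (hB : GL (Fin 2) k) (a : k) (ha : a ≠ 0) : Prop where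
  dirB : hB • e0 = dir (y0 : YY k 2) (g • y0)
  ty : t • (y0 : YY k 2) = y0
  ty' : t • g • (y0 : YY k 2) = g • y0
  uy : u • (y0 : YY k 2) = y0
  uy' : u • g • (y0 : YY k 2) = g • y0
  tc : mkG (hB * dg a ha * hB⁻¹) = cc t (y0 : YY k 2)
  uc : mkG (hB * un 1 * hB⁻¹) = cc u (y0 : YY k 2)
  tk : cc (g⁻¹ * t * g) (y0 : YY k 2) = 1
  uk : cc (g⁻¹ * u * g) (y0 : YY k 2) = 1

include hcc in
theorem exists_KE {g : GG k 2} (hg : g • (y0 : YY k 2) ≠ y0) :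
    ∃ (t u : GG k 2) (hB : GL (Fin 2) k) (a : k) (ha : a ≠ 0), ‖a‖ < 1 ∧ KE g t u hB a ha := by
  obtain ⟨α, hα⟩ := NormedField.exists_one_lt_norm k
  have hα0 : α ≠ 0 := by
    rintro rfl
    rw [norm_zero] at hα
    linarith
  obtain ⟨B, hB0, hB1⟩ := exists_y1 hg
  obtain ⟨hB, hhB⟩ := mkG_surj (cc B (y0 : YY k 2))
  have hB0' : B⁻¹ • (y0 : YY k 2) = y0 := by rw [inv_smul_eq_iff, hB0]
  have hB1' : B⁻¹ • g • (y0 : YY k 2) = y1 := by rw [inv_smul_eq_iff, hB1]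
  have hw' : (wD : GG k 2)⁻¹ • (y1 : YY k 2) = y0 := by rw [inv_smul_eq_iff, wD_y0]
  set q : GG k 2 := wD⁻¹ * B⁻¹ * g with hq
  have hq0 : q • (y0 : YY k 2) = y0 := by
    rw [hq, mul_smul, mul_smul, hB1', hw']
  have hgq : g = B * wD * q := by rw [hq]; group
  have hq0' : q⁻¹ • (y0 : YY k 2) = y0 := by rw [inv_smul_eq_iff, hq0]
  have hk : ∀ s s' : GG k 2, s * wD = wD * s' → s' • (y0 : YY k 2) = y0 →
      cc s' (y0 : YY k 2) = 1 → cc (g⁻¹ * (B * s * B⁻¹) * g) (y0 : YY k 2) = 1 := by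
    intro s s' h1 h2 h3
    have e : g⁻¹ * (B * s * B⁻¹) * g = q⁻¹ * s' * (q⁻¹)⁻¹ := by
      have e1 : s' = wD⁻¹ * (s * wD) := by rw [h1, inv_mul_cancel_left]
      rw [e1]
      conv_lhs => rw [hgq]
      group
    rw [e, cc_conj hcc hq0' h2, h3, mul_one, mul_inv_cancel]
  refine ⟨B * tD α hα0 * B⁻¹, B * uD * B⁻¹, hB, (α ^ 3)⁻¹, inv_ne_zero (pow_ne_zero 3 hα0),
    ?_, ?_, ?_, ?_, ?_, ?_, ?_, ?_, ?_, ?_⟩
  · rw [norm_inv, norm_pow]
    exact inv_lt_one_of_one_lt₀ (one_lt_pow₀ hα (by norm_num))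
  · rw [dir_eq hcc (Ne.symm hg) hB0 hB1, ← hhB, pm_mk]
  · rw [mul_smul, mul_smul, hB0', tD_y0, hB0]
  · rw [mul_smul, mul_smul, hB1', tD_y1, hB1]
  · rw [mul_smul, mul_smul, hB0', uD_y0, hB0]
  · rw [mul_smul, mul_smul, hB1', uD_y1, hB1]
  · rw [cc_conj hcc hB0 (tD_y0 α hα0), tD_cc, ← hhB]
    simp only [map_mul, map_inv]
  · rw [cc_conj hcc hB0 uD_y0, uD_cc, ← hhB]
    simp only [map_mul, map_inv]
  · exact hk _ _ (tw α hα0) (tD'_y0 α hα0) (tD'_cc α hα0)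
  · exact hk _ _ uw uD'_y0 uD'_cc

variable {δ : GG k 2 → PG k 2}
  (hmul : ∀ p p' : GG k 2, p • (y0 : YY k 2) = y0 → p' • (y0 : YY k 2) = y0 →
    δ (p * p') = δ p * δ p')
  (hker : ∀ p : GG k 2, p • (y0 : YY k 2) = y0 → (δ p = 1 ↔ cc p (y0 : YY k 2) = 1))
  (hcont : Continuous fun p : {p : GG k 2 // p • (y0 : YY k 2) = y0} => δ p)

include hmul in
lemma dlt_inv {p : GG k 2} (hp : p • (y0 : YY k 2) = y0) : δ p⁻¹ = (δ p)⁻¹ := by
  have hp' : p⁻¹ • (y0 : YY k 2) = y0 := by rw [inv_smul_eq_iff, hp]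
  have := hmul p p⁻¹ hp hp'
  rw [mul_inv_cancel, dlt_one hmul] at this
  exact (inv_eq_of_mul_eq_one_right this.symm).symm

lemma un_af (α β b : k) (hα : α ≠ 0) : un b * af α β hα * (un b)⁻¹ =
    af α (β + b * (1 - α)) hα := by
  rw [mul_inv_eq_iff_eq_mul]
  apply Units.ext
  show (un b).1 * (af α β hα).1 = (af α (β + b * (1 - α)) hα).1 * (un b).1
  ext i j
  fin_cases i <;> fin_cases j <;> simp [Matrix.mul_apply, Fin.sum_univ_two]
  ring

include hcc hmul hker in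
/-- every point different from `d (dir y₀ (g y₀))` is moved by an element of `P ∩ g P g⁻¹` acting
trivially at `g y₀`. -/
theorem mov_core {d : P1 k → P1 k}
    (hd : ∀ (a : k) (ha : a ≠ 0), ‖a‖ < 1 → ∀ h : GL (Fin 2) k, Two δ d (h • e0)
      (jj (h * dg a ha * h⁻¹)) (jj (h * un 1 * h⁻¹)))
    {g : GG k 2} (hg : g • (y0 : YY k 2) ≠ y0) {p : P1 k} (hp : p ≠ d (dir y0 (g • y0))) :
    ∃ V ∈ 𝓝 p, ∃ s : GG k 2, s • (y0 : YY k 2) = y0 ∧ s • g • (y0 : YY k 2) = g • y0 ∧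
      cc (g⁻¹ * s * g) (y0 : YY k 2) = 1 ∧
      ∀ n m, n ≠ m → Disjoint ((fun x => pm (δ s) x)^[n] '' V) ((fun x => pm (δ s) x)^[m] '' V) := by
  obtain ⟨t, u, hB, a, ha, ha1, K⟩ := exists_KE hcc hg
  have hut : (u * t * u⁻¹) • (y0 : YY k 2) = y0 := by
    have : u⁻¹ • (y0 : YY k 2) = y0 := by rw [inv_smul_eq_iff, K.uy]
    rw [mul_smul, mul_smul, this, K.ty, K.uy]
  obtain ⟨g', α, β, b, hα, hα1, hb, hg', ht, hu⟩ := (hd a ha ha1 hB).nf
  have et : δ t = mkG (g' * af α β hα * g'⁻¹) := by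
    rw [dl_eq hmul hker hcc K.ty K.tc, dl_apply, ht]
  have eu : δ u = mkG (g' * un b * g'⁻¹) := by
    rw [dl_eq hmul hker hcc K.uy K.uc, dl_apply, hu]
  have ev : δ (u * t * u⁻¹) = mkG (g' * af α (β + b * (1 - α)) hα * g'⁻¹) := by
    have huy' : u⁻¹ • (y0 : YY k 2) = y0 := by rw [inv_smul_eq_iff, K.uy]
    have huty : (u * t) • (y0 : YY k 2) = y0 := by rw [mul_smul, K.ty, K.uy]
    rw [hmul _ _ huty huy', hmul _ _ K.uy K.ty, dlt_inv hmul K.uy, et, eu, ← un_af]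
    simp only [← map_mul, ← map_inv]
    congr 1
    group
  rw [← K.dirB, ← hg'] at hp
  obtain ⟨x, hx⟩ := emg_surj g' hp
  have hs : ∀ (γ : k) (r : PG k 2), r = mkG (g' * af α γ hα * g'⁻¹) → ∀ x : k,
      pm r (g' • (em x : P1 k)) = g' • (em (aff α γ x) : P1 k) := by
    rintro γ r rfl x
    rw [pm_mk, mul_smul, mul_smul, inv_smul_smul, em_af]
    rfl
  obtain ⟨V, hV, h⟩ := exists_disj (emg_oe g') (s := fun x => pm (δ t) x)
    (v := fun x => pm (δ (u * t * u⁻¹)) x) hα hα1 hb (hs β _ et) (hs _ _ ev) x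
  rw [hx] at hV
  rcases h with h | h
  · exact ⟨V, hV, t, K.ty, K.ty', K.tk, h⟩
  · refine ⟨V, hV, u * t * u⁻¹, hut, ?_, ?_, h⟩
    · have : u⁻¹ • g • (y0 : YY k 2) = g • y0 := by rw [inv_smul_eq_iff, K.uy']
      rw [mul_smul, mul_smul, this, K.ty', K.uy']
    · have h1 : (g⁻¹ * u * g) • (y0 : YY k 2) = y0 := by
        rw [mul_smul, mul_smul, K.uy', inv_smul_smul]
      have h2 : (g⁻¹ * t * g) • (y0 : YY k 2) = y0 := by
        rw [mul_smul, mul_smul, K.ty', inv_smul_smul]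
      have e : g⁻¹ * (u * t * u⁻¹) * g = (g⁻¹ * u * g) * (g⁻¹ * t * g) * (g⁻¹ * u * g)⁻¹ := by
        group
      rw [e, cc_conj hcc h1 h2, K.tk, K.uk]
      simp

end Key

section Zh

variable {k : Type} [NontriviallyNormedField k]

/-- right multiplication as a homeomorphism of `Z` -/
noncomputable def zrH (h : PG k 2) : (YY k 2 × PG k 2) ≃ₜ (YY k 2 × PG k 2) :=
  (Homeomorph.refl (YY k 2)).prodCongr (Homeomorph.mulRight h⁻¹)

lemma zrH_apply (h : PG k 2) (z : YY k 2 × PG k 2) : zrH h z = zr z h⁻¹ := rfl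

lemma pm_one' (x : P1 k) : pm (1 : G0 k) x = x := by
  rw [← map_one (mkG (k := k)), pm_mk, one_smul]

lemma zr_one (z : YY k 2 × PG k 2) : zr z (1 : PG k 2) = z := by
  unfold zr
  rw [mul_one]

end Zh

section Fin

variable {k : Type} [NontriviallyNormedField k]
  (hcc : ∀ g h : GG k 2, ∀ y : YY k 2, cc (g * h) y = cc g (h • y) * cc h y)
  {δ : GG k 2 → PG k 2}
  (hmul : ∀ p p' : GG k 2, p • (y0 : YY k 2) = y0 → p' • (y0 : YY k 2) = y0 →
    δ (p * p') = δ p * δ p')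
  (hker : ∀ p : GG k 2, p • (y0 : YY k 2) = y0 → (δ p = 1 ↔ cc p (y0 : YY k 2) = 1))
  {d : P1 k → P1 k}
  (hd : ∀ (a : k) (ha : a ≠ 0), ‖a‖ < 1 → ∀ h : GL (Fin 2) k, Two δ d (h • e0)
      (jj (h * dg a ha * h⁻¹)) (jj (h * un 1 * h⁻¹)))
  {Γ : Type*} [Group Γ] [MulAction Γ (YY k 2 × PG k 2)] {q : Γ → GG k 2}
  (hact : ∀ (γ : Γ) (z : YY k 2 × PG k 2), γ • z = zact cc (q γ) z)
  {M : Set (YY k 2 × PG k 2) → Set (YY k 2 × PG k 2) → ℝ}
  {g : GG k 2} (hg : g • (y0 : YY k 2) ≠ y0)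
  (hM : ∀ p : GG k 2, p • (y0 : YY k 2) = y0 → p • g • (y0 : YY k 2) = g • y0 →
    ∀ C C' : Set (YY k 2 × PG k 2), H684.CO C → H684.CO C' → C ×ˢ C' ⊆ DD k →
      M ((fun z => zr z (δ p)⁻¹) '' C) ((fun z => zr z (δ (g⁻¹ * p * g))⁻¹) '' C') = M C C')

include hcc hmul hker hd hact hg hM in
/-- `MovL` of helper684 at `q = d (dir y₀ (g y₀))`. -/
theorem movL : MovL Γ (DD k) M Phi (d (dir (y0 : YY k 2) (g • y0))) := by
  intro p hp
  obtain ⟨V, hV, s, hs0, hs1, hs2, hdis⟩ := mov_core hcc hmul hker hd hg hp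
  have h1 : (g⁻¹ * s * g) • (y0 : YY k 2) = y0 := by
    rw [mul_smul, mul_smul, hs1, inv_smul_smul]
  have h2 : δ (g⁻¹ * s * g) = 1 := (hker _ h1).2 hs2
  refine ⟨V, hV, zrH (δ s), fun x => pm (δ s) x, ?_, ?_, ?_, ?_, hdis⟩
  · intro γ z
    rw [hact, hact, zrH_apply, zrH_apply]
    unfold zact zr
    simp only [mul_assoc]
  · intro x hx
    exact hx
  · intro C C' hC hC' hCD
    have := hM s hs0 hs1 C C' hC hC' hCD
    rw [h2] at this
    have e : (fun z : YY k 2 × PG k 2 => zr z (1 : PG k 2)⁻¹) '' C' = C' := by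
      have : (fun z : YY k 2 × PG k 2 => zr z (1 : PG k 2)⁻¹) = id := by
        funext z
        rw [inv_one, zr_one]
        rfl
      rw [this, Set.image_id]
    rw [e] at this
    exact this
  · intro x hx
    have := Phi_zr (δ s) 1 x
    rw [inv_one, zr_one, pm_one'] at this
    exact this

include hcc hmul hker hd hact hg hM in
/-- `MovR` of helper684 at `q' = d (dir y₀ (g⁻¹ y₀))`. -/
theorem movR : MovR Γ (DD k) M Phi (d (dir (y0 : YY k 2) (g⁻¹ • y0))) := by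
  intro p hp
  have hg' : g⁻¹ • (y0 : YY k 2) ≠ y0 := by
    intro h
    apply hg
    rw [inv_smul_eq_iff] at h
    exact h.symm
  obtain ⟨V, hV, s, hs0, hs1, hs2, hdis⟩ := mov_core hcc hmul hker hd hg' hp
  rw [inv_inv] at hs2
  have h1 : (g * s * g⁻¹) • (y0 : YY k 2) = y0 := by
    rw [mul_smul, mul_smul, hs1, smul_inv_smul]
  have h2 : δ (g * s * g⁻¹) = 1 := (hker _ h1).2 hs2
  have h3 : (g * s * g⁻¹) • g • (y0 : YY k 2) = g • y0 := by
    rw [mul_smul, mul_smul, inv_smul_smul, hs0]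
  have h4 : g⁻¹ * (g * s * g⁻¹) * g = s := by group
  refine ⟨V, hV, zrH (δ s), fun x => pm (δ s) x, ?_, ?_, ?_, ?_, hdis⟩
  · intro γ z
    rw [hact, hact, zrH_apply, zrH_apply]
    unfold zact zr
    simp only [mul_assoc]
  · intro x hx
    exact hx
  · intro C C' hC hC' hCD
    have := hM (g * s * g⁻¹) h1 h3 C C' hC hC' hCD
    rw [h2, h4] at this
    have e : (fun z : YY k 2 × PG k 2 => zr z (1 : PG k 2)⁻¹) '' C = C := by
      have : (fun z : YY k 2 × PG k 2 => zr z (1 : PG k 2)⁻¹) = id := by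
        funext z
        rw [inv_one, zr_one]
        rfl
      rw [this, Set.image_id]
    rw [e] at this
    exact this
  · intro x hx
    have := Phi_zr 1 (δ s) x
    rw [inv_one, zr_one, pm_one'] at this
    exact this

end Fin

end Vale.Agent.P092.H574
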