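import Vale.Agent.P092.H574.Dir

/-!
P092, TEAM C, [C-LINE] step (2d) (helper574): continuity of the direction map and the invariant
`Φ` of a pair of points of `Z = Y × PGL₂(k)`.
-/

set_option linter.all false

namespace Vale.Agent.P092.H574

open Matrix Filter Topology Projectivization
open Vale.Agent.P092.RC
open Vale.Agent.P092.H820
open scoped LinearAlgebra.Projectivization MatrixGroups

section Cont

variable {k : Type} [NontriviallyNormedField k]

/-- nonzero vectors -/
abbrev V3 (k : Type) [NontriviallyNormedField k] := {v : Fin (2 + 1) → k // v ≠ 0}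

/-- the two by two minor -/
def mn (x : V3 k × V3 k) : k := x.1.1 0 * x.2.1 1 - x.1.1 1 * x.2.1 0

lemma mn_cont : Continuous (mn (k := k)) := by
  have h : ∀ i : Fin (2 + 1), Continuous fun v : V3 k => v.1 i := fun i =>
    (continuous_apply i).comp continuous_subtype_val
  exact (((h 0).comp continuous_fst).mul ((h 1).comp continuous_snd)).sub
    (((h 1).comp continuous_fst).mul ((h 0).comp continuous_snd))

/-- the local section as a map of subtypes -/
noncomputable def sgm (x : {x : V3 k × V3 k // mn x ≠ 0}) : GG k 2 :=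
  sg x.1.1.1 x.1.2.1 x.2

lemma sgm_cont : Continuous (sgm (k := k)) := by
  refine Continuous.subtype_mk (f := fun x : {x : V3 k × V3 k // mn x ≠ 0} => (sgm x).1) ?_
    fun x => (sgm x).2
  have h : ∀ i : Fin (2 + 1), Continuous fun v : V3 k => v.1 i := fun i =>
    (continuous_apply i).comp continuous_subtype_val
  have h1 : ∀ i : Fin (2 + 1), Continuous fun x : {x : V3 k × V3 k // mn x ≠ 0} => x.1.1.1 i :=
    fun i => (h i).comp (continuous_fst.comp continuous_subtype_val)
  have h2 : ∀ i : Fin (2 + 1), Continuous fun x : {x : V3 k × V3 k // mn x ≠ 0} => x.1.2.1 i :=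
    fun i => (h i).comp (continuous_snd.comp continuous_subtype_val)
  have h3 : Continuous fun x : {x : V3 k × V3 k // mn x ≠ 0} => (mn x.1)⁻¹ :=
    (mn_cont.comp continuous_subtype_val).inv₀ fun x => x.2
  refine continuous_matrix fun i j => ?_
  fin_cases i <;> fin_cases j <;>
    first
    | exact h1 _
    | exact h2 _
    | exact continuous_const
    | exact h3

variable (hG : Geo (cc : GG k 2 → YY k 2 → PG k 2) y0)

lemma mk_ne {x : V3 k × V3 k} (h : mn x ≠ 0) : pj k (Fin (2 + 1)) x.1 ≠ pj k (Fin (2 + 1)) x.2 := by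
  intro e
  have h0 := sg_y0 x.1.1 x.2.1 h x.1.2
  have h1 := sg_y1 x.1.1 x.2.1 h x.2.2
  have e' : (mk k x.1.1 x.1.2 : YY k 2) = mk k x.2.1 x.2.2 := e
  rw [← h0, ← h1] at e'
  exact y1_ne (smul_left_cancel _ e').symm

include hG in
lemma dir_pj (x : {x : V3 k × V3 k // mn x ≠ 0}) :
    dir (pj k (Fin (2 + 1)) x.1.1) (pj k (Fin (2 + 1)) x.1.2) =
      pm (cc (sgm x) (y0 : YY k 2)) e0 :=
  dir_eq hG.mul (mk_ne x.2) (sg_y0 x.1.1.1 x.1.2.1 x.2 x.1.1.2) (sg_y1 x.1.1.1 x.1.2.1 x.2 x.1.2.2)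

include hG in
lemma cc_cont_y0 : Continuous fun g : GG k 2 => cc g (y0 : YY k 2) := by
  have h1 : Continuous fun p : GG k 2 × YY k 2 => cc p.1 p.2 := hG.cont
  have h2 : Continuous fun g : GG k 2 => (g, (y0 : YY k 2)) :=
    continuous_id.prodMk continuous_const
  exact Continuous.comp (g := fun p : GG k 2 × YY k 2 => cc p.1 p.2)
    (f := fun g : GG k 2 => (g, (y0 : YY k 2))) h1 h2

include hG in
lemma dir_contAt0 : ContinuousAt (fun p : YY k 2 × YY k 2 => dir p.1 p.2) (y0, y1) := by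
  have hq : IsOpenQuotientMap (Prod.map (pj k (Fin (2 + 1))) (pj k (Fin (2 + 1)))) :=
    pj_oq.prodMap pj_oq
  let v0 : V3 k := ⟨Pi.single 0 1, single_ne 0⟩
  let v1 : V3 k := ⟨Pi.single 1 1, single_ne 1⟩
  have e : ((y0, y1) : YY k 2 × YY k 2) = Prod.map (pj k (Fin (2 + 1))) (pj k (Fin (2 + 1)))
      (v0, v1) := rfl
  rw [e, ← hq.continuousAt_comp_iff]
  have hU : IsOpen {x : V3 k × V3 k | mn x ≠ 0} :=
    isOpen_ne.preimage mn_cont
  have hmem : (v0, v1) ∈ {x : V3 k × V3 k | mn x ≠ 0} := by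
    show mn (v0, v1) ≠ 0
    unfold mn
    simp [v0, v1]
  have hcon : ContinuousOn ((fun p : YY k 2 × YY k 2 => dir p.1 p.2) ∘
      Prod.map (pj k (Fin (2 + 1))) (pj k (Fin (2 + 1)))) {x : V3 k × V3 k | mn x ≠ 0} := by
    rw [continuousOn_iff_continuous_restrict]
    have : Set.domRestrict {x : V3 k × V3 k | mn x ≠ 0} ((fun p : YY k 2 × YY k 2 => dir p.1 p.2) ∘
      Prod.map (pj k (Fin (2 + 1))) (pj k (Fin (2 + 1)))) =
        fun x : {x : V3 k × V3 k // mn x ≠ 0} => pm (cc (sgm x) (y0 : YY k 2)) e0 := by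
      funext x
      exact dir_pj hG x
    rw [this]
    exact pm_cont.comp (((cc_cont_y0 hG).comp sgm_cont).prodMk continuous_const)
  exact hcon.continuousAt (hU.mem_nhds hmem)

include hG in
lemma dir_cont : ContinuousOn (fun p : YY k 2 × YY k 2 => dir p.1 p.2) {p | p.1 ≠ p.2} := by
  have hT2 : T2Space (YY k 2) := t2P
  have hopen : IsOpen {p : YY k 2 × YY k 2 | p.1 ≠ p.2} := isOpen_ne_fun continuous_fst
    continuous_snd
  rintro ⟨a, b⟩ hab
  refine ContinuousAt.continuousWithinAt ?_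
  obtain ⟨g, hg, hg'⟩ := two_trans (show a ≠ b from hab)
  have hcs : ContinuousConstSMul (GG k 2) (YY k 2) := inferInstance
  have h1 : ContinuousAt (fun p : YY k 2 × YY k 2 => (g⁻¹ • p.1, g⁻¹ • p.2)) (a, b) :=
    ((continuous_const_smul g⁻¹).comp continuous_fst |>.prodMk
      ((continuous_const_smul g⁻¹).comp continuous_snd)).continuousAt
  have h2 : (fun p : YY k 2 × YY k 2 => (g⁻¹ • p.1, g⁻¹ • p.2)) (a, b) = (y0, y1) := by
    show (g⁻¹ • a, g⁻¹ • b) = _
    rw [← hg, ← hg', inv_smul_smul, inv_smul_smul]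
  have h3 : ContinuousAt (fun p : YY k 2 × YY k 2 => dir (g⁻¹ • p.1) (g⁻¹ • p.2)) (a, b) := by
    have h0 := dir_contAt0 hG
    rw [← h2] at h0
    exact ContinuousAt.comp (f := fun p : YY k 2 × YY k 2 => (g⁻¹ • p.1, g⁻¹ • p.2))
      (g := fun p : YY k 2 × YY k 2 => dir p.1 p.2) h0 h1
  have h4 : ContinuousAt (fun p : YY k 2 × YY k 2 => cc g (g⁻¹ • p.1)) (a, b) := by
    have h6 : Continuous fun p : GG k 2 × YY k 2 => cc p.1 p.2 := hG.cont
    have h7 : Continuous fun p : YY k 2 × YY k 2 => (g, g⁻¹ • p.1) :=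
      continuous_const.prodMk ((continuous_const_smul g⁻¹).comp continuous_fst)
    exact (Continuous.comp (g := fun p : GG k 2 × YY k 2 => cc p.1 p.2)
      (f := fun p : YY k 2 × YY k 2 => (g, g⁻¹ • p.1)) h6 h7).continuousAt
  have h5 : ContinuousAt (fun p : YY k 2 × YY k 2 =>
      pm (cc g (g⁻¹ • p.1)) (dir (g⁻¹ • p.1) (g⁻¹ • p.2))) (a, b) :=
    ContinuousAt.comp (g := fun q : G0 k × P1 k => pm q.1 q.2)
      (f := fun p : YY k 2 × YY k 2 => (cc g (g⁻¹ • p.1), dir (g⁻¹ • p.1) (g⁻¹ • p.2)))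
      pm_cont.continuousAt (h4.prodMk h3)
  refine h5.congr ?_
  filter_upwards [hopen.mem_nhds hab] with p hp
  have hp' : g⁻¹ • p.1 ≠ g⁻¹ • p.2 := fun e => hp (smul_left_cancel _ e)
  have := dir_smul hG.mul hp' g
  rw [smul_inv_smul, smul_inv_smul] at this
  exact this.symm

/-- the off diagonal part -/
def DD (k : Type) [NontriviallyNormedField k] :
    Set ((YY k 2 × PG k 2) × (YY k 2 × PG k 2)) := {x | x.1.1 ≠ x.2.1}

/-- the invariant of a pair of points of `Z` -/
noncomputable def Phi (x : (YY k 2 × PG k 2) × (YY k 2 × PG k 2)) : P1 k × P1 k :=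
  (pm (x.1.2)⁻¹ (dir x.1.1 x.2.1), pm (x.2.2)⁻¹ (dir x.2.1 x.1.1))

lemma DD_open : IsOpen (DD k) := by
  have hT2 : T2Space (YY k 2) := t2P
  exact isOpen_ne_fun (continuous_fst.comp continuous_fst) (continuous_fst.comp continuous_snd)

include hG in
lemma Phi_cont : ContinuousOn (Phi (k := k)) (DD k) := by
  have h1 : ContinuousOn (fun x : (YY k 2 × PG k 2) × (YY k 2 × PG k 2) => dir x.1.1 x.2.1)
      (DD k) :=
    (dir_cont hG).comp (f := fun x : (YY k 2 × PG k 2) × (YY k 2 × PG k 2) => (x.1.1, x.2.1))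
      ((continuous_fst.comp continuous_fst).prodMk (continuous_fst.comp continuous_snd)).continuousOn
      (fun x hx => hx)
  have h2 : ContinuousOn (fun x : (YY k 2 × PG k 2) × (YY k 2 × PG k 2) => dir x.2.1 x.1.1)
      (DD k) :=
    (dir_cont hG).comp (f := fun x : (YY k 2 × PG k 2) × (YY k 2 × PG k 2) => (x.2.1, x.1.1))
      ((continuous_fst.comp continuous_snd).prodMk (continuous_fst.comp continuous_fst)).continuousOn
      (fun x hx => Ne.symm hx)
  refine ContinuousOn.prodMk ?_ ?_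
  · exact pm_inv_cont.comp_continuousOn
      (((continuous_snd.comp continuous_fst).continuousOn).prodMk h1)
  · exact pm_inv_cont.comp_continuousOn
      (((continuous_snd.comp continuous_snd).continuousOn).prodMk h2)

include hG in
lemma Phi_inv (g : GG k 2) {x : (YY k 2 × PG k 2) × (YY k 2 × PG k 2)} (hx : x ∈ DD k) :
    Phi (zact cc g x.1, zact cc g x.2) = Phi x := by
  have hx' : x.1.1 ≠ x.2.1 := hx
  unfold Phi zact
  simp only
  rw [dir_smul hG.mul hx', dir_smul hG.mul hx'.symm, ← pm_mul, ← pm_mul]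
  congr 2
  · group
  · group

lemma Phi_zr (h h' : PG k 2) (x : (YY k 2 × PG k 2) × (YY k 2 × PG k 2)) :
    Phi (zr x.1 h⁻¹, zr x.2 h'⁻¹) = (pm h (Phi x).1, pm h' (Phi x).2) := by
  unfold Phi zr
  simp only
  rw [← pm_mul, ← pm_mul]
  congr 2
  · group
  · group

end Cont

end Vale.Agent.P092.H574
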