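import Mathlib

/-!
P092, Track C, count row (helper574), part 1: linear algebra of the overlap of two point walls.
Columns `u 0, .., u 3` of a symplectic matrix `N`; the elements `N` with
`|u₀| ≤ C`, `|u₀ ∧ u₂| ≤ C`, `|u₁ ∧ u₃| ≤ C`, `|u₁ + w u₃| ≤ C` are determined, up to bounded
elements on the left, by `|u₀|` and one parameter `q` with `|q| ≤ C' / (|w| |u₀|)`.
-/

set_option linter.all false

namespace Vale.Agent.P092.H574.W

variable {k : Type*} [NormedField k]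

/-- the symplectic form -/
def om (x y : Fin 4 → k) : k := x 0 * y 3 + x 1 * y 2 - x 2 * y 1 - x 3 * y 0

/-- the minors of a pair of vectors -/
def mn (x y : Fin 4 → k) (i j : Fin 4) : k := x i * y j - x j * y i

/-- symplectic frames -/
structure Fr (u : Fin 4 → Fin 4 → k) : Prop where
  h01 : om (u 0) (u 1) = 0
  h02 : om (u 0) (u 2) = 0
  h03 : om (u 0) (u 3) = 1
  h12 : om (u 1) (u 2) = 1
  h13 : om (u 1) (u 3) = 0
  h23 : om (u 2) (u 3) = 0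

theorem nrm_mul_le {a b : k} {A B : ℝ} (ha : ‖a‖ ≤ A) (hb : ‖b‖ ≤ B) : ‖a * b‖ ≤ A * B := by
  rw [norm_mul]
  exact mul_le_mul ha hb (norm_nonneg _) ((norm_nonneg _).trans ha)

theorem n4 {a b c d : k} {A : ℝ} (ha : ‖a‖ ≤ A) (hb : ‖b‖ ≤ A) (hc : ‖c‖ ≤ A) (hd : ‖d‖ ≤ A) :
    ‖a + b - c - d‖ ≤ 4 * A := by
  have h1 := norm_sub_le (a + b - c) d
  have h2 := norm_sub_le (a + b) c
  have h3 := norm_add_le a b
  linarith

theorem om_le {x y : Fin 4 → k} {A B : ℝ} (hx : ∀ i, ‖x i‖ ≤ A) (hy : ∀ i, ‖y i‖ ≤ B) :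
    ‖om x y‖ ≤ 4 * (A * B) :=
  n4 (nrm_mul_le (hx _) (hy _)) (nrm_mul_le (hx _) (hy _)) (nrm_mul_le (hx _) (hy _))
    (nrm_mul_le (hx _) (hy _))

/-- contraction of `y ∧ z` with the functional `om x` -/
theorem contract (x y z : Fin 4 → k) (l : Fin 4) :
    om x y * z l - om x z * y l =
      x 0 * mn y z 3 l + x 1 * mn y z 2 l - x 2 * mn y z 1 l - x 3 * mn y z 0 l := by
  unfold om mn
  ring

theorem contract_le {x y z : Fin 4 → k} {A B : ℝ} (hx : ∀ i, ‖x i‖ ≤ A)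
    (h : ∀ i j, ‖mn y z i j‖ ≤ B) (l : Fin 4) : ‖om x y * z l - om x z * y l‖ ≤ 4 * (A * B) := by
  rw [contract]
  exact n4 (nrm_mul_le (hx _) (h _ _)) (nrm_mul_le (hx _) (h _ _)) (nrm_mul_le (hx _) (h _ _))
    (nrm_mul_le (hx _) (h _ _))

/-- the pivot of a vector: subtracting a multiple -/
theorem pivot {x y : Fin 4 → k} {s B : ℝ} (hs : 0 < s) (hx : ∃ i, s = ‖x i‖)
    (h : ∀ i j, ‖mn x y i j‖ ≤ B) :
    ∃ p : k, (∃ i, s = ‖x i‖ ∧ p = y i / x i) ∧ ∀ l, ‖y l - p * x l‖ * s ≤ B := by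
  obtain ⟨i, hi⟩ := hx
  have hne : x i ≠ 0 := by rw [← norm_pos_iff, ← hi]; exact hs
  refine ⟨y i / x i, ⟨i, hi, rfl⟩, fun l => ?_⟩
  rw [hi, ← norm_mul]
  have e : (y l - y i / x i * x l) * x i = mn x y i l := by
    unfold mn
    field_simp
  rw [e]
  exact h i l

/-- **The normal form.** -/
theorem core {C : ℝ} (hC : 1 ≤ C) {u : Fin 4 → Fin 4 → k} (hu : Fr u) {w : k}
    {s : ℝ} (hs : ∀ i, ‖u 0 i‖ ≤ s) (hs' : ∃ i, s = ‖u 0 i‖)
    (c1 : s ≤ C) (c2 : ∀ i j, ‖mn (u 0) (u 2) i j‖ ≤ C) (c3 : ∀ i j, ‖mn (u 1) (u 3) i j‖ ≤ C)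
    (c4 : ∀ i, ‖u 1 i + w * u 3 i‖ ≤ C) :
    0 < s ∧ ‖w‖ ≤ 4 * (s * C) ∧ ∃ q : k, ‖q‖ * (‖w‖ * s) ≤ 32 * C ^ 3 ∧
      (∀ i, ‖u 1 i‖ ≤ 4 * C * s) ∧ (∀ i, ‖u 2 i - q * u 0 i‖ * s ≤ 32 * C ^ 3) ∧
      (∀ i, ‖u 3 i - q * u 1 i‖ * s ≤ 4 * C ^ 2) := by
  obtain ⟨i0, hi0⟩ := hs'
  have hC0 : 0 < C := by linarith
  have hs0 : 0 ≤ s := by rw [hi0]; exact norm_nonneg _
  have hspos : 0 < s := by
    rcases hs0.lt_or_eq with h | h
    · exact h
    · exfalso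
      have h0 : ∀ i, u 0 i = 0 := fun i => by
        rw [← norm_eq_zero]
        exact le_antisymm (by rw [h]; exact hs i) (norm_nonneg _)
      have := hu.h03
      unfold om at this
      rw [h0, h0, h0, h0] at this
      simp at this
  -- `|u 1| ≤ 4 C s`
  have b1 : ∀ l, ‖u 1 l‖ ≤ 4 * C * s := by
    intro l
    have h := contract_le (x := u 0) (y := u 3) (z := u 1) hs
      (fun i j => by
        have e : mn (u 3) (u 1) i j = -mn (u 1) (u 3) i j := by unfold mn; ring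
        rw [e, norm_neg]
        exact c3 i j) l
    rw [hu.h03, hu.h01, one_mul, zero_mul, sub_zero] at h
    linarith
  -- the norm of `u 1`
  obtain ⟨i1, hi1⟩ := Finite.exists_max fun i => ‖u 1 i‖
  set t : ℝ := ‖u 1 i1‖ with ht
  have b0 : s ≤ 4 * C * t := by
    have h := contract_le (x := u 1) (y := u 2) (z := u 0) hi1
      (fun i j => by
        have e : mn (u 2) (u 0) i j = -mn (u 0) (u 2) i j := by unfold mn; ring
        rw [e, norm_neg]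
        exact c2 i j) i0
    have h10 : om (u 1) (u 0) = 0 := by
      have : om (u 1) (u 0) = -om (u 0) (u 1) := by unfold om; ring
      rw [this, hu.h01, neg_zero]
    rw [hu.h12, h10, one_mul, zero_mul, sub_zero, ← hi0] at h
    linarith
  have htpos : 0 < t := by
    by_contra hc
    push Not at hc
    have : 4 * C * t ≤ 0 := mul_nonpos_of_nonneg_of_nonpos (by positivity) hc
    linarith
  have hw : ‖w‖ ≤ 4 * (s * C) := by
    have h := om_le (x := u 0) (y := fun i => u 1 i + w * u 3 i) hs c4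
    have e : om (u 0) (fun i => u 1 i + w * u 3 i) = om (u 0) (u 1) + w * om (u 0) (u 3) := by
      unfold om; ring
    rw [e, hu.h01, hu.h03, zero_add, mul_one] at h
    exact h
  obtain ⟨q, ⟨iq, hiq, hqe⟩, hq⟩ := pivot (x := u 1) (y := u 3) htpos ⟨i1, rfl⟩ c3
  obtain ⟨p, -, hp⟩ := pivot (x := u 0) (y := u 2) hspos ⟨i0, hi0⟩ c2
  have ht1 : t ≤ 4 * C * s := b1 i1
  -- `u 3 - q u 1`
  have b3 : ∀ i, ‖u 3 i - q * u 1 i‖ * s ≤ 4 * C ^ 2 := by
    intro i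
    calc ‖u 3 i - q * u 1 i‖ * s ≤ ‖u 3 i - q * u 1 i‖ * (4 * C * t) :=
          mul_le_mul_of_nonneg_left b0 (norm_nonneg _)
      _ = 4 * C * (‖u 3 i - q * u 1 i‖ * t) := by ring
      _ ≤ 4 * C * C := mul_le_mul_of_nonneg_left (hq i) (by positivity)
      _ = _ := by ring
  -- `q - p`
  have hpq : ‖q - p‖ * s ^ 2 ≤ 16 * C ^ 3 := by
    have h := om_le (x := fun i => (u 2 i - p * u 0 i)) (y := fun i => (u 3 i - q * u 1 i))
      (A := C / s) (B := 4 * C ^ 2 / s) (fun i => by rw [le_div_iff₀ hspos]; exact hp i)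
      (fun i => by rw [le_div_iff₀ hspos]; exact b3 i)
    have e : om (fun i => (u 2 i - p * u 0 i)) (fun i => (u 3 i - q * u 1 i)) =
        om (u 2) (u 3) + q * om (u 1) (u 2) - p * om (u 0) (u 3) + p * q * om (u 0) (u 1) := by
      unfold om; ring
    rw [e, hu.h23, hu.h12, hu.h03, hu.h01] at h
    have e2 : (0 : k) + q * 1 - p * 1 + p * q * 0 = q - p := by ring
    rw [e2] at h
    have e3 : 4 * (C / s * (4 * C ^ 2 / s)) = 16 * C ^ 3 / s ^ 2 := by field_simp; ring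
    rw [e3, le_div_iff₀ (by positivity)] at h
    exact h
  have b2 : ∀ i, ‖u 2 i - q * u 0 i‖ * s ≤ 32 * C ^ 3 := by
    intro i
    have e : u 2 i - q * u 0 i = (u 2 i - p * u 0 i) - (q - p) * u 0 i := by ring
    have h1 : ‖u 2 i - q * u 0 i‖ ≤ ‖u 2 i - p * u 0 i‖ + ‖q - p‖ * s := by
      rw [e]
      refine (norm_sub_le _ _).trans ?_
      rw [norm_mul]
      have := mul_le_mul_of_nonneg_left (hs i) (norm_nonneg (q - p))
      linarith
    have h2 : ‖u 2 i - q * u 0 i‖ * s ≤ (‖u 2 i - p * u 0 i‖ + ‖q - p‖ * s) * s :=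
      mul_le_mul_of_nonneg_right h1 hs0
    have h3 := hp i
    have h4 : C ≤ C ^ 3 := by
      have : 1 ≤ C ^ 2 := one_le_pow₀ hC
      nlinarith
    nlinarith
  have hqn : ‖q‖ * (‖w‖ * s) ≤ 32 * C ^ 3 := by
    have h1 : ‖w‖ * ‖u 3 iq‖ ≤ C + 4 * C * s := by
      rw [← norm_mul]
      have e : w * u 3 iq = (u 1 iq + w * u 3 iq) - u 1 iq := by ring
      rw [e]
      exact (norm_sub_le _ _).trans (add_le_add (c4 iq) (b1 iq))
    have h2 : ‖q‖ * t = ‖u 3 iq‖ := by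
      rw [hqe, norm_div, hiq, div_mul_cancel₀]
      rw [← hiq]; exact htpos.ne'
    calc ‖q‖ * (‖w‖ * s) ≤ ‖q‖ * (‖w‖ * (4 * C * t)) := by
          refine mul_le_mul_of_nonneg_left ?_ (norm_nonneg _)
          exact mul_le_mul_of_nonneg_left b0 (norm_nonneg _)
      _ = 4 * C * (‖w‖ * (‖q‖ * t)) := by ring
      _ = 4 * C * (‖w‖ * ‖u 3 iq‖) := by rw [h2]
      _ ≤ 4 * C * (C + 4 * C * s) := mul_le_mul_of_nonneg_left h1 (by positivity)
      _ ≤ 4 * C * (C + 4 * C * C) := by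
          refine mul_le_mul_of_nonneg_left ?_ (by positivity)
          have := mul_le_mul_of_nonneg_left c1 (show 0 ≤ 4 * C by positivity)
          linarith
      _ ≤ 32 * C ^ 3 := by
          have h5 : 1 ≤ C := hC
          nlinarith [mul_pos hC0 hC0, mul_nonneg (mul_nonneg hC0.le hC0.le) (sub_nonneg.2 h5)]
  exact ⟨hspos, hw, q, hqn, b1, b2, b3⟩

/-- `N' J Nᵀ` for two frames -/
def quo (u' u : Fin 4 → Fin 4 → k) (i j : Fin 4) : k :=
  u' 0 i * u 3 j + u' 1 i * u 2 j - u' 2 i * u 1 j - u' 3 i * u 0 j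

/-- **The same class: the quotient is bounded.** -/
theorem same {C : ℝ} (hC : 1 ≤ C) {u u' : Fin 4 → Fin 4 → k} {s s' : ℝ} {q q' : k}
    (hs : 0 < s) (hs' : 0 < s')
    (a0 : ∀ i, ‖u 0 i‖ ≤ s) (a1 : ∀ i, ‖u 1 i‖ ≤ C * s)
    (a2 : ∀ i, ‖u 2 i - q * u 0 i‖ * s ≤ C) (a3 : ∀ i, ‖u 3 i - q * u 1 i‖ * s ≤ C)
    (b0 : ∀ i, ‖u' 0 i‖ ≤ s') (b1 : ∀ i, ‖u' 1 i‖ ≤ C * s')
    (b2 : ∀ i, ‖u' 2 i - q' * u' 0 i‖ * s' ≤ C) (b3 : ∀ i, ‖u' 3 i - q' * u' 1 i‖ * s' ≤ C)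
    (h1 : s ≤ 2 * s') (h2 : s' ≤ 2 * s) (h3 : ‖q' - q‖ * (s * s') ≤ 1) (i j : Fin 4) :
    ‖quo u' u i j‖ ≤ 16 * C ^ 2 := by
  have hC0 : 0 < C := by linarith
  have e : quo u' u i j = (u' 0 i * (u 3 j - q * u 1 j) + u' 1 i * (u 2 j - q * u 0 j) -
      ((u' 2 i - q' * u' 0 i) + (q' - q) * u' 0 i) * u 1 j -
      ((u' 3 i - q' * u' 1 i) + (q' - q) * u' 1 i) * u 0 j) := by
    unfold quo
    ring
  have t1 : ‖u' 0 i * (u 3 j - q * u 1 j)‖ ≤ 2 * C := by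
    rw [norm_mul]
    calc _ ≤ s' * ‖u 3 j - q * u 1 j‖ := mul_le_mul_of_nonneg_right (b0 i) (norm_nonneg _)
      _ ≤ (2 * s) * ‖u 3 j - q * u 1 j‖ := mul_le_mul_of_nonneg_right h2 (norm_nonneg _)
      _ = 2 * (‖u 3 j - q * u 1 j‖ * s) := by ring
      _ ≤ 2 * C := by linarith [a3 j]
  have t2 : ‖u' 1 i * (u 2 j - q * u 0 j)‖ ≤ 2 * C * C := by
    rw [norm_mul]
    calc _ ≤ (C * s') * ‖u 2 j - q * u 0 j‖ := mul_le_mul_of_nonneg_right (b1 i) (norm_nonneg _)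
      _ ≤ (C * (2 * s)) * ‖u 2 j - q * u 0 j‖ := by gcongr
      _ = 2 * C * (‖u 2 j - q * u 0 j‖ * s) := by ring
      _ ≤ 2 * C * C := mul_le_mul_of_nonneg_left (a2 j) (by positivity)
  have t3 : ‖((u' 2 i - q' * u' 0 i) + (q' - q) * u' 0 i) * u 1 j‖ ≤ 2 * C * C + C := by
    rw [add_mul]
    refine (norm_add_le _ _).trans (add_le_add ?_ ?_)
    · rw [norm_mul]
      calc _ ≤ ‖u' 2 i - q' * u' 0 i‖ * (C * s) :=
            mul_le_mul_of_nonneg_left (a1 j) (norm_nonneg _)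
        _ ≤ ‖u' 2 i - q' * u' 0 i‖ * (C * (2 * s')) := by gcongr
        _ = 2 * C * (‖u' 2 i - q' * u' 0 i‖ * s') := by ring
        _ ≤ 2 * C * C := mul_le_mul_of_nonneg_left (b2 i) (by positivity)
    · rw [norm_mul, norm_mul]
      calc _ ≤ ‖q' - q‖ * s' * (C * s) := by
            gcongr
            · exact b0 i
            · exact a1 j
        _ = C * (‖q' - q‖ * (s * s')) := by ring
        _ ≤ C * 1 := mul_le_mul_of_nonneg_left h3 hC0.le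
        _ = C := mul_one C
  have t4 : ‖((u' 3 i - q' * u' 1 i) + (q' - q) * u' 1 i) * u 0 j‖ ≤ 2 * C + C := by
    rw [add_mul]
    refine (norm_add_le _ _).trans (add_le_add ?_ ?_)
    · rw [norm_mul]
      calc _ ≤ ‖u' 3 i - q' * u' 1 i‖ * s := mul_le_mul_of_nonneg_left (a0 j) (norm_nonneg _)
        _ ≤ ‖u' 3 i - q' * u' 1 i‖ * (2 * s') := mul_le_mul_of_nonneg_left h1 (norm_nonneg _)
        _ = 2 * (‖u' 3 i - q' * u' 1 i‖ * s') := by ring
        _ ≤ 2 * C := by linarith [b3 i]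
    · rw [norm_mul, norm_mul]
      calc _ ≤ ‖q' - q‖ * (C * s') * s := by
            gcongr
            · exact b1 i
            · exact a0 j
        _ = C * (‖q' - q‖ * (s * s')) := by ring
        _ ≤ C * 1 := mul_le_mul_of_nonneg_left h3 hC0.le
        _ = C := mul_one C
  have hCC : C ≤ C ^ 2 := by nlinarith
  rw [e]
  set A := u' 0 i * (u 3 j - q * u 1 j)
  set B := u' 1 i * (u 2 j - q * u 0 j)
  set D := ((u' 2 i - q' * u' 0 i) + (q' - q) * u' 0 i) * u 1 j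
  set F := ((u' 3 i - q' * u' 1 i) + (q' - q) * u' 1 i) * u 0 j
  have r1 := norm_sub_le (A + B - D) F
  have r2 := norm_sub_le (A + B) D
  have r3 := norm_add_le A B
  nlinarith

end Vale.Agent.P092.H574.W
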