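import Vale.Agent.P092.H574.W1
import Vale.Agent.P092.H337.NGa

/-!
P092, Track C, count row (helper574), part 2: the constraints given by a point wall, the bounded
symplectic frames.
-/

set_option linter.all false

namespace Vale.Agent.P092.H574.W

open Matrix Vale.Agent.P092.H337.NG

variable {k : Type*} [NormedField k]

abbrev M4 (k : Type*) := Matrix (Fin 4) (Fin 4) k

theorem mv_apply (g : M4 k) (z : Fin 4 → k) (i : Fin 4) :
    (g *ᵥ z) i = g i 0 * z 0 + g i 1 * z 1 + g i 2 * z 2 + g i 3 * z 3 := by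
  simp [Matrix.mulVec, dotProduct, Fin.sum_univ_four]

theorem mv_le {g : M4 k} {z : Fin 4 → k} {G Z : ℝ} (hg : ∀ i j, ‖g i j‖ ≤ G)
    (hz : ∀ i, ‖z i‖ ≤ Z) (i : Fin 4) : ‖(g *ᵥ z) i‖ ≤ 4 * (G * Z) := by
  rw [mv_apply]
  have h := fun j => nrm_mul_le (hg i j) (hz j)
  have h1 := norm_add_le (g i 0 * z 0 + g i 1 * z 1 + g i 2 * z 2) (g i 3 * z 3)
  have h2 := norm_add_le (g i 0 * z 0 + g i 1 * z 1) (g i 2 * z 2)
  have h3 := norm_add_le (g i 0 * z 0) (g i 1 * z 1)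
  linarith [h 0, h 1, h 2, h 3]

/-- isometries of `om` -/
structure Iso (g : M4 k) : Prop where
  iso : ∀ x y, om (g *ᵥ x) (g *ᵥ y) = om x y
  sur : ∀ y, ∃ x, g *ᵥ x = y

/-- the columns -/
def cl (g : M4 k) (j : Fin 4) : Fin 4 → k := fun i => g i j

theorem mv_single (g : M4 k) (j : Fin 4) : g *ᵥ Pi.single j 1 = cl g j := by
  ext i
  simp [cl]

theorem om_single (z : Fin 4 → k) :
    om (Pi.single 0 1) z = z 3 ∧ om (Pi.single 1 1) z = z 2 ∧ om (Pi.single 2 1) z = -z 1 ∧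
      om (Pi.single 3 1) z = -z 0 := by
  refine ⟨?_, ?_, ?_, ?_⟩ <;> simp [om, Pi.single_apply]

theorem Iso.inv_le {g : M4 k} (hg : Iso g) {ε : ℝ} {z : Fin 4 → k}
    (h : ∀ j, ‖om (cl g j) (g *ᵥ z)‖ ≤ ε) (i : Fin 4) : ‖z i‖ ≤ ε := by
  obtain ⟨h0, h1, h2, h3⟩ := om_single z
  have e : ∀ j, om (cl g j) (g *ᵥ z) = om (Pi.single j 1) z := fun j => by
    rw [← mv_single, hg.iso]
  have k0 := h 0
  have k1 := h 1
  have k2 := h 2
  have k3 := h 3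
  rw [e, h0] at k0
  rw [e, h1] at k1
  rw [e, h2, norm_neg] at k2
  rw [e, h3, norm_neg] at k3
  fin_cases i
  · exact k3
  · exact k2
  · exact k1
  · exact k0

/-- minors of the images of two vectors -/
theorem mn_mv (g : M4 k) (a b : Fin 4 → k) (i j : Fin 4) :
    mn (g *ᵥ a) (g *ᵥ b) i j = ∑ c, ∑ d, a c * b d * mi g i j c d := by
  simp only [mn, mv_apply, mi, Fin.sum_univ_four]
  ring

theorem mn_mv_le {g : M4 k} {a b : Fin 4 → k} {A B : ℝ} (ha : ∀ i, ‖a i‖ ≤ A)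
    (hb : ∀ i, ‖b i‖ ≤ B) (i j : Fin 4) :
    ‖mn (g *ᵥ a) (g *ᵥ b) i j‖ ≤ 16 * (A * B * m2 g) := by
  rw [mn_mv]
  calc ‖∑ c, ∑ d, a c * b d * mi g i j c d‖ ≤ ∑ _c : Fin 4, ∑ _d : Fin 4, A * B * m2 g := by
        refine norm_sum_le_of_le _ fun c _ => norm_sum_le_of_le _ fun d _ => ?_
        exact nrm_mul_le (nrm_mul_le (ha c) (hb d)) (mi_le g i j c d)
    _ = _ := by simp; ring

theorem mn_smul (c : k) (a b : Fin 4 → k) (i j : Fin 4) :
    mn (c • a) (c • b) i j = c * c * mn a b i j := by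
  simp only [mn, Pi.smul_apply, smul_eq_mul]
  ring

/-- **The constraints of a point wall.** `g₀` is near the point wall, `x` its attracting vector,
`x + τ y` a small perturbation inside `x^⊥`; `m g₀ = c g` with `g` near the point wall, too, of a
norm at most `2 |g₀|`. -/
theorem wall {R : ℝ} (hR : 0 ≤ R) {g₀ g m : M4 k} (h₀ : Iso g₀) {A : ℝ} (hA : 0 < A)
    (hgA : ∀ i j, ‖g₀ i j‖ ≤ A) {x : Fin 4 → k} {j₀ : Fin 4} {pe : k} (hpe : ‖pe‖ = A)
    (hx : ∀ i, x i = pe⁻¹ * g₀ i j₀) (hx1 : ∃ i, ‖x i‖ = 1) {ψ : Fin 4 → k}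
    (hψ : ∀ i j, ‖g₀ i j - ψ j * x i‖ ≤ R)
    {c : k} (hc : ‖c‖ = 1) (hm : m * g₀ = c • g) (hg : ∀ i j, ‖g i j‖ ≤ 2 * A)
    (hg2 : m2 g ≤ R * (2 * A)) {y : Fin 4 → k} (hy : om x y = 0) (hyn : ∀ i, ‖y i‖ ≤ 2) {τ : k}
    (hτ : ‖τ‖ ≤ 1) (hτA : ‖τ‖ * A ≤ 1) :
    (∀ i, ‖(m *ᵥ (x + τ • y)) i‖ ≤ 8 * (1 + 8 * R)) ∧
      ∀ (v : Fin 4 → k) (V : ℝ), (∀ i, ‖v i‖ ≤ V) → om (x + τ • y) v = 0 → ∀ i j,
        ‖mn (m *ᵥ (x + τ • y)) (m *ᵥ v) i j‖ ≤ 32 * R * (1 + 8 * R) * (8 + 12 * R) * V := by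
  have hpe0 : pe ≠ 0 := by rw [← norm_pos_iff, hpe]; exact hA
  -- `y = g₀ zy`
  obtain ⟨zy, hzy⟩ := h₀.sur y
  have split : ∀ j (v : Fin 4 → k), om (cl g₀ j) v =
      om (fun i => g₀ i j - ψ j * x i) v + ψ j * om x v := by
    intro j v
    simp only [om, cl]
    ring
  have hzyn : ∀ i, ‖zy i‖ ≤ 8 * R := by
    refine h₀.inv_le fun j => ?_
    rw [hzy, split, hy, mul_zero, add_zero]
    calc _ ≤ 4 * (R * 2) := om_le (fun i => hψ i j) hyn
      _ = _ := by ring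
  have hψn : ∀ j, ‖ψ j‖ ≤ A + R := by
    intro j
    obtain ⟨i, hi⟩ := hx1
    have e : ψ j * x i = g₀ i j - (g₀ i j - ψ j * x i) := by ring
    have h1 : ‖ψ j * x i‖ ≤ A + R := by
      rw [e]
      exact (norm_sub_le _ _).trans (add_le_add (hgA i j) (hψ i j))
    rwa [norm_mul, hi, mul_one] at h1
  -- `x + τ y = g₀ ζ`
  obtain ⟨ζ, hζ⟩ : ∃ ζ : Fin 4 → k, ζ = pe⁻¹ • Pi.single j₀ 1 + τ • zy := ⟨_, rfl⟩
  have hxζ : x + τ • y = g₀ *ᵥ ζ := by
    rw [hζ, mulVec_add, mulVec_smul, mulVec_smul, hzy, mv_single]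
    congr 1
    ext i
    rw [hx]
    rfl
  have hζn : ∀ i, ‖ζ i‖ ≤ (1 + 8 * R) / A := by
    intro i
    have h1 : ‖(pe⁻¹ • (Pi.single j₀ (1 : k) : Fin 4 → k)) i‖ ≤ 1 / A := by
      rw [Pi.smul_apply, smul_eq_mul, norm_mul, norm_inv, hpe, one_div]
      have h2 : ‖(Pi.single j₀ (1 : k) : Fin 4 → k) i‖ ≤ 1 := by
        by_cases h : i = j₀
        · subst h; simp
        · simp [h]
      calc A⁻¹ * _ ≤ A⁻¹ * 1 := mul_le_mul_of_nonneg_left h2 (by positivity)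
        _ = _ := mul_one _
    have h2 : ‖(τ • zy) i‖ ≤ 8 * R / A := by
      rw [Pi.smul_apply, smul_eq_mul, norm_mul, le_div_iff₀ hA]
      calc ‖τ‖ * ‖zy i‖ * A = (‖τ‖ * A) * ‖zy i‖ := by ring
        _ ≤ 1 * (8 * R) := mul_le_mul hτA (hzyn i) (norm_nonneg _) zero_le_one
        _ = _ := one_mul _
    rw [hζ, Pi.add_apply]
    calc _ ≤ 1 / A + 8 * R / A := (norm_add_le _ _).trans (add_le_add h1 h2)
      _ = _ := by ring
  have hmg : ∀ z : Fin 4 → k, m *ᵥ (g₀ *ᵥ z) = c • (g *ᵥ z) := by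
    intro z
    rw [mulVec_mulVec, hm, smul_mulVec]
  refine ⟨fun i => ?_, fun v V hv hv0 i j => ?_⟩
  · rw [hxζ, hmg, Pi.smul_apply, smul_eq_mul, norm_mul, hc, one_mul]
    refine (mv_le hg hζn i).trans (le_of_eq ?_)
    field_simp
    ring
  · obtain ⟨z, hz⟩ := h₀.sur v
    have hV : 0 ≤ V := (norm_nonneg _).trans (hv 0)
    have hzn : ∀ i, ‖z i‖ ≤ (8 + 12 * R) * V := by
      refine h₀.inv_le fun j => ?_
      rw [hz, split]
      have e : om x v = -(τ * om y v) := by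
        have : om (x + τ • y) v = om x v + τ * om y v := by
          simp only [om, Pi.add_apply, Pi.smul_apply, smul_eq_mul]
          ring
        rw [this] at hv0
        exact eq_neg_of_add_eq_zero_left hv0
      rw [e]
      have h1 : ‖om (fun i => g₀ i j - ψ j * x i) v‖ ≤ 4 * (R * V) :=
        om_le (fun i => hψ i j) hv
      have h2 : ‖om y v‖ ≤ 4 * (2 * V) := om_le hyn hv
      have h3 : ‖ψ j * -(τ * om y v)‖ ≤ (1 + R) * (4 * (2 * V)) := by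
        rw [norm_mul, norm_neg, norm_mul, ← mul_assoc]
        refine mul_le_mul ?_ h2 (norm_nonneg _) (by positivity)
        calc ‖ψ j‖ * ‖τ‖ ≤ (A + R) * ‖τ‖ := mul_le_mul_of_nonneg_right (hψn j) (norm_nonneg _)
          _ = ‖τ‖ * A + R * ‖τ‖ := by ring
          _ ≤ 1 + R * 1 := add_le_add hτA (mul_le_mul_of_nonneg_left hτ hR)
          _ = 1 + R := by ring
      calc _ ≤ 4 * (R * V) + (1 + R) * (4 * (2 * V)) := (norm_add_le _ _).trans (add_le_add h1 h3)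
        _ = _ := by ring
    rw [hxζ, ← hz, hmg, hmg, mn_smul, norm_mul, norm_mul, hc, one_mul, one_mul]
    refine (mn_mv_le hζn hzn i j).trans ?_
    calc 16 * ((1 + 8 * R) / A * ((8 + 12 * R) * V) * m2 g)
        ≤ 16 * ((1 + 8 * R) / A * ((8 + 12 * R) * V) * (R * (2 * A))) := by gcongr
      _ = _ := by field_simp; ring

/-! ### Frames -/

/-- `om v (xi a) = v a` -/
def xi (a : Fin 4) : Fin 4 → k :=
  ![![0, 0, 0, 1], ![0, 0, 1, 0], ![0, -1, 0, 0], ![-1, 0, 0, 0]] a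

theorem om_xi (v : Fin 4 → k) (a : Fin 4) : om v (xi a) = v a := by
  fin_cases a <;> simp [om, xi]

theorem xi_self (a : Fin 4) : (xi a a : k) = 0 := by
  fin_cases a <;> simp [xi]

theorem xi_le (a i : Fin 4) : ‖(xi a i : k)‖ ≤ 1 := by
  fin_cases a <;> fin_cases i <;> simp [xi]

/-- combination of two -/
def cb (α β : k) (a b : Fin 4) : Fin 4 → k := fun i => α * xi a i + β * xi b i

theorem om_cb (v : Fin 4 → k) (α β : k) (a b : Fin 4) : om v (cb α β a b) = α * v a + β * v b := by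
  have e : om v (cb α β a b) = α * om v (xi a) + β * om v (xi b) := by
    simp only [om, cb]; ring
  rw [e, om_xi, om_xi]

theorem om_neg_swap (x y : Fin 4 → k) : om y x = -om x y := by unfold om; ring

theorem om_self (x : Fin 4 → k) : om x x = 0 := by unfold om; ring

theorem cb_le {α β : k} {A B : ℝ} (hα : ‖α‖ ≤ A) (hβ : ‖β‖ ≤ B) (a b i : Fin 4) :
    ‖cb α β a b i‖ ≤ A + B := by
  refine (norm_add_le _ _).trans (add_le_add ?_ ?_)
  · rw [norm_mul]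
    calc _ ≤ ‖α‖ * 1 := mul_le_mul_of_nonneg_left (xi_le a i) (norm_nonneg _)
      _ ≤ A := by rw [mul_one]; exact hα
  · rw [norm_mul]
    calc _ ≤ ‖β‖ * 1 := mul_le_mul_of_nonneg_left (xi_le b i) (norm_nonneg _)
      _ ≤ B := by rw [mul_one]; exact hβ

/-- **The frame** of two vectors with a large minor `(a, b)`, `(a, b)` not a dual pair. -/
theorem frame {X δ : ℝ} (hX : 1 ≤ X) (hδ : 0 < δ) (hδ1 : δ ≤ 1) {x x' : Fin 4 → k}
    (hx : ∀ i, ‖x i‖ ≤ X) (hx' : ∀ i, ‖x' i‖ ≤ X) {a b : Fin 4} (hab : (xi a b : k) = 0)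
    (hba : (xi b a : k) = 0) (hD : δ ≤ ‖mn x x' a b‖) :
    ∃ u : Fin 4 → Fin 4 → k, Fr u ∧ u 0 = x ∧ x' = (fun i => u 1 i + om x x' * u 3 i) ∧
      ∀ j i, ‖u j i‖ ≤ 9 * X ^ 3 / δ := by
  obtain ⟨D, hDe⟩ : ∃ D, D = mn x x' a b := ⟨_, rfl⟩
  rw [← hDe] at hD
  have hD0 : D ≠ 0 := by rw [← norm_pos_iff]; exact hδ.trans_le hD
  have hDv : D = x a * x' b - x b * x' a := hDe
  have bd : ∀ z : k, ‖z‖ ≤ X → ‖z / D‖ ≤ X / δ := by
    intro z hz
    rw [norm_div]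
    exact div_le_div₀ (by linarith) hz hδ hD
  obtain ⟨u3, hu3⟩ : ∃ u3 : Fin 4 → k, u3 = cb (x' b / D) (-(x' a / D)) a b := ⟨_, rfl⟩
  obtain ⟨u2, hu2⟩ : ∃ u2 : Fin 4 → k, u2 = cb (-(x b / D)) (x a / D) a b := ⟨_, rfl⟩
  obtain ⟨w, hw⟩ : ∃ w, w = om x x' := ⟨_, rfl⟩
  obtain ⟨u1, hu1⟩ : ∃ u1 : Fin 4 → k, u1 = fun i => x' i - w * u3 i := ⟨_, rfl⟩
  have e03 : om x u3 = 1 := by
    rw [hu3, om_cb]
    have e : x' b / D * x a + -(x' a / D) * x b = (x a * x' b - x b * x' a) / D := by ring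
    rw [e, ← hDv, div_self hD0]
  have e13' : om x' u3 = 0 := by
    rw [hu3, om_cb]
    field_simp
    ring
  have e02 : om x u2 = 0 := by
    rw [hu2, om_cb]
    field_simp
    ring
  have e12' : om x' u2 = 1 := by
    rw [hu2, om_cb]
    have e : -(x b / D) * x' a + x a / D * x' b = (x a * x' b - x b * x' a) / D := by ring
    rw [e, ← hDv, div_self hD0]
  have e32 : om u3 u2 = 0 := by
    rw [hu2, om_cb, hu3]
    simp only [cb, xi_self, hab, hba]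
    ring
  have exp1 : ∀ v, om u1 v = om x' v - w * om u3 v := by
    intro v
    rw [hu1]
    simp only [om]
    ring
  have hu3n : ∀ i, ‖u3 i‖ ≤ 2 * (X / δ) := by
    intro i
    rw [hu3]
    refine (cb_le (A := X / δ) (B := X / δ) (bd _ (hx' b)) ((norm_neg _).le.trans (bd _ (hx' a)))
      a b i).trans ?_
    linarith
  have hXd : X ≤ X / δ := by
    rw [le_div_iff₀ hδ]
    nlinarith
  have hX0 : 0 < X := by linarith
  have hXd1 : 1 ≤ X / δ := hX.trans hXd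
  have hwn : ‖w‖ ≤ 4 * X ^ 2 := by
    rw [hw]
    calc _ ≤ 4 * (X * X) := om_le hx hx'
      _ = _ := by ring
  have hX2 : 1 ≤ X ^ 2 := one_le_pow₀ hX
  have key : X / δ ≤ X ^ 3 / δ := by
    apply div_le_div_of_nonneg_right _ hδ.le
    nlinarith
  refine ⟨![x, u1, u2, u3], ⟨?_, e02, e03, ?_, ?_, ?_⟩, rfl, ?_, ?_⟩
  · change om x u1 = 0
    rw [om_neg_swap, exp1, om_neg_swap x x', om_neg_swap x u3, e03, ← hw]
    ring
  · change om u1 u2 = 1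
    rw [exp1, e12', e32]
    ring
  · change om u1 u3 = 0
    rw [exp1, e13', om_self]
    ring
  · change om u2 u3 = 0
    rw [om_neg_swap, e32, neg_zero]
  · change x' = fun i => u1 i + om x x' * u3 i
    ext i
    rw [hu1, ← hw]
    ring
  · intro j i
    have g0 : X ≤ 9 * X ^ 3 / δ := by
      calc X ≤ X / δ := hXd
        _ ≤ X ^ 3 / δ := key
        _ ≤ 9 * (X ^ 3 / δ) := by
            have : 0 ≤ X ^ 3 / δ := by positivity
            linarith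
        _ = _ := by ring
    have g3 : 2 * (X / δ) ≤ 9 * X ^ 3 / δ := by
      calc 2 * (X / δ) ≤ 2 * (X ^ 3 / δ) := by linarith
        _ ≤ 9 * (X ^ 3 / δ) := by
            have : 0 ≤ X ^ 3 / δ := by positivity
            linarith
        _ = _ := by ring
    fin_cases j
    · exact (hx i).trans g0
    · change ‖u1 i‖ ≤ _
      rw [hu1]
      calc ‖x' i - w * u3 i‖ ≤ X + 4 * X ^ 2 * (2 * (X / δ)) := by
            refine (norm_sub_le _ _).trans (add_le_add (hx' i) ?_)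
            exact nrm_mul_le hwn (hu3n i)
        _ = X + 8 * (X ^ 3 / δ) := by ring
        _ ≤ X ^ 3 / δ + 8 * (X ^ 3 / δ) := by linarith
        _ = _ := by ring
    · change ‖u2 i‖ ≤ _
      rw [hu2]
      refine (cb_le (A := X / δ) (B := X / δ) ((norm_neg _).le.trans (bd _ (hx b))) (bd _ (hx a))
        a b i).trans ?_
      linarith
    · exact (hu3n i).trans g3

/-- **Opposite attracting points**: the quotient is bounded. -/
theorem oppo {C X δ : ℝ} (hC : 1 ≤ C) (hX : 1 ≤ X) (hδ : 0 < δ) (hδ1 : δ ≤ 1) {m : M4 k}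
    (hm : ∀ a b, om (m *ᵥ a) (m *ᵥ b) = om a b) {x x' : Fin 4 → k} (hx : ∀ i, ‖x i‖ ≤ X)
    (hx' : ∀ i, ‖x' i‖ ≤ X) (hw : δ ≤ ‖om x x'‖) (c1 : ∀ i, ‖(m *ᵥ x) i‖ ≤ C)
    (c4 : ∀ i, ‖(m *ᵥ x') i‖ ≤ C)
    (c2 : ∀ (v : Fin 4 → k) (V : ℝ), (∀ i, ‖v i‖ ≤ V) → om x v = 0 → ∀ i j,
      ‖mn (m *ᵥ x) (m *ᵥ v) i j‖ ≤ C * V) (i j : Fin 4) :
    ‖m i j‖ ≤ 40 * C ^ 2 * X ^ 2 / δ ^ 2 + 8 * C * X / δ := by
  obtain ⟨w, hwe⟩ : ∃ w, w = om x x' := ⟨_, rfl⟩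
  rw [← hwe] at hw
  have hw0 : w ≠ 0 := by rw [← norm_pos_iff]; exact hδ.trans_le hw
  obtain ⟨e, he⟩ : ∃ e : Fin 4 → k, e = Pi.single j 1 := ⟨_, rfl⟩
  have hen : ∀ i, ‖e i‖ ≤ 1 := by
    intro i
    rw [he]
    by_cases h : i = j
    · subst h; simp
    · simp [h]
  obtain ⟨α, hα⟩ : ∃ α, α = om x e / w := ⟨_, rfl⟩
  obtain ⟨β, hβ⟩ : ∃ β, β = -(om x' e / w) := ⟨_, rfl⟩
  have hαn : ‖α‖ ≤ 4 * X / δ := by
    rw [hα, norm_div]
    refine div_le_div₀ (by linarith) ?_ hδ hw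
    calc _ ≤ 4 * (X * 1) := om_le hx hen
      _ = _ := by ring
  have hβn : ‖β‖ ≤ 4 * X / δ := by
    rw [hβ, norm_neg, norm_div]
    refine div_le_div₀ (by linarith) ?_ hδ hw
    calc _ ≤ 4 * (X * 1) := om_le hx' hen
      _ = _ := by ring
  obtain ⟨v, hv⟩ : ∃ v : Fin 4 → k, v = e - α • x' - β • x := ⟨_, rfl⟩
  have hxd : 1 ≤ X / δ := by rw [le_div_iff₀ hδ]; linarith
  have hvn : ∀ i, ‖v i‖ ≤ 9 * X ^ 2 / δ := by
    intro i
    rw [hv]
    simp only [Pi.sub_apply, Pi.smul_apply, smul_eq_mul]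
    have t1 : ‖α * x' i‖ ≤ 4 * X / δ * X := nrm_mul_le hαn (hx' i)
    have t2 : ‖β * x i‖ ≤ 4 * X / δ * X := nrm_mul_le hβn (hx i)
    have t3 : (1 : ℝ) ≤ X ^ 2 / δ := by
      rw [le_div_iff₀ hδ]; nlinarith
    calc _ ≤ 1 + 4 * X / δ * X + 4 * X / δ * X := by
          have q1 := norm_sub_le (e i - α * x' i) (β * x i)
          have q2 := norm_sub_le (e i) (α * x' i)
          linarith [hen i]
      _ = 1 + 8 * (X ^ 2 / δ) := by ring
      _ ≤ X ^ 2 / δ + 8 * (X ^ 2 / δ) := by linarith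
      _ = _ := by ring
  have o1 : om x v = 0 := by
    have : om x v = om x e - α * om x x' - β * om x x := by
      rw [hv]; simp only [om, Pi.sub_apply, Pi.smul_apply, smul_eq_mul]; ring
    rw [this, om_self, hα, ← hwe]
    field_simp
    ring
  have o2 : om x' v = 0 := by
    have : om x' v = om x' e - α * om x' x' + β * om x x' := by
      rw [hv]; simp only [om, Pi.sub_apply, Pi.smul_apply, smul_eq_mul]; ring
    rw [this, om_self, hβ, ← hwe]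
    field_simp
    ring
  have h1 := contract_le (x := m *ᵥ x') (y := m *ᵥ x) (z := m *ᵥ v) c4 (c2 v _ hvn o1) i
  rw [hm, hm, o2, zero_mul, sub_zero, om_neg_swap x x', ← hwe, neg_mul, norm_neg, norm_mul] at h1
  have h2 : ‖(m *ᵥ v) i‖ ≤ 36 * C ^ 2 * X ^ 2 / δ ^ 2 := by
    have h3 : δ * ‖(m *ᵥ v) i‖ ≤ 4 * (C * (C * (9 * X ^ 2 / δ))) :=
      (mul_le_mul_of_nonneg_right hw (norm_nonneg _)).trans h1
    rw [le_div_iff₀ (by positivity)]
    have h4 : 4 * (C * (C * (9 * X ^ 2 / δ))) * δ = 36 * C ^ 2 * X ^ 2 := by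
      field_simp
      ring
    calc ‖(m *ᵥ v) i‖ * δ ^ 2 = (δ * ‖(m *ᵥ v) i‖) * δ := by ring
      _ ≤ 4 * (C * (C * (9 * X ^ 2 / δ))) * δ := mul_le_mul_of_nonneg_right h3 hδ.le
      _ = _ := h4
  have h5 : m i j = (m *ᵥ v) i + α * (m *ᵥ x') i + β * (m *ᵥ x) i := by
    have : e = v + α • x' + β • x := by rw [hv]; abel
    have h6 : (m *ᵥ e) i = m i j := by rw [he, mv_single]; rfl
    rw [← h6, this, mulVec_add, mulVec_add, mulVec_smul, mulVec_smul]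
    simp only [Pi.add_apply, Pi.smul_apply, smul_eq_mul]
  rw [h5]
  have t1 : ‖α * (m *ᵥ x') i‖ ≤ 4 * X / δ * C := nrm_mul_le hαn (c4 i)
  have t2 : ‖β * (m *ᵥ x) i‖ ≤ 4 * X / δ * C := nrm_mul_le hβn (c1 i)
  have q1 := norm_add_le ((m *ᵥ v) i + α * (m *ᵥ x') i) (β * (m *ᵥ x) i)
  have q2 := norm_add_le ((m *ᵥ v) i) (α * (m *ᵥ x') i)
  have q3 : 36 * C ^ 2 * X ^ 2 / δ ^ 2 ≤ 40 * C ^ 2 * X ^ 2 / δ ^ 2 := by
    apply div_le_div_of_nonneg_right _ (by positivity)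
    have : 0 ≤ C ^ 2 * X ^ 2 := by positivity
    nlinarith
  have q4 : 4 * X / δ * C + 4 * X / δ * C = 8 * C * X / δ := by ring
  linarith

end Vale.Agent.P092.H574.W
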