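import Vale.Agent.P092.H574.W2

/-!
P092, Track C, count row (helper574), part 3: members of a class, the two parameters.
-/

set_option linter.all false

namespace Vale.Agent.P092.H574.W

open Matrix Vale.Agent.P092.H337.NG

section alg

variable {k : Type*} [NormedField k]

/-- Expansion in a symplectic frame. -/
theorem Fr.exp {u : Fin 4 → Fin 4 → k} (hu : Fr u) (v : Fin 4 → k) (i : Fin 4) :
    v i = -om (u 3) v * u 0 i - om (u 2) v * u 1 i + om (u 1) v * u 2 i + om (u 0) v * u 3 i := by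
  -- `U` has the columns `u`, `V` is the symplectic adjoint
  obtain ⟨U, hU⟩ : ∃ U : M4 k, U = fun i j => u j i := ⟨_, rfl⟩
  obtain ⟨V, hV⟩ : ∃ V : M4 k, V = fun j l => ![-om (u 3) (Pi.single l 1),
    -om (u 2) (Pi.single l 1), om (u 1) (Pi.single l 1), om (u 0) (Pi.single l 1)] j := ⟨_, rfl⟩
  have hom : ∀ x y : Fin 4 → k, om x y = om x (Pi.single 0 1) * y 0 + om x (Pi.single 1 1) * y 1 +
      om x (Pi.single 2 1) * y 2 + om x (Pi.single 3 1) * y 3 := by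
    intro x y
    simp [om, Pi.single_apply]
    ring
  have h00 := om_self (u 0)
  have h11 := om_self (u 1)
  have h22 := om_self (u 2)
  have h33 := om_self (u 3)
  have h10 : om (u 1) (u 0) = 0 := by rw [om_neg_swap, hu.h01, neg_zero]
  have h20 : om (u 2) (u 0) = 0 := by rw [om_neg_swap, hu.h02, neg_zero]
  have h30 : om (u 3) (u 0) = -1 := by rw [om_neg_swap, hu.h03]
  have h21 : om (u 2) (u 1) = -1 := by rw [om_neg_swap, hu.h12]
  have h31 : om (u 3) (u 1) = 0 := by rw [om_neg_swap, hu.h13, neg_zero]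
  have h32 : om (u 3) (u 2) = 0 := by rw [om_neg_swap, hu.h23, neg_zero]
  have h1 : V * U = 1 := by
    ext j l
    have e : (V * U) j l = V j 0 * u l 0 + V j 1 * u l 1 + V j 2 * u l 2 + V j 3 * u l 3 := by
      rw [Matrix.mul_apply, Fin.sum_univ_four, hU]
    rw [e, hV]
    fin_cases j
    · change -om (u 3) (Pi.single 0 1) * u l 0 + -om (u 3) (Pi.single 1 1) * u l 1 +
        -om (u 3) (Pi.single 2 1) * u l 2 + -om (u 3) (Pi.single 3 1) * u l 3 = _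
      have e2 : -om (u 3) (Pi.single 0 1) * u l 0 + -om (u 3) (Pi.single 1 1) * u l 1 +
        -om (u 3) (Pi.single 2 1) * u l 2 + -om (u 3) (Pi.single 3 1) * u l 3 = -om (u 3) (u l) := by
        rw [hom (u 3) (u l)]; ring
      rw [e2]
      fin_cases l
      · change -om (u 3) (u 0) = _; rw [h30]; simp
      · change -om (u 3) (u 1) = _; rw [h31]; simp
      · change -om (u 3) (u 2) = _; rw [h32]; simp
      · change -om (u 3) (u 3) = _; rw [h33]; simp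
    · change -om (u 2) (Pi.single 0 1) * u l 0 + -om (u 2) (Pi.single 1 1) * u l 1 +
        -om (u 2) (Pi.single 2 1) * u l 2 + -om (u 2) (Pi.single 3 1) * u l 3 = _
      have e2 : -om (u 2) (Pi.single 0 1) * u l 0 + -om (u 2) (Pi.single 1 1) * u l 1 +
        -om (u 2) (Pi.single 2 1) * u l 2 + -om (u 2) (Pi.single 3 1) * u l 3 = -om (u 2) (u l) := by
        rw [hom (u 2) (u l)]; ring
      rw [e2]
      fin_cases l
      · change -om (u 2) (u 0) = _; rw [h20]; simp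
      · change -om (u 2) (u 1) = _; rw [h21]; simp
      · change -om (u 2) (u 2) = _; rw [h22]; simp
      · change -om (u 2) (u 3) = _; rw [hu.h23]; simp
    · change om (u 1) (Pi.single 0 1) * u l 0 + om (u 1) (Pi.single 1 1) * u l 1 +
        om (u 1) (Pi.single 2 1) * u l 2 + om (u 1) (Pi.single 3 1) * u l 3 = _
      rw [← hom (u 1) (u l)]
      fin_cases l
      · change om (u 1) (u 0) = _; rw [h10]; simp
      · change om (u 1) (u 1) = _; rw [h11]; simp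
      · change om (u 1) (u 2) = _; rw [hu.h12]; simp
      · change om (u 1) (u 3) = _; rw [hu.h13]; simp
    · change om (u 0) (Pi.single 0 1) * u l 0 + om (u 0) (Pi.single 1 1) * u l 1 +
        om (u 0) (Pi.single 2 1) * u l 2 + om (u 0) (Pi.single 3 1) * u l 3 = _
      rw [← hom (u 0) (u l)]
      fin_cases l
      · change om (u 0) (u 0) = _; rw [h00]; simp
      · change om (u 0) (u 1) = _; rw [hu.h01]; simp
      · change om (u 0) (u 2) = _; rw [hu.h02]; simp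
      · change om (u 0) (u 3) = _; rw [hu.h03]; simp
  have h2 : U * V = 1 := mul_eq_one_comm.1 h1
  have h3 : (U *ᵥ (V *ᵥ v)) i = v i := by rw [mulVec_mulVec, h2, one_mulVec]
  rw [← h3, mv_apply, mv_apply, mv_apply, mv_apply, mv_apply, hU, hV, hom (u 0) v, hom (u 1) v,
    hom (u 2) v, hom (u 3) v]
  change u 0 i * (-om (u 3) (Pi.single 0 1) * v 0 + -om (u 3) (Pi.single 1 1) * v 1 +
      -om (u 3) (Pi.single 2 1) * v 2 + -om (u 3) (Pi.single 3 1) * v 3) +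
    u 1 i * (-om (u 2) (Pi.single 0 1) * v 0 + -om (u 2) (Pi.single 1 1) * v 1 +
      -om (u 2) (Pi.single 2 1) * v 2 + -om (u 2) (Pi.single 3 1) * v 3) +
    u 2 i * (om (u 1) (Pi.single 0 1) * v 0 + om (u 1) (Pi.single 1 1) * v 1 +
      om (u 1) (Pi.single 2 1) * v 2 + om (u 1) (Pi.single 3 1) * v 3) +
    u 3 i * (om (u 0) (Pi.single 0 1) * v 0 + om (u 0) (Pi.single 1 1) * v 1 +
      om (u 0) (Pi.single 2 1) * v 2 + om (u 0) (Pi.single 3 1) * v 3) = _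
  ring

/-- images of frames -/
theorem Fr.map {u : Fin 4 → Fin 4 → k} (hu : Fr u) {m : M4 k}
    (hm : ∀ a b, om (m *ᵥ a) (m *ᵥ b) = om a b) : Fr fun j => m *ᵥ u j :=
  ⟨by rw [hm]; exact hu.h01, by rw [hm]; exact hu.h02, by rw [hm]; exact hu.h03,
    by rw [hm]; exact hu.h12, by rw [hm]; exact hu.h13, by rw [hm]; exact hu.h23⟩

/-- The quotient in terms of the frames. -/
theorem quo_bd {u : Fin 4 → Fin 4 → k} (hu : Fr u) {m m' m'' : M4 k}
    (hm : ∀ a b, om (m *ᵥ a) (m *ᵥ b) = om a b) (h : m'' * m = m') {D : ℝ}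
    (hD : ∀ i j, ‖quo (fun j => m' *ᵥ u j) (fun j => m *ᵥ u j) i j‖ ≤ D) (i j : Fin 4) :
    ‖m'' i j‖ ≤ D := by
  have hN := hu.map hm
  have h0 : m'' i j = (m'' *ᵥ Pi.single j 1) i := by rw [mv_single]; rfl
  obtain ⟨v, hv⟩ : ∃ v : Fin 4 → k, v = Pi.single j 1 := ⟨_, rfl⟩
  have h1 : v = -om (m *ᵥ u 3) v • (m *ᵥ u 0) - om (m *ᵥ u 2) v • (m *ᵥ u 1) +
      om (m *ᵥ u 1) v • (m *ᵥ u 2) + om (m *ᵥ u 0) v • (m *ᵥ u 3) := by
    ext l
    exact hN.exp v l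
  have h2 : (m'' *ᵥ v) i = -om (m *ᵥ u 3) v * (m' *ᵥ u 0) i - om (m *ᵥ u 2) v * (m' *ᵥ u 1) i +
      om (m *ᵥ u 1) v * (m' *ᵥ u 2) i + om (m *ᵥ u 0) v * (m' *ᵥ u 3) i := by
    conv_lhs => rw [h1]
    rw [mulVec_add, mulVec_add, mulVec_sub, mulVec_smul, mulVec_smul, mulVec_smul, mulVec_smul]
    simp only [mulVec_mulVec, h, Pi.add_apply, Pi.sub_apply, Pi.smul_apply, smul_eq_mul]
  have o : ∀ x : Fin 4 → k, om x (Pi.single 0 1) = -x 3 ∧ om x (Pi.single 1 1) = -x 2 ∧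
      om x (Pi.single 2 1) = x 1 ∧ om x (Pi.single 3 1) = x 0 := by
    intro x
    refine ⟨?_, ?_, ?_, ?_⟩ <;> simp [om, Pi.single_apply]
  rw [h0, ← hv, h2, hv]
  fin_cases j
  · refine le_trans (le_of_eq ?_) (hD i 3)
    congr 1
    change -om (m *ᵥ u 3) (Pi.single 0 1) * (m' *ᵥ u 0) i -
      om (m *ᵥ u 2) (Pi.single 0 1) * (m' *ᵥ u 1) i +
      om (m *ᵥ u 1) (Pi.single 0 1) * (m' *ᵥ u 2) i +
      om (m *ᵥ u 0) (Pi.single 0 1) * (m' *ᵥ u 3) i = _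
    rw [(o _).1, (o _).1, (o _).1, (o _).1]
    unfold quo
    ring
  · refine le_trans (le_of_eq ?_) (hD i 2)
    congr 1
    change -om (m *ᵥ u 3) (Pi.single 1 1) * (m' *ᵥ u 0) i -
      om (m *ᵥ u 2) (Pi.single 1 1) * (m' *ᵥ u 1) i +
      om (m *ᵥ u 1) (Pi.single 1 1) * (m' *ᵥ u 2) i +
      om (m *ᵥ u 0) (Pi.single 1 1) * (m' *ᵥ u 3) i = _
    rw [(o _).2.1, (o _).2.1, (o _).2.1, (o _).2.1]
    unfold quo
    ring
  · rw [← norm_neg]
    refine le_trans (le_of_eq ?_) (hD i 1)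
    congr 1
    change -(-om (m *ᵥ u 3) (Pi.single 2 1) * (m' *ᵥ u 0) i -
      om (m *ᵥ u 2) (Pi.single 2 1) * (m' *ᵥ u 1) i +
      om (m *ᵥ u 1) (Pi.single 2 1) * (m' *ᵥ u 2) i +
      om (m *ᵥ u 0) (Pi.single 2 1) * (m' *ᵥ u 3) i) = _
    rw [(o _).2.2.1, (o _).2.2.1, (o _).2.2.1, (o _).2.2.1]
    unfold quo
    ring
  · rw [← norm_neg]
    refine le_trans (le_of_eq ?_) (hD i 0)
    congr 1
    change -(-om (m *ᵥ u 3) (Pi.single 3 1) * (m' *ᵥ u 0) i -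
      om (m *ᵥ u 2) (Pi.single 3 1) * (m' *ᵥ u 1) i +
      om (m *ᵥ u 1) (Pi.single 3 1) * (m' *ᵥ u 2) i +
      om (m *ᵥ u 0) (Pi.single 3 1) * (m' *ᵥ u 3) i) = _
    rw [(o _).2.2.2, (o _).2.2.2, (o _).2.2.2, (o _).2.2.2]
    unfold quo
    ring

/-- The conclusions of the walls for one element `m` (both walls). -/
structure Mem (C : ℝ) (x x' : Fin 4 → k) (m : M4 k) : Prop where
  iso : ∀ a b, om (m *ᵥ a) (m *ᵥ b) = om a b
  c1 : ∀ i, ‖(m *ᵥ x) i‖ ≤ C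
  c4 : ∀ i, ‖(m *ᵥ x') i‖ ≤ C
  c2 : ∀ (v : Fin 4 → k) (V : ℝ), (∀ i, ‖v i‖ ≤ V) → om x v = 0 → ∀ i j,
    ‖mn (m *ᵥ x) (m *ᵥ v) i j‖ ≤ C * V
  c3 : ∀ (v : Fin 4 → k) (V : ℝ), (∀ i, ‖v i‖ ≤ V) → om x' v = 0 → ∀ i j,
    ‖mn (m *ᵥ x') (m *ᵥ v) i j‖ ≤ C * V

/-- a non dual large minor, if `om x x'` is small -/
theorem nondual {X δ : ℝ} (hX : 1 ≤ X) (hδ : 0 < δ) {x x' : Fin 4 → k}
    (hx : ∀ i, ‖x i‖ ≤ X) (hx' : ∀ i, ‖x' i‖ ≤ X) (hs : ∃ a b, δ ≤ ‖mn x x' a b‖)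
    (hw : ‖om x x'‖ ≤ δ / 2) (hδ1 : δ ≤ 1) :
    ∃ a b : Fin 4, (xi a b : k) = 0 ∧ (xi b a : k) = 0 ∧ δ ^ 2 / (8 * X ^ 2) ≤ ‖mn x x' a b‖ := by
  by_contra hc
  push Not at hc
  have hX0 : 0 < X := by linarith
  have hX2 : 1 ≤ X ^ 2 := one_le_pow₀ hX
  have hsm : δ ^ 2 / (8 * X ^ 2) ≤ δ / 8 := by
    rw [div_le_div_iff₀ (by positivity) (by norm_num)]
    nlinarith
  have h01 := hc 0 1 (by simp [xi]) (by simp [xi])
  have h02 := hc 0 2 (by simp [xi]) (by simp [xi])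
  have h13 := hc 1 3 (by simp [xi]) (by simp [xi])
  have h23 := hc 2 3 (by simp [xi]) (by simp [xi])
  have hd : ∀ a : Fin 4, ‖mn x x' a a‖ = 0 := fun a => by simp [mn, mul_comm]
  have hsw : ∀ a b : Fin 4, ‖mn x x' a b‖ = ‖mn x x' b a‖ := fun a b => by
    rw [← norm_neg]; congr 1; unfold mn; ring
  have hom : om x x' = mn x x' 0 3 + mn x x' 1 2 := by unfold om mn; ring
  have hpl : mn x x' 0 3 * mn x x' 1 2 = mn x x' 0 2 * mn x x' 1 3 - mn x x' 0 1 * mn x x' 2 3 := by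
    unfold mn; ring
  have hXm : ∀ a b, ‖mn x x' a b‖ ≤ 2 * X ^ 2 := fun a b => by
    unfold mn
    have q1 := nrm_mul_le (hx a) (hx' b)
    have q2 := nrm_mul_le (hx b) (hx' a)
    have q3 := norm_sub_le (x a * x' b) (x b * x' a)
    nlinarith
  have prod : ‖mn x x' 0 3‖ * ‖mn x x' 1 2‖ ≤ 4 * X ^ 2 * (δ ^ 2 / (8 * X ^ 2)) := by
    rw [← norm_mul, hpl]
    refine (norm_sub_le _ _).trans ?_
    rw [norm_mul, norm_mul]
    have q1 : ‖mn x x' 0 2‖ * ‖mn x x' 1 3‖ ≤ δ ^ 2 / (8 * X ^ 2) * (2 * X ^ 2) :=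
      mul_le_mul h02.le (hXm 1 3) (norm_nonneg _) (by positivity)
    have q2 : ‖mn x x' 0 1‖ * ‖mn x x' 2 3‖ ≤ δ ^ 2 / (8 * X ^ 2) * (2 * X ^ 2) :=
      mul_le_mul h01.le (hXm 2 3) (norm_nonneg _) (by positivity)
    linarith
  have prod2 : 4 * X ^ 2 * (δ ^ 2 / (8 * X ^ 2)) = δ ^ 2 / 2 := by field_simp; norm_num
  rw [prod2] at prod
  have big : δ ≤ ‖mn x x' 0 3‖ ∨ δ ≤ ‖mn x x' 1 2‖ := by
    obtain ⟨a, b, hab⟩ := hs
    have small : ∀ c d : Fin 4, ‖mn x x' c d‖ < δ ^ 2 / (8 * X ^ 2) → ¬ δ ≤ ‖mn x x' c d‖ := by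
      intro c d h1 h2
      linarith
    have dg : ∀ a : Fin 4, ¬ δ ≤ ‖mn x x' a a‖ := fun a h => by
      rw [hd a] at h
      linarith
    fin_cases a <;> fin_cases b
    · exact absurd hab (dg 0)
    · exact absurd hab (small 0 1 h01)
    · exact absurd hab (small 0 2 h02)
    · exact Or.inl hab
    · exact absurd hab (by
        have := small 0 1 h01; rw [hsw 0 1] at this; exact this)
    · exact absurd hab (dg 1)
    · exact Or.inr hab
    · exact absurd hab (small 1 3 h13)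
    · exact absurd hab (by
        have := small 0 2 h02; rw [hsw 0 2] at this; exact this)
    · exact Or.inr (by rw [hsw 1 2]; exact hab)
    · exact absurd hab (dg 2)
    · exact absurd hab (small 2 3 h23)
    · exact Or.inl (by rw [hsw 0 3]; exact hab)
    · exact absurd hab (by
        have := small 1 3 h13; rw [hsw 1 3] at this; exact this)
    · exact absurd hab (by
        have := small 2 3 h23; rw [hsw 2 3] at this; exact this)
    · exact absurd hab (dg 3)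
  have hsum : ∀ p q : k, ‖p + q‖ ≤ δ / 2 → δ ≤ ‖p‖ → ‖p‖ * ‖q‖ ≤ δ ^ 2 / 2 → False ∨
      ‖p‖ * ‖q‖ = δ ^ 2 / 2 := by
    intro p q h1 h2 h3
    have h4 : ‖p‖ - δ / 2 ≤ ‖q‖ := by
      have : p = (p + q) - q := by ring
      have h5 : ‖p‖ ≤ ‖p + q‖ + ‖q‖ := by
        conv_lhs => rw [this]
        exact norm_sub_le _ _
      linarith
    have h6 : δ / 2 ≤ ‖q‖ := by linarith
    right
    nlinarith [mul_le_mul h2 h6 (by positivity) (norm_nonneg p)]
  -- strictness: the bound of the product is strict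
  have hstr : ‖mn x x' 0 3‖ * ‖mn x x' 1 2‖ < δ ^ 2 / 2 := by
    rw [← norm_mul, hpl]
    refine lt_of_le_of_lt (norm_sub_le _ _) ?_
    rw [norm_mul, norm_mul]
    have hη : 0 < δ ^ 2 / (8 * X ^ 2) := by positivity
    have q1 : ‖mn x x' 0 2‖ * ‖mn x x' 1 3‖ ≤ δ ^ 2 / (8 * X ^ 2) * (δ ^ 2 / (8 * X ^ 2)) :=
      mul_le_mul h02.le h13.le (norm_nonneg _) hη.le
    have q2 : ‖mn x x' 0 1‖ * ‖mn x x' 2 3‖ ≤ δ ^ 2 / (8 * X ^ 2) * (δ ^ 2 / (8 * X ^ 2)) :=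
      mul_le_mul h01.le h23.le (norm_nonneg _) hη.le
    have q3 : δ ^ 2 / (8 * X ^ 2) * (δ ^ 2 / (8 * X ^ 2)) ≤ δ ^ 2 / (8 * X ^ 2) * (1 / 8) := by
      refine mul_le_mul_of_nonneg_left (hsm.trans ?_) hη.le
      linarith
    have q4 : δ ^ 2 / (8 * X ^ 2) ≤ δ ^ 2 / 8 := by
      apply div_le_div_of_nonneg_left (by positivity) (by norm_num)
      linarith
    have q5 : 0 < δ ^ 2 := by positivity
    linarith
  rcases big with hb | hb
  · rcases hsum _ _ (by rw [← hom]; exact hw) hb prod with h | h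
    · exact h
    · linarith
  · rcases hsum (mn x x' 1 2) (mn x x' 0 3) (by rw [add_comm, ← hom]; exact hw) hb
      (by rw [mul_comm]; exact prod) with h | h
    · exact h
    · rw [mul_comm] at h; linarith

end alg

end Vale.Agent.P092.H574.W
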