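import Vale.Agent.P092.H574.W3

/-!
P092, Track C, count row (helper574), part 4: the two parameters of a member of a class.
-/

set_option linter.all false

namespace Vale.Agent.P092.H574.W

open Matrix Vale.Agent.P092.H337.NG

variable {k : Type*} [NormedField k]

/-- the standard frame -/
theorem fr_std : Fr (fun j => (Pi.single j (1 : k) : Fin 4 → k)) := by
  constructor <;> simp [om, Pi.single_apply]

theorem single_le (j i : Fin 4) : ‖(Pi.single j (1 : k) : Fin 4 → k) i‖ ≤ 1 := by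
  by_cases h : i = j
  · subst h; simp
  · simp [h]

theorem mn_swap (x y : Fin 4 → k) (i j : Fin 4) : mn x y i j = -mn y x i j := by unfold mn; ring

/-- Quotients of bounded isometries. -/
theorem bdd_quo {D : ℝ} {m m' m'' : M4 k} (hm : ∀ a b, om (m *ᵥ a) (m *ᵥ b) = om a b)
    (h : m'' * m = m') (h1 : ∀ i j, ‖m i j‖ ≤ D) (h2 : ∀ i j, ‖m' i j‖ ≤ D) (i j : Fin 4) :
    ‖m'' i j‖ ≤ 4 * D ^ 2 := by
  refine quo_bd fr_std hm h (fun a b => ?_) i j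
  unfold quo
  have e : ∀ (M : M4 k) (c r : Fin 4), (M *ᵥ Pi.single c 1) r = M r c := by
    intro M c r
    rw [mv_single]; rfl
  simp only [e]
  have := n4 (nrm_mul_le (h2 a 0) (h1 b 3)) (nrm_mul_le (h2 a 1) (h1 b 2))
    (nrm_mul_le (h2 a 2) (h1 b 1)) (nrm_mul_le (h2 a 3) (h1 b 0))
  calc _ ≤ 4 * (D * D) := this
    _ = _ := by ring

/-- one member: the output of `core` for a frame -/
theorem mem_core {C U : ℝ} (hC : 1 ≤ C) (hU : 1 ≤ U) {x x' : Fin 4 → k} {u : Fin 4 → Fin 4 → k}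
    (hu : Fr u) (h0 : u 0 = x) (h1 : x' = fun i => u 1 i + om x x' * u 3 i)
    (hn : ∀ j i, ‖u j i‖ ≤ U) {m : M4 k} (hm : Mem C x x' m) :
    ∃ (s : ℝ) (q : k), 0 < s ∧ s ≤ C * U ∧ ‖om x x'‖ ≤ 32 * (C * U) ^ 3 * s ∧
      ‖q‖ * (‖om x x'‖ * s) ≤ 32 * (C * U) ^ 3 ∧ (∀ i, ‖(m *ᵥ u 0) i‖ ≤ s) ∧
      (∀ i, ‖(m *ᵥ u 1) i‖ ≤ 32 * (C * U) ^ 3 * s) ∧
      (∀ i, ‖(m *ᵥ u 2) i - q * (m *ᵥ u 0) i‖ * s ≤ 32 * (C * U) ^ 3) ∧
      (∀ i, ‖(m *ᵥ u 3) i - q * (m *ᵥ u 1) i‖ * s ≤ 32 * (C * U) ^ 3) := by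
  have hCU : 1 ≤ C * U := one_le_mul_of_one_le_of_one_le hC hU
  have hC0 : 0 < C := by linarith
  have hle : C ≤ C * U := by nlinarith
  have hF := hu.map hm.iso
  obtain ⟨i0, hi0⟩ := Finite.exists_max fun i => ‖(m *ᵥ u 0) i‖
  obtain ⟨w, hw⟩ : ∃ w, w = om x x' := ⟨_, rfl⟩
  rw [← hw] at h1 ⊢
  have hx'e : m *ᵥ x' = fun i => (m *ᵥ u 1) i + w * (m *ᵥ u 3) i := by
    have : x' = u 1 + w • u 3 := by rw [h1]; rfl
    rw [this, mulVec_add, mulVec_smul]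
    rfl
  have c4 : ∀ i, ‖(m *ᵥ u 1) i + w * (m *ᵥ u 3) i‖ ≤ C * U := by
    intro i
    have := hm.c4 i
    rw [hx'e] at this
    exact this.trans hle
  have o3 : om x' (u 3) = 0 := by
    have e : om x' (u 3) = om (u 1) (u 3) + w * om (u 3) (u 3) := by
      rw [h1]; simp only [om]; ring
    rw [e, hu.h13, om_self]
    ring
  have c3 : ∀ i j, ‖mn (m *ᵥ u 1) (m *ᵥ u 3) i j‖ ≤ C * U := by
    intro i j
    have := hm.c3 (u 3) U (hn 3) o3 i j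
    rw [hx'e] at this
    have e : mn (fun i => (m *ᵥ u 1) i + w * (m *ᵥ u 3) i) (m *ᵥ u 3) i j =
        mn (m *ᵥ u 1) (m *ᵥ u 3) i j := by unfold mn; ring
    rwa [e] at this
  have c2 : ∀ i j, ‖mn (m *ᵥ u 0) (m *ᵥ u 2) i j‖ ≤ C * U := by
    intro i j
    have := hm.c2 (u 2) U (hn 2) (by rw [← h0]; exact hu.h02) i j
    rwa [← h0] at this
  have c1 : ‖(m *ᵥ u 0) i0‖ ≤ C * U := by
    have := hm.c1 i0
    rw [← h0] at this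
    exact this.trans hle
  obtain ⟨r1, r2, q, r3, r4, r5, r6⟩ := core hCU hF (w := w) hi0 ⟨i0, rfl⟩ c1 c2 c3 c4
  have p1 : C * U ≤ (C * U) ^ 3 := le_self_pow₀ hCU (by norm_num)
  have p2 : (C * U) ^ 2 ≤ (C * U) ^ 3 := pow_le_pow_right₀ hCU (by norm_num)
  refine ⟨_, q, r1, c1, ?_, r3, hi0, fun i => (r4 i).trans ?_, r5, fun i => (r6 i).trans ?_⟩
  · refine r2.trans ?_
    nlinarith
  · nlinarith
  · nlinarith

/-- **The two parameters.** -/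
theorem params {C δ : ℝ} (hC : 1 ≤ C) (hδ : 0 < δ) (hδ1 : δ ≤ 1) :
    ∃ C' : ℝ, 1 ≤ C' ∧ ∀ x x' : Fin 4 → k, (∀ i, ‖x i‖ ≤ 2) → (∀ i, ‖x' i‖ ≤ 2) →
      (∃ a b, δ ≤ ‖mn x x' a b‖) →
      ∃ (s : M4 k → ℝ) (q : M4 k → k),
        (∀ m, Mem C x x' m → 0 < s m ∧ s m ≤ C' ∧ ‖om x x'‖ ≤ C' * s m ∧
          ‖q m‖ * (‖om x x'‖ * s m) ≤ C') ∧
        ∀ m m' m'', Mem C x x' m → Mem C x x' m' → m'' * m = m' → s m ≤ 2 * s m' →
          s m' ≤ 2 * s m → ‖q m' - q m‖ * (s m * s m') ≤ 1 → ∀ i j, ‖m'' i j‖ ≤ C' := by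
  classical
  -- constants
  obtain ⟨D, hD⟩ : ∃ D : ℝ, D = 40 * C ^ 2 * 2 ^ 2 / (δ / 2) ^ 2 + 8 * C * 2 / (δ / 2) := ⟨_, rfl⟩
  have hC0 : 0 < C := by linarith
  have hD0 : 0 ≤ D := by rw [hD]; positivity
  obtain ⟨δ₂, hδ₂⟩ : ∃ δ₂ : ℝ, δ₂ = δ ^ 2 / (8 * 2 ^ 2) := ⟨_, rfl⟩
  have hδ₂0 : 0 < δ₂ := by rw [hδ₂]; positivity
  have hδ₂1 : δ₂ ≤ 1 := by
    rw [hδ₂, div_le_one (by norm_num)]
    nlinarith
  obtain ⟨U, hU⟩ : ∃ U : ℝ, U = 9 * 2 ^ 3 / δ₂ := ⟨_, rfl⟩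
  have hU1 : 1 ≤ U := by
    rw [hU, le_div_iff₀ hδ₂0]
    linarith
  obtain ⟨E, hE⟩ : ∃ E : ℝ, E = 32 * (C * U) ^ 3 := ⟨_, rfl⟩
  have hCU : 1 ≤ C * U := one_le_mul_of_one_le_of_one_le hC hU1
  have hE1 : 1 ≤ E := by
    rw [hE]
    have : 1 ≤ (C * U) ^ 3 := one_le_pow₀ hCU
    linarith
  have hCUE : C * U ≤ E := by
    rw [hE]
    have : C * U ≤ (C * U) ^ 3 := le_self_pow₀ hCU (by norm_num)
    nlinarith
  refine ⟨16 + 4 * D ^ 2 + 16 * E ^ 2, by nlinarith [sq_nonneg D, sq_nonneg E], ?_⟩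
  intro x x' hx hx' hs
  have hEbig : E ≤ 16 + 4 * D ^ 2 + 16 * E ^ 2 := by nlinarith [sq_nonneg D, sq_nonneg E]
  by_cases hw : δ / 2 ≤ ‖om x x'‖
  · -- opposite
    refine ⟨fun _ => 1, fun _ => 0, fun m hm => ⟨one_pos, ?_, ?_, ?_⟩, ?_⟩
    · nlinarith [sq_nonneg D, sq_nonneg E]
    · have : ‖om x x'‖ ≤ 4 * (2 * 2) := om_le hx hx'
      nlinarith [sq_nonneg D, sq_nonneg E]
    · rw [norm_zero, zero_mul]
      positivity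
    · intro m m' m'' hm hm' hmm _ _ _ i j
      have b : ∀ {m : M4 k}, Mem C x x' m → ∀ i j, ‖m i j‖ ≤ D := by
        intro m hm i j
        rw [hD]
        exact oppo hC (by norm_num) (by linarith) (by linarith) hm.iso hx hx' hw hm.c1 hm.c4
          hm.c2 i j
      refine (bdd_quo hm.iso hmm (b hm) (b hm') i j).trans ?_
      nlinarith [sq_nonneg D, sq_nonneg E]
  · push Not at hw
    obtain ⟨a, b, hab, hba, hmn⟩ := nondual (X := 2) (by norm_num) hδ hx hx' hs hw.le hδ1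
    obtain ⟨u, hu, h0, h1, hn⟩ := frame (X := 2) (δ := δ₂) (by norm_num) hδ₂0 hδ₂1 hx hx' hab hba
      (by rw [hδ₂]; exact hmn)
    rw [← hU] at hn
    have key : ∀ m, ∃ p : ℝ × k, Mem C x x' m → 0 < p.1 ∧ p.1 ≤ C * U ∧
        ‖om x x'‖ ≤ E * p.1 ∧
        ‖p.2‖ * (‖om x x'‖ * p.1) ≤ E ∧ (∀ i, ‖(m *ᵥ u 0) i‖ ≤ p.1) ∧
        (∀ i, ‖(m *ᵥ u 1) i‖ ≤ E * p.1) ∧
        (∀ i, ‖(m *ᵥ u 2) i - p.2 * (m *ᵥ u 0) i‖ * p.1 ≤ E) ∧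
        (∀ i, ‖(m *ᵥ u 3) i - p.2 * (m *ᵥ u 1) i‖ * p.1 ≤ E) := by
      intro m
      by_cases hm : Mem C x x' m
      · obtain ⟨s, q, r⟩ := mem_core hC hU1 hu h0 h1 hn hm
        rw [← hE] at r
        exact ⟨(s, q), fun _ => r⟩
      · exact ⟨(0, 0), fun h => absurd h hm⟩
    choose p hp using key
    refine ⟨fun m => (p m).1, fun m => (p m).2, fun m hm => ?_, ?_⟩
    · obtain ⟨r1, r2, r3, r4, -⟩ := hp m hm
      refine ⟨r1, r2.trans (hCUE.trans hEbig), r3.trans ?_, r4.trans hEbig⟩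
      exact mul_le_mul_of_nonneg_right hEbig r1.le
    · intro m m' m'' hm hm' hmm h1 h2 h3 i j
      obtain ⟨r1, r2, r3, r4, r5, r6, r7, r8⟩ := hp m hm
      obtain ⟨t1, t2, t3, t4, t5, t6, t7, t8⟩ := hp m' hm'
      have hq := quo_bd hu hm.iso hmm (D := 16 * E ^ 2)
        (fun i j => same hE1 (u := fun j => m *ᵥ u j) (u' := fun j => m' *ᵥ u j) r1 t1 r5 r6 r7
          r8 t5 t6 t7 t8 h1 h2 h3 i j) i j
      refine hq.trans ?_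
      nlinarith [sq_nonneg D, sq_nonneg E]

/-- The perturbation. -/
theorem pert {δ ρ : ℝ} (hδ : 0 < δ) (hρ : 0 < ρ) {w D t : k} (ht : ‖t‖ = ρ) (hD : δ ≤ ‖D‖) :
    ∃ τ : k, ‖τ‖ ≤ ρ ∧ ‖w‖ ≤ ‖w - τ * D‖ ∧ ρ * δ / 2 ≤ ‖w - τ * D‖ := by
  by_cases hw : ρ * δ / 2 ≤ ‖w‖
  · exact ⟨0, by rw [norm_zero]; exact hρ.le, by simp, by simpa using hw⟩
  · push Not at hw
    have h1 : ρ * δ ≤ ‖t * D‖ := by
      rw [norm_mul, ht]
      exact mul_le_mul_of_nonneg_left hD hρ.le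
    have h2 : ‖t * D‖ ≤ ‖w - t * D‖ + ‖w‖ := by
      have : t * D = w - (w - t * D) := by ring
      calc ‖t * D‖ = ‖w - (w - t * D)‖ := by rw [← this]
        _ ≤ ‖w‖ + ‖w - t * D‖ := norm_sub_le _ _
        _ = _ := by ring
    exact ⟨t, ht.le, by linarith, by linarith⟩

end Vale.Agent.P092.H574.W
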