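import Vale.Agent.P092.H574.W4
import Vale.Agent.P092.H923.PI5

/-!
P092, Track C, count row (helper574), part 5: the walls of elements of `Sp_4(ℂ)`, the base point
and the members of a class.
-/

set_option linter.all false

namespace Vale.Agent.P092.H574.W

open Matrix Vale.Agent.P092.H337.NG
open Vale.Agent.P092.SP4 (S4)
open Vale.Agent.P092.H923.PI (av pe norm_av norm_pe pe_ne pwall Eqv eqv_mul)

theorem om_sp (x y : Fin 4 → ℂ) : SP4.om x y = om x y := SP4.om_eq x y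

theorem isoS (g : S4 ℂ) : Iso g.1.1 :=
  ⟨fun x y => by rw [← om_sp, ← om_sp]; exact SP4.om_mulVec g.2 x y,
    fun y => ⟨(g.1⁻¹).1 *ᵥ y, by rw [mulVec_mulVec, coe_mul_inv, one_mulVec]⟩⟩

theorem av_le (g : S4 ℂ) (i : Fin 4) : ‖av g.1 i‖ ≤ 1 := by
  rw [← norm_av g.1]
  exact norm_le_pi_norm (av g.1) i

/-- the walls of an element -/
theorem wallS {R : ℝ} (hR : 0 ≤ R) {g₀ g : S4 ℂ} (h0 : SP.NW1 R g₀) (h1 : SP.NW1 R g)
    (hn : SP.nm g ≤ 2 * SP.nm g₀) {m : M4 ℂ} {c : ℂ} (hc : ‖c‖ = 1) (hm : m * g₀.1.1 = c • g.1.1)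
    {y : Fin 4 → ℂ} (hy : om (av g₀.1) y = 0) (hyn : ∀ i, ‖y i‖ ≤ 2) {τ : ℂ} (hτ : ‖τ‖ ≤ 1)
    (hτA : ‖τ‖ * SP.nm g₀ ≤ 1) :
    (∀ i, ‖(m *ᵥ (av g₀.1 + τ • y)) i‖ ≤ 8 * (1 + 8 * R)) ∧
      ∀ (v : Fin 4 → ℂ) (V : ℝ), (∀ i, ‖v i‖ ≤ V) → om (av g₀.1 + τ • y) v = 0 → ∀ i j,
        ‖mn (m *ᵥ (av g₀.1 + τ • y)) (m *ᵥ v) i j‖ ≤ 32 * R * (1 + 8 * R) * (8 + 12 * R) * V := by
  obtain ⟨ψ, hψ⟩ := pwall g₀.1 h0
  have hA : 0 < SP.nm g₀ := en_pos' g₀.1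
  refine wall hR (isoS g₀) hA (fun i j => entry_le _ i j) (norm_pe g₀.1)
    (fun i => rfl) ⟨(piv g₀.1).1, ?_⟩ (ψ := ψ) (fun i j => ?_) hc hm
    (fun i j => (entry_le _ i j).trans hn) ?_ hy hyn hτ hτA
  · change ‖(pe g₀.1)⁻¹ * pe g₀.1‖ = 1
    rw [inv_mul_cancel₀ (pe_ne _), norm_one]
  · have h2 := (norm_le_pi_norm _ i).trans (hψ j)
    rw [mulVec_single_one] at h2
    exact h2
  · have h2 : m2 g.1.1 ≤ R * SP.nm g := h1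
    exact h2.trans (mul_le_mul_of_nonneg_left hn hR)

/-- The base vectors of a class. -/
theorem base {δ A : ℝ} (hδ : 0 < δ) (hδ1 : δ ≤ 1) (hA : 0 < A) {x x' : Fin 4 → ℂ}
    (hx : ∀ i, ‖x i‖ ≤ 1) (hx' : ∀ i, ‖x' i‖ ≤ 1) (hs : ∃ a b, δ ≤ ‖mn x x' a b‖) :
    ∃ (y : Fin 4 → ℂ) (τ : ℂ), om x y = 0 ∧ (∀ i, ‖y i‖ ≤ 2) ∧ ‖τ‖ ≤ 1 ∧ ‖τ‖ * A ≤ 1 ∧
      (∀ i, ‖(x + τ • y) i‖ ≤ 2) ∧ (∃ a b, δ / 2 ≤ ‖mn (x + τ • y) x' a b‖) ∧
      δ ^ 2 / 16 * max ‖om x x'‖ (1 / max 1 A) ≤ ‖om (x + τ • y) x'‖ := by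
  obtain ⟨a, b, hab⟩ := hs
  have hm1 : (1 : ℝ) ≤ max 1 A := le_max_left _ _
  have hm0 : (0 : ℝ) < max 1 A := by linarith
  obtain ⟨ρ, hρ⟩ : ∃ ρ : ℝ, ρ = δ / 8 / max 1 A := ⟨_, rfl⟩
  have hρ0 : 0 < ρ := by rw [hρ]; positivity
  have hρ1 : ρ ≤ δ / 8 := by
    rw [hρ]
    exact div_le_self (by positivity) hm1
  have hρA : ρ * max 1 A = δ / 8 := by
    rw [hρ]
    field_simp
  obtain ⟨y, hy⟩ : ∃ y : Fin 4 → ℂ, y = cb (-x b) (x a) a b := ⟨_, rfl⟩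
  have o1 : om x y = 0 := by rw [hy, om_cb]; ring
  have o2 : om x' y = mn x x' a b := by rw [hy, om_cb]; unfold mn; ring
  have hyn : ∀ i, ‖y i‖ ≤ 2 := by
    intro i
    rw [hy]
    refine (cb_le (A := 1) (B := 1) (by rw [norm_neg]; exact hx b) (hx a) a b i).trans ?_
    norm_num
  obtain ⟨τ, t1, t2, t3⟩ := pert (k := ℂ) hδ hρ0 (w := om x x') (D := mn x x' a b)
    (t := (ρ : ℂ)) (by rw [Complex.norm_real, Real.norm_eq_abs, abs_of_pos hρ0]) hab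
  have e : om (x + τ • y) x' = om x x' - τ * mn x x' a b := by
    rw [← o2]
    simp only [om, Pi.add_apply, Pi.smul_apply, smul_eq_mul]
    ring
  refine ⟨y, τ, o1, hyn, by linarith, ?_, fun i => ?_, ⟨a, b, ?_⟩, ?_⟩
  · calc ‖τ‖ * A ≤ ρ * max 1 A := mul_le_mul t1 (le_max_right _ _) hA.le hρ0.le
      _ ≤ 1 := by rw [hρA]; linarith
  · rw [Pi.add_apply, Pi.smul_apply, smul_eq_mul]
    calc _ ≤ 1 + δ / 8 * 2 := (norm_add_le _ _).trans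
          (add_le_add (hx i) (nrm_mul_le (t1.trans hρ1) (hyn i)))
      _ ≤ 2 := by linarith
  · have e2 : mn (x + τ • y) x' a b = mn x x' a b + τ * mn y x' a b := by
      simp only [mn, Pi.add_apply, Pi.smul_apply, smul_eq_mul]
      ring
    have h1 : ‖mn y x' a b‖ ≤ 4 := by
      unfold mn
      refine (norm_sub_le _ _).trans ?_
      have q1 := nrm_mul_le (hyn a) (hx' b)
      have q2 := nrm_mul_le (hyn b) (hx' a)
      linarith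
    have h2 : ‖τ * mn y x' a b‖ ≤ δ / 8 * 4 := nrm_mul_le (t1.trans hρ1) h1
    have h3 : ‖mn x x' a b‖ ≤ ‖mn (x + τ • y) x' a b‖ + ‖τ * mn y x' a b‖ := by
      have : mn x x' a b = mn (x + τ • y) x' a b - τ * mn y x' a b := by rw [e2]; ring
      rw [this]
      exact norm_sub_le _ _
    linarith
  · rw [e]
    have hd : δ ^ 2 / 16 ≤ 1 := by
      have : δ ^ 2 ≤ 1 := pow_le_one₀ hδ.le hδ1
      linarith
    rcases max_choice ‖om x x'‖ (1 / max 1 A) with h | h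
    · rw [h]
      calc _ ≤ 1 * ‖om x x'‖ := mul_le_mul_of_nonneg_right hd (norm_nonneg _)
        _ = ‖om x x'‖ := one_mul _
        _ ≤ _ := t2
    · rw [h]
      refine le_trans (le_of_eq ?_) t3
      rw [hρ]
      field_simp
      ring

/-- The members of a class. -/
theorem memS {R : ℝ} (hR : 0 ≤ R) {C : ℝ}
    (hC : C = 1 + 8 * (1 + 8 * R) + 32 * R * (1 + 8 * R) * (8 + 12 * R))
    {g₀ g h₀ h : S4 ℂ} (a0 : SP.NW1 R g₀) (a1 : SP.NW1 R g) (a2 : SP.nm g ≤ 2 * SP.nm g₀)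
    (b0 : SP.NW1 R h₀) (b1 : SP.NW1 R h) (b2 : SP.nm h ≤ SP.nm h₀)
    {m : S4 ℂ} {c : ℂ} (hc : ‖c‖ = 1) (hm : m.1.1 * g₀.1.1 = c • g.1.1)
    (hm' : m.1.1 * h₀.1.1 = h.1.1) {y : Fin 4 → ℂ} (hy : om (av g₀.1) y = 0)
    (hyn : ∀ i, ‖y i‖ ≤ 2) {τ : ℂ} (hτ : ‖τ‖ ≤ 1) (hτA : ‖τ‖ * SP.nm g₀ ≤ 1) :
    Mem C (av g₀.1 + τ • y) (av h₀.1) m.1.1 := by
  obtain ⟨r1, r2⟩ := wallS hR a0 a1 a2 hc hm hy hyn hτ hτA
  have hh0 : 0 < SP.nm h₀ := en_pos' h₀.1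
  obtain ⟨s1, s2⟩ := wallS hR b0 b1 (by linarith) (c := 1) norm_one (m := m.1.1)
    (by rw [one_smul]; exact hm') (y := 0) (by simp [om]) (fun i => by simp) (τ := 0) (by simp)
    (by simp)
  rw [smul_zero, add_zero] at s1 s2
  have e1 : 8 * (1 + 8 * R) ≤ C := by
    have : 0 ≤ 32 * R * (1 + 8 * R) * (8 + 12 * R) := by positivity
    linarith
  have e2 : 32 * R * (1 + 8 * R) * (8 + 12 * R) ≤ C := by
    have : 0 ≤ 8 * (1 + 8 * R) := by positivity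
    linarith
  refine ⟨(isoS m).iso, fun i => (r1 i).trans e1, fun i => (s1 i).trans e1, ?_, ?_⟩
  · intro v V hv hv0 i j
    have hV : 0 ≤ V := (norm_nonneg _).trans (hv 0)
    exact (r2 v V hv hv0 i j).trans (mul_le_mul_of_nonneg_right e2 hV)
  · intro v V hv hv0 i j
    have hV : 0 ≤ V := (norm_nonneg _).trans (hv 0)
    exact (s2 v V hv hv0 i j).trans (mul_le_mul_of_nonneg_right e2 hV)

end Vale.Agent.P092.H574.W
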