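import Vale.Agent.P092.H574.W5
import Vale.Agent.P092.H862.Pig

/-!
P092, Track C, count row (helper574), part 6: the class sum and the count for two point walls.
-/

set_option linter.all false

namespace Vale.Agent.P092.H574.W

open Matrix Vale.Agent.P092.H337.NG
open Vale.Agent.P092.SP4 (S4)
open Vale.Agent.P092.H923.PI (av pe norm_av norm_pe pe_ne pwall Eqv eqv_mul)
open Vale.Agent.P092.H862.Pig (pig1 pig2)

variable {Γ : Type} [Group Γ] {q : Γ → S4 ℂ}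

/-- the weight of an element -/
noncomputable def wt (q : Γ → S4 ℂ) (η γ : Γ) : ℝ :=
  max ‖om (av (q (γ * η)).1) (av (q γ).1)‖ (1 / max 1 (SP.nm (q (γ * η))))

theorem wt_pos (η γ : Γ) : 0 < wt q η γ :=
  lt_of_lt_of_le (by positivity) (le_max_right _ _)

theorem wt_le (η γ : Γ) : wt q η γ ≤ 4 := by
  refine max_le ?_ ?_
  · calc _ ≤ 4 * (1 * 1) := om_le (av_le _) (av_le _)
      _ = 4 := by norm_num
  · have : (1 : ℝ) ≤ max 1 (SP.nm (q (γ * η))) := le_max_left _ _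
    calc _ ≤ (1 : ℝ) := by
          rw [div_le_one (by linarith)]
          exact this
      _ ≤ 4 := by norm_num

theorem wt_mul (η γ : Γ) : 1 ≤ wt q η γ * max 1 (SP.nm (q (γ * η))) := by
  have h1 : (1 : ℝ) ≤ max 1 (SP.nm (q (γ * η))) := le_max_left _ _
  have h2 : 1 / max 1 (SP.nm (q (γ * η))) ≤ wt q η γ := le_max_right _ _
  rwa [div_le_iff₀ (by linarith)] at h2

theorem nm_ge (g : S4 ℂ) : 1 / 2 ≤ SP.nm g := by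
  have h1 := (isoS g).iso (Pi.single 0 1) (Pi.single 3 1)
  have e : ∀ c, g.1.1 *ᵥ Pi.single c 1 = cl g.1.1 c := fun c => mv_single _ _
  have h2 : om (cl g.1.1 0) (cl g.1.1 3) = 1 := by
    rw [← e, ← e, h1]
    simp [om]
  have h3 : ‖om (cl g.1.1 0) (cl g.1.1 3)‖ ≤ 4 * (SP.nm g * SP.nm g) :=
    om_le (fun i => entry_le _ i 0) (fun i => entry_le _ i 3)
  rw [h2, norm_one] at h3
  have h4 : 0 < SP.nm g := en_pos' g.1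
  nlinarith

/-- the multiplier -/
theorem mulc (hq : SP.PH q) (η γ γ₀ : Γ) : ∃ c : ℂ, ‖c‖ = 1 ∧
    (q γ * (q γ₀)⁻¹).1.1 * (q (γ₀ * η)).1.1 = c • (q (γ * η)).1.1 := by
  obtain ⟨c₁, h₁, e₁⟩ := eqv_mul hq γ η
  obtain ⟨c₂, h₂, e₂⟩ := eqv_mul hq γ₀ η
  have hc₁ : c₁ ≠ 0 := by rw [← norm_pos_iff, h₁]; exact one_pos
  refine ⟨c₂ * c₁⁻¹, by rw [norm_mul, norm_inv, h₁, h₂]; norm_num, ?_⟩
  rw [e₁, e₂, smul_smul, inv_mul_cancel_right₀ hc₁, Matrix.mul_smul]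
  congr 1
  have e : q γ * (q γ₀)⁻¹ * (q γ₀ * q η) = q γ * q η := by group
  exact congrArg (fun g : S4 ℂ => g.1.1) e

/-- **The class sum.** -/
theorem cls (hq : SP.PH q) (hud : SP.UD q) {R C₀ δ : ℝ} (hR : 0 ≤ R) (hC₀ : 0 ≤ C₀)
    (hδ : 0 < δ) (hδ1 : δ ≤ 1) {F : S4 ℂ → S4 ℂ → ℝ} (hF0 : ∀ g h, 0 ≤ F g h)
    (hF : ∀ g h, F g h ≤ C₀ * ‖om (av g.1) (av h.1)‖)
    (hFs : ∀ g h, F g h ≠ 0 → ∃ a b, δ ≤ ‖mn (av g.1) (av h.1) a b‖) :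
    ∃ K : ℝ, 0 ≤ K ∧ ∀ J : ℝ, 0 ≤ J → ∀ (η : Γ) (T : Finset Γ),
      (∀ γ ∈ T, SP.NW1 R (q (γ * η)) ∧ SP.NW1 R (q γ) ∧ Real.log (SP.nm (q (γ * η))) ≤ J) →
      (∀ γ ∈ T, ∀ γ' ∈ T, SP.nm (q (γ * η)) ≤ 2 * SP.nm (q (γ' * η)) ∧
        wt q η γ ≤ 2 * wt q η γ') →
      ∑ γ ∈ T, F (q (γ * η)) (q γ) ^ 2 ≤ K * (1 + J) := by
  classical
  obtain ⟨C, hC⟩ : ∃ C : ℝ, C = 1 + 8 * (1 + 8 * R) + 32 * R * (1 + 8 * R) * (8 + 12 * R) :=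
    ⟨_, rfl⟩
  have hC1 : 1 ≤ C := by
    have h1 : 0 ≤ 8 * (1 + 8 * R) := by positivity
    have h2 : 0 ≤ 32 * R * (1 + 8 * R) * (8 + 12 * R) := by positivity
    linarith
  obtain ⟨C', hC', HP⟩ := params (k := ℂ) hC1 (half_pos hδ) (by linarith : δ / 2 ≤ 1)
  obtain ⟨N, hN⟩ := hud C'
  have hCC : 1 ≤ C' ^ 2 := one_le_pow₀ hC'
  have hCle : C' ≤ C' ^ 2 := le_self_pow₀ hC' (by norm_num)
  obtain ⟨K, hK, HK⟩ := pig1 (ι := Γ) (C' ^ 2) hCC N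
  obtain ⟨L, hL⟩ : ∃ L : ℝ, L = |Real.log (16 / δ ^ 2)| + |Real.log (C' ^ 2)| := ⟨_, rfl⟩
  have hL0 : 0 ≤ L := by rw [hL]; positivity
  refine ⟨4 * C₀ ^ 2 * (16 / δ ^ 2) ^ 2 * K * (1 + L), by positivity, ?_⟩
  intro J hJ η T hT hcl
  obtain ⟨T₁, hT₁⟩ : ∃ T₁, T₁ = T.filter fun γ => F (q (γ * η)) (q γ) ≠ 0 := ⟨_, rfl⟩
  have hsub : T₁ ⊆ T := by rw [hT₁]; exact Finset.filter_subset _ _
  have hsum : ∑ γ ∈ T, F (q (γ * η)) (q γ) ^ 2 = ∑ γ ∈ T₁, F (q (γ * η)) (q γ) ^ 2 := by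
    refine (Finset.sum_subset hsub fun γ hγ hn => ?_).symm
    have : F (q (γ * η)) (q γ) = 0 := by
      by_contra hne
      exact hn (by rw [hT₁]; exact Finset.mem_filter.2 ⟨hγ, hne⟩)
    rw [this]
    ring
  rw [hsum]
  rcases T₁.eq_empty_or_nonempty with he | hne
  · rw [he, Finset.sum_empty]
    positivity
  obtain ⟨γ₀, hγ₀, hmax⟩ := T₁.exists_max_image (fun γ => SP.nm (q γ)) hne
  have hγ₀T := hsub hγ₀
  obtain ⟨a0, b0, c0⟩ := hT γ₀ hγ₀T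
  have hA0 : 0 < SP.nm (q (γ₀ * η)) := en_pos' (q (γ₀ * η)).1
  have hFγ₀ : F (q (γ₀ * η)) (q γ₀) ≠ 0 := by
    rw [hT₁] at hγ₀
    exact (Finset.mem_filter.1 hγ₀).2
  obtain ⟨y, τ, o1, o2, o3, o4, o5, o6, o7⟩ := base hδ hδ1 hA0 (av_le (q (γ₀ * η)))
    (av_le (q γ₀)) (hFs _ _ hFγ₀)
  obtain ⟨x, hx⟩ : ∃ x, x = av (q (γ₀ * η)).1 + τ • y := ⟨_, rfl⟩
  rw [← hx] at o5 o6 o7
  obtain ⟨W, hW⟩ : ∃ W, W = ‖om x (av (q γ₀).1)‖ := ⟨_, rfl⟩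
  have hw7 : δ ^ 2 / 16 * wt q η γ₀ ≤ W := by rw [hW]; exact o7
  have hW0 : 0 < W := lt_of_lt_of_le (mul_pos (by positivity) (wt_pos η γ₀)) hw7
  have hmem : ∀ γ ∈ T₁, Mem C x (av (q γ₀).1) (q γ * (q γ₀)⁻¹).1.1 := by
    intro γ hγ
    obtain ⟨a1, b1, c1⟩ := hT γ (hsub hγ)
    obtain ⟨c, hc, hm⟩ := mulc hq η γ γ₀
    rw [hx]
    refine memS hR hC a0 a1 (hcl γ (hsub hγ) γ₀ hγ₀T).1 b0 b1 (hmax γ hγ) hc hm ?_ o1 o2 o3 o4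
    have e : q γ * (q γ₀)⁻¹ * q γ₀ = q γ := by group
    exact congrArg (fun g : S4 ℂ => g.1.1) e
  obtain ⟨s, p, P1, P2⟩ := HP x (av (q γ₀).1) o5 (fun i => (av_le (q γ₀) i).trans (by norm_num)) o6
  rw [← hW] at P1
  obtain ⟨z1, z2, z3, -⟩ := P1 _ (hmem γ₀ hγ₀)
  have hWC : W ≤ C' ^ 2 := by
    refine z3.trans ?_
    rw [sq]
    exact mul_le_mul_of_nonneg_left z2 (by linarith)
  have hcard := HK W hW0 hWC T₁ (fun γ => s (q γ * (q γ₀)⁻¹).1.1)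
    (fun γ => p (q γ * (q γ₀)⁻¹).1.1) (fun γ hγ => by
      obtain ⟨r1, r2, r3, r4⟩ := P1 _ (hmem γ hγ)
      exact ⟨r1, r2.trans hCle, r3.trans (mul_le_mul_of_nonneg_right hCle r1.le), r4.trans hCle⟩)
    (fun T' hT' hcell => by
      refine hN T' (fun _ _ => Set.mem_univ _) fun γ hγ γ' hγ' => ?_
      refine en_le_of (by linarith) fun i j => ?_
      refine P2 _ _ (q γ' * (q γ)⁻¹).1.1 (hmem γ (hT' hγ)) (hmem γ' (hT' hγ')) ?_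
        (hcell γ hγ γ' hγ').1 (hcell γ' hγ' γ hγ).1 ?_ i j
      · have e : q γ' * (q γ)⁻¹ * (q γ * (q γ₀)⁻¹) = q γ' * (q γ₀)⁻¹ := by group
        exact congrArg (fun g : S4 ℂ => g.1.1) e
      · have h1 := (hcell γ' hγ' γ hγ).2
        rwa [mul_comm (s _) (s _)])
  -- the terms
  have hd : 0 < 16 / δ ^ 2 := by positivity
  have hwW : wt q η γ₀ ≤ 16 / δ ^ 2 * W := by
    have h1 := mul_le_mul_of_nonneg_left hw7 hd.le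
    have e : 16 / δ ^ 2 * (δ ^ 2 / 16 * wt q η γ₀) = wt q η γ₀ := by
      field_simp
    rwa [e] at h1
  have hterm : ∀ γ ∈ T₁, F (q (γ * η)) (q γ) ^ 2 ≤ 4 * C₀ ^ 2 * (16 / δ ^ 2) ^ 2 * W ^ 2 := by
    intro γ hγ
    have h1 : F (q (γ * η)) (q γ) ≤ C₀ * (2 * (16 / δ ^ 2 * W)) := by
      refine (hF _ _).trans (mul_le_mul_of_nonneg_left ?_ hC₀)
      calc _ ≤ wt q η γ := le_max_left _ _
        _ ≤ 2 * wt q η γ₀ := (hcl γ (hsub hγ) γ₀ hγ₀T).2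
        _ ≤ _ := mul_le_mul_of_nonneg_left hwW (by norm_num)
    calc _ ≤ (C₀ * (2 * (16 / δ ^ 2 * W))) ^ 2 := pow_le_pow_left₀ (hF0 _ _) h1 2
      _ = _ := by ring
  -- the logarithm
  have hlog : 1 + |Real.log W| ≤ (1 + L) * (1 + J) := by
    have h1 : Real.log W ≤ |Real.log (C' ^ 2)| :=
      (Real.log_le_log hW0 hWC).trans (le_abs_self _)
    have hM1 : (1 : ℝ) ≤ max 1 (SP.nm (q (γ₀ * η))) := le_max_left _ _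
    have hM0 : (0 : ℝ) < max 1 (SP.nm (q (γ₀ * η))) := by linarith
    have h2 : 1 ≤ 16 / δ ^ 2 * W * max 1 (SP.nm (q (γ₀ * η))) :=
      (wt_mul η γ₀).trans (mul_le_mul_of_nonneg_right hwW hM0.le)
    have h3 : 0 ≤ Real.log (16 / δ ^ 2) + Real.log W +
        Real.log (max 1 (SP.nm (q (γ₀ * η)))) := by
      rw [← Real.log_mul hd.ne' hW0.ne', ← Real.log_mul (by positivity) hM0.ne']
      exact Real.log_nonneg h2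
    have h4 : Real.log (max 1 (SP.nm (q (γ₀ * η)))) ≤ J := by
      rcases max_choice 1 (SP.nm (q (γ₀ * η))) with h | h
      · rw [h, Real.log_one]
        exact hJ
      · rw [h]
        exact c0
    have h5 : -Real.log W ≤ |Real.log (16 / δ ^ 2)| + J := by
      have := le_abs_self (Real.log (16 / δ ^ 2))
      linarith
    have h6 : |Real.log W| ≤ L + J := by
      rw [abs_le]
      have q1 := abs_nonneg (Real.log (16 / δ ^ 2))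
      have q2 := abs_nonneg (Real.log (C' ^ 2))
      constructor <;> linarith
    nlinarith
  calc ∑ γ ∈ T₁, F (q (γ * η)) (q γ) ^ 2 ≤ ∑ _γ ∈ T₁, 4 * C₀ ^ 2 * (16 / δ ^ 2) ^ 2 * W ^ 2 :=
        Finset.sum_le_sum hterm
    _ = 4 * C₀ ^ 2 * (16 / δ ^ 2) ^ 2 * ((T₁.card : ℝ) * W ^ 2) := by
        rw [Finset.sum_const, nsmul_eq_mul]; ring
    _ ≤ 4 * C₀ ^ 2 * (16 / δ ^ 2) ^ 2 * (K * (1 + |Real.log W|)) :=
        mul_le_mul_of_nonneg_left hcard (by positivity)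
    _ ≤ 4 * C₀ ^ 2 * (16 / δ ^ 2) ^ 2 * (K * ((1 + L) * (1 + J))) := by gcongr
    _ = _ := by ring

/-- **The count for two point walls.** -/
theorem count (hq : SP.PH q) (hud : SP.UD q) {R C₀ δ : ℝ} (hR : 0 ≤ R) (hC₀ : 0 ≤ C₀)
    (hδ : 0 < δ) (hδ1 : δ ≤ 1) {F : S4 ℂ → S4 ℂ → ℝ} (hF0 : ∀ g h, 0 ≤ F g h)
    (hF : ∀ g h, F g h ≤ C₀ * ‖om (av g.1) (av h.1)‖)
    (hFs : ∀ g h, F g h ≠ 0 → ∃ a b, δ ≤ ‖mn (av g.1) (av h.1) a b‖) :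
    ∃ C : ℝ, 0 ≤ C ∧ ∀ J : ℝ, 0 ≤ J → ∀ (η : Γ) (S : Finset Γ),
      (∀ γ ∈ S, SP.NW1 R (q (γ * η)) ∧ SP.NW1 R (q γ) ∧ Real.log (SP.nm (q (γ * η))) ≤ J) →
      ∑ γ ∈ S, F (q (γ * η)) (q γ) ^ 2 ≤ C * (1 + J) ^ 3 := by
  obtain ⟨K, hK, H⟩ := cls hq hud hR hC₀ hδ hδ1 hF0 hF hFs
  obtain ⟨C, hC, HC⟩ := pig2 (ι := Γ) (1 / 2) K (by norm_num) hK
  refine ⟨C, hC, fun J hJ η S hS => ?_⟩
  refine HC J hJ S (fun γ => SP.nm (q (γ * η))) (fun γ => wt q η γ)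
    (fun γ => F (q (γ * η)) (q γ) ^ 2)
    (fun γ hγ => ⟨nm_ge _, (hS γ hγ).2.2, wt_pos η γ, wt_mul η γ, wt_le η γ⟩) ?_
  intro T hT hcl
  exact H J hJ η T (fun γ hγ => hS γ (hT hγ)) hcl

end Vale.Agent.P092.H574.W
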