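import Vale.Agent.P092.H574.W6
import Vale.Agent.P092.H616.Dict
import Vale.Agent.P092.H899.T3

/-!
P092, Track C, count row (helper574), part 7: the weighted count for two point walls in the letters
of the engine (helper486) and of `O2` (helper616).
-/

set_option linter.all false

namespace Vale.Agent.P092.H574.W

open Matrix Vale.Agent.P092.H337.NG
open Vale.Agent.P092.SP4 (S4)
open Vale.Agent.P092.RC (YY)
open Vale.Agent.P092.H923.PI (av pe norm_av norm_pe pe_ne)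
open Vale.Agent.P092.H899.T (l1 l2 bpt nw1_iff)
open Vale.Agent.P092.H616.CH (Sec Far)

theorem av_ne (g : S4 ℂ) : av g.1 ≠ 0 := by
  intro h
  have := norm_av g.1
  rw [h, norm_zero] at this
  exact zero_ne_one this

theorem bpt_av (g : S4 ℂ) : bpt g = Projectivization.mk ℂ (av g.1) (av_ne g) := by
  change Projectivization.mk ℂ (vc g.1) (vc_ne g.1) = _
  rw [Projectivization.mk_eq_mk_iff']
  refine ⟨pe g.1, ?_⟩
  change pe g.1 • ((pe g.1)⁻¹ • vc g.1) = vc g.1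
  rw [smul_inv_smul₀ (pe_ne g.1)]

/-- **WCnt for two point walls.** -/
theorem wcnt {Γ : Type} [Group Γ] {q : Γ → S4 ℂ} (hq : SP.PH q) (hud : SP.UD q) {n : ℕ}
    {u v : Fin n → C(YY ℂ 3, ℂ)} {C δ : ℝ} (hδ : 0 < δ) (h1 : Sec C u v) (h2 : Far δ u v)
    (r : ℝ) :
    ∃ C' : ℝ, 0 ≤ C' ∧ ∀ J : ℝ, 0 ≤ J → ∀ (η : Γ) (S : Finset Γ),
      (∀ γ ∈ S, (l2 (q (γ * η)) ≤ r ∧ l2 (q (γ * η)) ≤ l1 (q (γ * η))) ∧
        Real.log (SP.nm (q (γ * η))) ≤ J ∧ (l2 (q γ) ≤ r ∧ l2 (q γ) ≤ l1 (q γ))) →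
      ∑ γ ∈ S, ‖∑ i, u i (bpt (q (γ * η))) * v i (bpt (q γ))‖ ^ 2 ≤ C' * (1 + J) ^ 3 := by
  obtain ⟨C₀, δ₀, a0, a1, a2, H⟩ := H616.CH.dict hδ h1 h2
  obtain ⟨C', hC', HC⟩ := count hq hud (R := Real.exp (r / 2)) (Real.exp_pos _).le a0 a1 a2
    (F := fun g h => ‖∑ i, u i (bpt g) * v i (bpt h)‖) (fun _ _ => norm_nonneg _)
    (fun g h => by
      have := (H (av g.1) (av h.1) (av_ne g) (av_ne h) (norm_av _) (norm_av _)).1
      rw [← bpt_av, ← bpt_av, om_sp] at this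
      exact this)
    (fun g h hne => by
      have := (H (av g.1) (av h.1) (av_ne g) (av_ne h) (norm_av _) (norm_av _)).2
      rw [← bpt_av, ← bpt_av] at this
      exact this (norm_ne_zero_iff.1 hne))
  refine ⟨C', hC', fun J hJ η S hS => HC J hJ η S fun γ hγ => ?_⟩
  obtain ⟨⟨b1, -⟩, b2, b3, -⟩ := hS γ hγ
  have e : 2 * Real.log (Real.exp (r / 2)) = r := by rw [Real.log_exp]; ring
  exact ⟨(nw1_iff (Real.exp_pos _)).2 (by rw [e]; exact b1),
    (nw1_iff (Real.exp_pos _)).2 (by rw [e]; exact b3), b2⟩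

end Vale.Agent.P092.H574.W
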