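import Vale.Agent.P092.H574.W7
import Vale.Agent.P092.H486.RelE

/-!
P092, Track C, count row (helper574), part 8: `wcnt` in the letters of helper486's `rel_same`.
-/

set_option linter.all false

namespace Vale.Agent.P092.H574.W

open Vale.Agent.P092.SP4 (S4)
open Vale.Agent.P092.RC (YY)
open Vale.Agent.P092.H899.T (l1 l2 bpt)
open Vale.Agent.P092.H616.CH (Sec Far)

/-- the weighted count, in the letters of `H486.Rel.rel_same` -/
theorem wc {Γ : Type} [Group Γ] {q : Γ → S4 ℂ} (hq : SP.PH q) (hud : SP.UD q) {n : ℕ}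
    {u v : Fin n → C(YY ℂ 3, ℂ)} {C δ : ℝ} (hδ : 0 < δ) (h1 : Sec C u v) (h2 : Far δ u v) :
    H486.Rel.WCnt (fun γ => l1 (q γ)) (fun γ => l2 (q γ)) (fun γ => bpt (q γ))
      (fun γ => SP.nm (q γ)) u v := fun r => by
  obtain ⟨C', -, H⟩ := wcnt hq hud hδ h1 h2 r
  exact ⟨C', 3, H⟩

end Vale.Agent.P092.H574.W
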